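import Vale.Agent.P230.Group

/-!
The numerical conditions hold for all large dimensions.
-/

namespace Vale.Agent.P230

open Filter

/-- the cost budget of a witness -/
noncomputable def budget (n : ℕ) : ℝ := 48 / 1000000 * (n * Real.log n)

/-- the number of scales -/
noncomputable def levels (n : ℕ) : ℕ := ⌊Real.log n / 40⌋₊

/-- the radius of a group -/
noncomputable def grad : ℝ := 1 / 1000000

/-- the largest number of relevant centres -/
noncomputable def maxCentres (n : ℕ) : ℝ := (n : ℝ) ^ 2 * (5 / 2 : ℝ) ^ n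

/-- all numerical conditions used in the proof -/
structure MainNum (A : ℝ) (n : ℕ) : Prop where
  n_two : 2 ≤ n
  group : GroupNum A (budget n) n (levels n)
  ratio : 4 * budget n / (levels n : ℕ) ≤ n / 50
  beta : (n : ℝ) ^ 2 * maxCentres n *
      ((1 / (n : ℝ) ^ (-(1 / 3) : ℝ) + 2) * (3 * (n : ℝ) ^ (-(1 / 3) : ℝ)) ^ n) ≤
    Real.exp (-(4 * budget n)) * (grad ^ n / 2)
  small : (n : ℝ) ^ (-(1 / 3) : ℝ) ≤ 1 / 4
  entropy : 13 * (n : ℝ) ^ 2 * maxCentres n ≤
    (1 / 2 : ℝ) ^ (n + 1) / (maxCentres n ^ 2 * (30000 * (12 / 100000 : ℝ) ^ n)) *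
      (Real.exp (-(n / 50 : ℝ)) / 3)
  tiny : Real.exp (-(n : ℝ)) < Real.exp (-A) / 2
  core : (rlo n + 1 / (n : ℝ) ^ 2) ^ n ≤ 3 / (n : ℝ) ^ 3
  outer : (1 + 3 / (n : ℝ) ^ 2) ^ n ≤ 3
  logn : 8 * (n * Real.log n) ≤ (n : ℝ) ^ 2 ∧ 24 * (n * Real.log n) / (n : ℝ) ^ 3 ≤ 1 / 12
  slope : 3 * cc ^ 2 / (n : ℝ) ≤ A
  gnorm_le : gnorm n ≤ n
  rlo_ge : 9 / 10 ≤ rlo n
  rhi_le : rhi n ≤ 11 / 10

theorem ev_log_le {c : ℝ} (hc : 0 < c) : ∀ᶠ n : ℕ in atTop, Real.log n ≤ c * n := by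
  have h := (Real.isLittleO_log_id_atTop.comp_tendsto tendsto_natCast_atTop_atTop).bound hc
  filter_upwards [h] with n hn
  simpa [abs_of_nonneg (Real.log_natCast_nonneg n)] using hn

theorem ev_log_le_rpow {c p : ℝ} (hc : 0 < c) (hp : 0 < p) :
    ∀ᶠ n : ℕ in atTop, Real.log n ≤ c * (n : ℝ) ^ p := by
  have h := ((isLittleO_log_rpow_atTop hp).comp_tendsto tendsto_natCast_atTop_atTop).bound hc
  filter_upwards [h] with n hn
  simpa [abs_of_nonneg (Real.log_natCast_nonneg n),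
    abs_of_nonneg (Real.rpow_nonneg (Nat.cast_nonneg n) p)] using hn

theorem ev_const_le_log (c : ℝ) : ∀ᶠ n : ℕ in atTop, c ≤ Real.log n :=
  (Real.tendsto_log_atTop.comp tendsto_natCast_atTop_atTop).eventually_ge_atTop c

theorem ev_le_natCast (c : ℝ) : ∀ᶠ n : ℕ in atTop, c ≤ (n : ℝ) :=
  tendsto_natCast_atTop_atTop.eventually_ge_atTop c

theorem ev_rpow_lt {a b : ℝ} (c : ℝ) (hab : a < b) :
    ∀ᶠ n : ℕ in atTop, c * (n : ℝ) ^ a ≤ (n : ℝ) ^ b := by
  have h : Tendsto (fun n : ℕ => (n : ℝ) ^ (b - a)) atTop atTop :=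
    (tendsto_rpow_atTop (by linarith)).comp tendsto_natCast_atTop_atTop
  filter_upwards [h.eventually_ge_atTop c, ev_le_natCast 1] with n hn h1
  rw [show b = (b - a) + a by ring, Real.rpow_add (by linarith)]
  exact mul_le_mul_of_nonneg_right hn (Real.rpow_nonneg (by linarith) _)

theorem two_pow_levels {n : ℕ} (hn : 1 ≤ n) :
    (2 : ℝ) ^ levels n ≤ (n : ℝ) ^ (1 / 50 : ℝ) := by
  have h : (levels n : ℝ) ≤ Real.log n / 40 :=
    Nat.floor_le (by linarith [Real.log_natCast_nonneg n])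
  rw [Real.rpow_def_of_pos (by exact_mod_cast hn), ← Real.exp_log (show (0 : ℝ) < 2 by norm_num),
    ← Real.exp_nat_mul]
  refine Real.exp_le_exp.2 ?_
  have := Real.log_two_lt_d9
  have h0 : (0 : ℝ) ≤ levels n := Nat.cast_nonneg _
  nlinarith [Real.log_natCast_nonneg n]

theorem groupNum_eventually (A : ℝ) (hA : 1 ≤ A) :
    ∀ᶠ n : ℕ in atTop, GroupNum A (budget n) n (levels n) := by
  filter_upwards [ev_le_natCast 2, ev_log_le (c := 1 / 100) (by norm_num), ev_const_le_log 80,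
    ev_log_le_rpow (c := 1 / 100) (p := 1 / 5) (by norm_num) (by norm_num),
    ev_rpow_lt (a := 0) (b := 1 / 5) (100 * (A + Real.log (4 * A))) (by norm_num),
    ev_rpow_lt (a := 0) (b := 1 / 3) (100 * (A + Real.log (4 * A))) (by norm_num),
    ev_rpow_lt (a := 6 / 25) (b := 1 / 3) (100 * A) (by norm_num),
    ev_rpow_lt (a := 1 / 5) (b := 1 / 3) 100 (by norm_num)] with n hn hlog hlog80 hlp h5 h3 hab h53
  have hn0 : (0 : ℝ) < n := by linarith
  have hl : 0 ≤ Real.log n := Real.log_natCast_nonneg n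
  have hn1 : 1 ≤ n := by exact_mod_cast (show (1 : ℝ) ≤ n by linarith)
  rw [Real.rpow_zero, mul_one] at h5 h3
  have e1 : (n : ℝ) * scl n 0 ^ 2 = (n : ℝ) ^ (1 / 5 : ℝ) := by
    rw [scl, pow_zero, one_mul, ← Real.rpow_natCast, ← Real.rpow_mul hn0.le]
    nth_rw 1 [← Real.rpow_one (n : ℝ)]
    rw [← Real.rpow_add hn0]; norm_num
  have e2 : (n : ℝ) * ((n : ℝ) ^ (-(1 / 3) : ℝ)) ^ 2 = (n : ℝ) ^ (1 / 3 : ℝ) := by
    rw [← Real.rpow_natCast, ← Real.rpow_mul hn0.le]
    nth_rw 1 [← Real.rpow_one (n : ℝ)]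
    rw [← Real.rpow_add hn0]; norm_num
  have e3 : (n : ℝ) * ((n : ℝ) ^ (-(19 / 50) : ℝ)) ^ 2 = (n : ℝ) ^ (6 / 25 : ℝ) := by
    rw [← Real.rpow_natCast, ← Real.rpow_mul hn0.le]
    nth_rw 1 [← Real.rpow_one (n : ℝ)]
    rw [← Real.rpow_add hn0]; norm_num
  have hA4 : Real.log (4 * A) = Real.log 4 + Real.log A :=
    Real.log_mul (by norm_num) (by linarith)
  have hAl : 0 ≤ Real.log A := Real.log_nonneg hA
  have h4 : 0 ≤ Real.log 4 := Real.log_nonneg (by norm_num)
  have hp5 : 0 ≤ (n : ℝ) ^ (1 / 5 : ℝ) := Real.rpow_nonneg hn0.le _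
  have hp3 : 0 ≤ (n : ℝ) ^ (1 / 3 : ℝ) := Real.rpow_nonneg hn0.le _
  refine ⟨hn1, ?_, ?_, ?_, ?_, ?_, ?_⟩
  · exact Nat.le_floor (by push_cast; linarith)
  · unfold budget; nlinarith
  · unfold rlo
    have : 3 * Real.log n / n ≤ 3 / 100 := (div_le_iff₀ hn0).2 (by linarith)
    linarith
  · rw [mul_assoc (cc ^ 2), e1]
    calc 2 * ((n : ℝ) ^ 2 * (A * Real.exp (-(cc ^ 2 * (n : ℝ) ^ (1 / 5 : ℝ) / 8))))
        ≤ (4 * A) * ((n : ℝ) ^ 2 * Real.exp (-(cc ^ 2 * (n : ℝ) ^ (1 / 5 : ℝ) / 8))) := by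
          have : 0 ≤ (n : ℝ) ^ 2 * (A * Real.exp (-(cc ^ 2 * (n : ℝ) ^ (1 / 5 : ℝ) / 8))) := by
            positivity
          nlinarith
      _ = Real.exp (Real.log (4 * A) + 2 * Real.log n -
            cc ^ 2 * (n : ℝ) ^ (1 / 5 : ℝ) / 8) := by
          rw [sub_eq_add_neg, Real.exp_add, Real.exp_add, Real.exp_log (by linarith),
            show (2 : ℝ) * Real.log n = ((2 : ℕ) : ℝ) * Real.log n by norm_num, Real.exp_nat_mul,
            Real.exp_log hn0]
          ring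
      _ ≤ _ := Real.exp_le_exp.2 (by unfold cc; nlinarith)
  · show 2 ^ levels n * _ ≤ _
    refine (mul_le_mul_of_nonneg_right (two_pow_levels hn1)
      (Real.rpow_nonneg hn0.le _)).trans (le_of_eq ?_)
    rw [← Real.rpow_add hn0]; norm_num
  · rw [mul_assoc (cc ^ 2), e2, mul_assoc A, e3, ← Real.exp_nat_mul]
    have hlt : (1 / 2 : ℝ) ≤ Real.log 2 := by linarith [Real.log_two_gt_d9]
    calc (n : ℝ) ^ 4 * (A * Real.exp (-(cc ^ 2 * (n : ℝ) ^ (1 / 3 : ℝ) / 8)))
        = Real.exp (Real.log A + 4 * Real.log n - cc ^ 2 * (n : ℝ) ^ (1 / 3 : ℝ) / 8) := by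
          rw [sub_eq_add_neg, Real.exp_add, Real.exp_add, Real.exp_log (by linarith),
            show (4 : ℝ) * Real.log n = ((4 : ℕ) : ℝ) * Real.log n by norm_num, Real.exp_nat_mul,
            Real.exp_log hn0]
          ring
      _ ≤ Real.exp ((2 : ℕ) * -(A * (n : ℝ) ^ (6 / 25 : ℝ)) - Real.log 4) :=
          Real.exp_le_exp.2 (by unfold cc; push_cast; nlinarith)
      _ ≤ _ := by
          rw [Real.exp_sub, Real.exp_log (by norm_num : (0 : ℝ) < 4), div_eq_mul_inv]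
          exact mul_le_mul_of_nonneg_left (by rw [inv_eq_one_div]; linarith) (Real.exp_pos _).le

theorem mainNum_eventually (A : ℝ) (hA : 1 ≤ A) : ∀ᶠ n : ℕ in atTop, MainNum A n := by
  filter_upwards [groupNum_eventually A hA, ev_le_natCast 300, ev_log_le (c := 1 / 100) (by norm_num),
    ev_const_le_log 1000, ev_le_natCast (A + 1), ev_le_natCast (3 * cc ^ 2),
    ev_le_natCast (cc ^ 2 + 70), ev_rpow_lt (a := 0) (b := 1 / 3) 4 (by norm_num)]
    with n hG hn hlog hlogK hnA hnc hng h13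
  have hn0 : (0 : ℝ) < n := by linarith
  have hl : 0 ≤ Real.log n := Real.log_natCast_nonneg n
  have hn2 : 2 ≤ n := by exact_mod_cast (show (2 : ℝ) ≤ n by linarith)
  rw [Real.rpow_zero, mul_one] at h13
  set d := (n : ℝ) ^ (-(1 / 3) : ℝ) with hd
  have hd0 : 0 < d := Real.rpow_pos_of_pos hn0 _
  have hdl : Real.log d = -(1 / 3) * Real.log n := Real.log_rpow hn0 _
  have hd4 : d ≤ 1 / 4 := by
    rw [hd, Real.rpow_neg hn0.le, one_div (4 : ℝ)]
    exact inv_anti₀ (by norm_num) h13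
  have hlvl : Real.log n / 80 ≤ (levels n : ℝ) := by
    have := Nat.lt_floor_add_one (Real.log n / 40)
    unfold levels; linarith
  have hlvl0 : (0 : ℝ) < levels n := by linarith
  refine ⟨hn2, hG, ?_, ?_, hd4, ?_, ?_, ?_, ?_, ⟨by nlinarith, ?_⟩, ?_, ?_, ?_, ?_⟩
  · rw [div_le_iff₀ hlvl0]
    unfold budget
    nlinarith
  · -- both sides in logarithms
    have hm : 0 < maxCentres n := by unfold maxCentres; positivity
    rw [← Real.log_le_log_iff (by positivity) (by unfold grad; positivity),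
      Real.log_mul (by positivity) (by positivity), Real.log_mul (by positivity) hm.ne',
      Real.log_mul (by positivity) (by positivity), Real.log_pow, Real.log_pow,
      Real.log_mul (by norm_num) hd0.ne', hdl, Real.log_mul (Real.exp_pos _).ne'
        (by unfold grad; positivity), Real.log_exp, Real.log_div (by unfold grad; positivity)
        (by norm_num), Real.log_pow, maxCentres, Real.log_mul (by positivity) (by positivity),
      Real.log_pow, Real.log_pow]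
    have h1 : Real.log (1 / d + 2) ≤ Real.log n := by
      refine Real.log_le_log (by positivity) ?_
      have : 1 / d ≤ (n : ℝ) / 2 := by
        rw [hd, Real.rpow_neg hn0.le, one_div (((n : ℝ) ^ (1 / 3 : ℝ))⁻¹), inv_inv]
        have h23 : (4 : ℝ) ≤ (n : ℝ) ^ (2 / 3 : ℝ) := h13.trans
          (Real.rpow_le_rpow_of_exponent_le (by linarith) (by norm_num))
        have e : (n : ℝ) ^ (1 / 3 : ℝ) * (n : ℝ) ^ (2 / 3 : ℝ) = n := by
          rw [← Real.rpow_add hn0]; norm_num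
        nlinarith [mul_le_mul_of_nonneg_left h23 (Real.rpow_nonneg hn0.le (1 / 3 : ℝ))]
      linarith
    have h2 : Real.log (5 / 2) ≤ 5 / 2 - 1 := Real.log_le_sub_one_of_pos (by norm_num)
    have h3 : Real.log (3 : ℝ) ≤ 3 - 1 := Real.log_le_sub_one_of_pos (by norm_num)
    have h4 : -(20 : ℝ) ≤ Real.log grad := by
      rw [grad, one_div, Real.log_inv, neg_le_neg_iff,
        show (1000000 : ℝ) = 10 ^ 6 by norm_num, Real.log_pow]
      have : Real.log (10 : ℝ) ≤ Real.log (2 ^ 4) := Real.log_le_log (by norm_num) (by norm_num)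
      rw [Real.log_pow] at this
      push_cast at this ⊢
      linarith [Real.log_two_lt_d9]
    have h5 := Real.log_two_lt_d9
    unfold budget
    push_cast
    nlinarith [mul_le_mul_of_nonneg_left hlogK hn0.le]
  · have hm : 0 < maxCentres n := by unfold maxCentres; positivity
    rw [div_mul_div_comm, le_div_iff₀ (by positivity)]
    have h1 : maxCentres n ^ 3 = (n : ℝ) ^ 6 * (125 / 8 : ℝ) ^ n := by
      rw [maxCentres, mul_pow, ← pow_mul, ← pow_mul, mul_comm n 3, pow_mul (5 / 2 : ℝ) 3 n]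
      norm_num
    rw [show 13 * (n : ℝ) ^ 2 * maxCentres n *
        (maxCentres n ^ 2 * (30000 * (12 / 100000 : ℝ) ^ n) * 3) =
      1170000 * ((n : ℝ) ^ 2 * maxCentres n ^ 3) * (12 / 100000 : ℝ) ^ n by ring, h1,
      show 1170000 * ((n : ℝ) ^ 2 * ((n : ℝ) ^ 6 * (125 / 8 : ℝ) ^ n)) * (12 / 100000 : ℝ) ^ n =
        1170000 * (n : ℝ) ^ 8 * ((125 / 8 : ℝ) ^ n * (12 / 100000 : ℝ) ^ n) by ring, ← mul_pow,
      pow_succ (1 / 2 : ℝ), mul_comm ((1 / 2 : ℝ) ^ n), mul_assoc (1 / 2 : ℝ),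
      show Real.exp (-(n / 50 : ℝ)) = Real.exp (-(1 / 50 : ℝ)) ^ n by
        rw [← Real.exp_nat_mul]; congr 1; ring, ← mul_pow]
    have h2 : (1 / 4 : ℝ) ≤ 1 / 2 * Real.exp (-(1 / 50 : ℝ)) := by
      linarith [Real.add_one_le_exp (-(1 / 50 : ℝ))]
    refine le_trans ?_ (mul_le_mul_of_nonneg_left (pow_le_pow_left₀ (by norm_num) h2 n)
      (by norm_num : (0 : ℝ) ≤ 1 / 2))
    rw [← Real.log_le_log_iff (by positivity) (by positivity), Real.log_mul (by positivity)
      (by positivity), Real.log_mul (by norm_num) (by positivity), Real.log_pow, Real.log_pow,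
      Real.log_mul (x := (1 / 2 : ℝ)) (by norm_num) (by positivity), Real.log_pow]
    have a1 : Real.log (125 / 8 * (12 / 100000) : ℝ) ≤ Real.log ((1 / 4 : ℝ) * (1 / 2) ^ 6) :=
      Real.log_le_log (by norm_num) (by norm_num)
    rw [Real.log_mul (x := (1 / 4 : ℝ)) (by norm_num) (by norm_num), Real.log_pow] at a1
    have a2 : Real.log (1 / 2 : ℝ) = -Real.log 2 := by rw [one_div, Real.log_inv]
    have a3 : Real.log (1170000 : ℝ) ≤ Real.log (2 ^ 21) :=
      Real.log_le_log (by norm_num) (by norm_num)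
    rw [Real.log_pow] at a3
    rw [a2] at a1 ⊢
    push_cast at a1 a3 ⊢
    have := Real.log_two_gt_d9
    have := Real.log_two_lt_d9
    nlinarith
  · rw [lt_div_iff₀' two_pos]
    calc 2 * Real.exp (-(n : ℝ)) ≤ 2 * Real.exp (-(A + 1)) :=
          mul_le_mul_of_nonneg_left (Real.exp_le_exp.2 (by linarith)) two_pos.le
      _ < Real.exp (-A) := by
          rw [neg_add, Real.exp_add, ← mul_assoc, mul_comm (2 : ℝ), mul_assoc]
          refine mul_lt_of_lt_one_right (Real.exp_pos _) ?_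
          rw [Real.exp_neg, ← div_eq_mul_inv, div_lt_one (Real.exp_pos _)]
          linarith [Real.exp_one_gt_d9]
  · have hsq : 0 < 1 / (n : ℝ) ^ 2 := by positivity
    have hr0 : 0 ≤ rlo n + 1 / (n : ℝ) ^ 2 := by linarith [hG.rlo_pos]
    calc (rlo n + 1 / (n : ℝ) ^ 2) ^ n
        ≤ Real.exp (-(3 * Real.log n / n) + 1 / (n : ℝ) ^ 2) ^ n := by
          refine pow_le_pow_left₀ hr0 ?_ n
          have := Real.add_one_le_exp (-(3 * Real.log n / n) + 1 / (n : ℝ) ^ 2)
          unfold rlo; linarith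
      _ = Real.exp (-(3 * Real.log n)) * Real.exp (1 / (n : ℝ)) := by
          rw [← Real.exp_nat_mul, ← Real.exp_add]; congr 1; field_simp
      _ ≤ _ := by
          rw [Real.exp_neg, show (3 : ℝ) * Real.log n = ((3 : ℕ) : ℝ) * Real.log n by norm_num,
            Real.exp_nat_mul, Real.exp_log hn0, ← one_div, div_mul_eq_mul_div, one_mul]
          gcongr
          have : Real.exp (1 / (n : ℝ)) ≤ Real.exp 1 :=
            Real.exp_le_exp.2 ((div_le_one hn0).2 (by linarith))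
          linarith [Real.exp_one_lt_d9]
  · calc (1 + 3 / (n : ℝ) ^ 2) ^ n ≤ Real.exp (3 / (n : ℝ) ^ 2) ^ n := by
          refine pow_le_pow_left₀ (by positivity) ?_ n
          linarith [Real.add_one_le_exp (3 / (n : ℝ) ^ 2)]
      _ = Real.exp (3 / (n : ℝ)) := by rw [← Real.exp_nat_mul]; congr 1; field_simp
      _ ≤ Real.exp 1 := Real.exp_le_exp.2 ((div_le_one hn0).2 (by linarith))
      _ ≤ 3 := by linarith [Real.exp_one_lt_d9]
  · rw [div_le_iff₀ (by positivity)]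
    nlinarith [mul_le_mul_of_nonneg_left hlog hn0.le,
      mul_le_mul_of_nonneg_left hn (sq_nonneg (n : ℝ))]
  · rw [div_le_iff₀ hn0]; nlinarith
  · rw [gnorm, Real.sqrt_le_left hn0.le]; nlinarith
  · unfold rlo
    have : 3 * Real.log n / n ≤ 3 / 100 := (div_le_iff₀ hn0).2 (by linarith)
    linarith
  · unfold rhi
    have : 2 / (n : ℝ) ^ 2 ≤ 1 / 10 := by rw [div_le_iff₀ (by positivity)]; nlinarith
    linarith

end Vale.Agent.P230
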