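import Vale.Agent.P230.Asymp

/-!
Rounded configurations of centres and the reduction of a covering to one of them.
-/

namespace Vale.Agent.P230

open MeasureTheory ProbabilityTheory
open scoped ENNReal

variable {n : ℕ}

/-- the law of a witness: a group centre in the ball of radius `1/2` plus an offset in a small ball -/
noncomputable def witMeasure (n : ℕ) : Measure (E n) :=
  ((volume[|Metric.closedBall (0 : E n) (1 / 2)]).prod (volume[|Metric.closedBall (0 : E n) grad])).map
    fun p => p.1 + p.2

/-- rounding to the grid of mesh `n⁻³` -/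
noncomputable def rnd (x : E n) : E n :=
  WithLp.toLp 2 fun i => (⌊x i * (n : ℝ) ^ 3⌋ : ℝ) / (n : ℝ) ^ 3

/-- the possible rounded centres -/
noncomputable def ygrid (n : ℕ) : Finset (E n) := by
  classical
  exact (Fintype.piFinset fun _ : Fin n => Finset.Icc (-(3 * (n : ℤ) ^ 3)) (3 * (n : ℤ) ^ 3)).image
    fun k : Fin n → ℤ => WithLp.toLp 2 fun i => (k i : ℝ) / (n : ℝ) ^ 3

/-- the configurations against which the body is tested -/
def Admissible (A : ℝ) (Y : Finset (E n)) : Prop :=
  (Y.card : ℝ) ≤ maxCentres n ∧ Y ⊆ ygrid n ∧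
    witMeasure n (goodSet A (budget n) Y)ᶜ ≤ 1 / 4

/-- the constant in the density bound -/
noncomputable def zeta (A : ℝ) : ℝ := 1 / (1000000 * (6 * A + 6 * cc ^ 2))

/-- a thin covering yields an admissible configuration that covers the unit ball -/
def ReduceStmt : Prop :=
  ∀ (A : ℝ) (n : ℕ), MainNum A n → GaussFacts A n → ∀ (s : Finset (Cell n)) (X : Set (E n)),
    LocFinite X → Covers (body s) X →
    upperDensity X * volume (Metric.closedBall (0 : E n) 1) <
      ENNReal.ofReal (zeta A * (n * Real.log n)) →
    ∃ Y : Finset (E n), Admissible A Y ∧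
      ∀ z ∈ Metric.closedBall (0 : E n) 1, ∃ x ∈ members Y z, Disjoint (cutters (z - x)) s

end Vale.Agent.P230
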