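import Mathlib

/-!
The translative covering density of a convex body in `ℝⁿ`.
-/

namespace Vale.Agent.P230

open MeasureTheory Filter
open scoped ENNReal

/-- `ℝⁿ` with the Euclidean norm and Lebesgue measure -/
abbrev E (n : ℕ) : Type := EuclideanSpace ℝ (Fin n)

variable {n : ℕ}

/-- the cube `[-R, R]ⁿ` -/
def cube (n : ℕ) (R : ℝ) : Set (E n) := {y | ∀ i, |y i| ≤ R}

/-- a convex body: compact, convex, with nonempty interior -/
def IsBody (K : Set (E n)) : Prop := Convex ℝ K ∧ IsCompact K ∧ (interior K).Nonempty

/-- every bounded set contains only finitely many points of `X` -/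
def LocFinite (X : Set (E n)) : Prop := ∀ S : Set (E n), Bornology.IsBounded S → (X ∩ S).Finite

/-- the translates of `K` by the points of `X` cover the space -/
def Covers (K X : Set (E n)) : Prop := ∀ z : E n, ∃ x ∈ X, z - x ∈ K

/-- the upper density of `X` with respect to cubes centred at the origin -/
noncomputable def upperDensity (X : Set (E n)) : ℝ≥0∞ :=
  limsup (fun R : ℝ => ((X ∩ cube n R).encard : ℝ≥0∞) / ENNReal.ofReal ((2 * R) ^ n)) atTop

/-- the translative covering density -/
noncomputable def thetaT (K : Set (E n)) : ℝ≥0∞ :=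
  ⨅ (X : Set (E n)) (_ : LocFinite X) (_ : Covers K X), volume K * upperDensity X

/-- the lattice covering density -/
noncomputable def thetaL (K : Set (E n)) : ℝ≥0∞ :=
  ⨅ (L : Submodule ℤ (E n)) (_ : DiscreteTopology L) (_ : IsZLattice ℝ L) (_ : Covers K L),
    volume K / ENNReal.ofReal (ZLattice.covolume L)

end Vale.Agent.P230
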