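import Vale.Agent.P230.GeomStmt

/-!
Proofs of the geometric facts: averaging over windows, the profile integral, the cone volume and
greedy selection.
-/

namespace Vale.Agent.P230

open MeasureTheory Filter
open scoped ENNReal NNReal

variable {n : ℕ}

theorem greedyStmt : GreedyStmt := by
  intro n U F b hb hbt hU hF hsymm
  by_contra hcon
  push Not at hcon
  have hstep : ∀ k : ℕ, ∃ G : Finset (E n), ↑G ⊆ U ∧ G.card = k ∧
      ∀ u ∈ G, ∀ v ∈ G, u ≠ v → v ∉ F u := by
    classical
    intro k
    induction k with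
    | zero => exact ⟨∅, by simp, rfl, by simp⟩
    | succ k ih =>
      obtain ⟨G, hGU, hcard, hG⟩ := ih
      have hlt : (G.card : ℝ≥0∞) * b < volume U := by
        by_contra hle
        obtain ⟨u, hu, v, hv, huv, hmem⟩ := hcon G hGU (not_lt.1 hle)
        exact hG u hu v hv huv hmem
      obtain ⟨v, hvU, hv⟩ : ∃ v ∈ U, v ∉ ⋃ u ∈ G, F u := by
        by_contra hall
        push Not at hall
        have h1 : volume U ≤ ∑ u ∈ G, volume (F u) :=
          (measure_mono hall).trans (measure_biUnion_finset_le G F)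
        have h2 : ∑ u ∈ G, volume (F u) ≤ G.card * b := by
          rw [← nsmul_eq_mul]
          exact Finset.sum_le_card_nsmul _ _ _ fun u hu => (hF u (hGU hu)).1
        exact absurd (h1.trans h2) (not_le.2 hlt)
      simp only [Set.mem_iUnion, not_exists] at hv
      have hvG : v ∉ G := fun h => hv v h (hF v hvU).2
      refine ⟨insert v G, by rw [Finset.coe_insert]; exact Set.insert_subset hvU hGU,
        by rw [Finset.card_insert_of_notMem hvG, hcard], ?_⟩
      intro x hx y hy hxy
      rcases Finset.mem_insert.1 hx with hxe | hxG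
      · subst hxe
        rcases Finset.mem_insert.1 hy with hye | hyG
        · exact absurd hye.symm hxy
        · exact fun h => hv y hyG (hsymm x y h)
      · rcases Finset.mem_insert.1 hy with hye | hyG
        · subst hye; exact fun h => hv x hxG h
        · exact hG x hxG y hyG hxy
  obtain ⟨k, hk⟩ := ENNReal.exists_nat_mul_gt hb hU
  obtain ⟨G, hGU, hcard, hG⟩ := hstep k
  obtain ⟨u, hu, v, hv, huv, hmem⟩ := hcon G hGU (by rw [hcard]; exact hk.le)
  exact hG u hu v hv huv hmem

theorem profileStmt : ProfileStmt := by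
  intro n a b R ha hb hR
  set ω := volume (Metric.closedBall (0 : E n) 1) with hω
  have hR0 : 0 ≤ R := by linarith
  have hball : ∀ r : ℝ, 0 ≤ r →
      volume (Metric.closedBall (0 : E n) r) = ENNReal.ofReal (r ^ n) * ω := by
    intro r hr
    rw [Measure.addHaar_closedBall' volume (0 : E n) hr, finrank_euclideanSpace_fin, hω]
  set f : E n → ℝ := fun y => max 0 (1 - ‖y‖) with hf
  have hfm : Continuous f := continuous_const.max (continuous_const.sub continuous_norm)
  have hint : ∫⁻ y in Metric.closedBall (0 : E n) R, ENNReal.ofReal (f y) ≤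
      ENNReal.ofReal (1 / (n + 1)) * ω := by
    refine (setLIntegral_le_lintegral _ _).trans ?_
    rw [lintegral_eq_lintegral_meas_lt volume (f := f)
      (Eventually.of_forall fun y => le_max_left _ _) hfm.aemeasurable]
    have h1 : ∀ t ∈ Set.Ioi (0 : ℝ), volume {y : E n | t < f y} ≤
        (Set.Ioc (0 : ℝ) 1).indicator (fun t => ENNReal.ofReal ((1 - t) ^ n) * ω) t := by
      intro t (ht : 0 < t)
      by_cases ht1 : t ≤ 1
      · rw [Set.indicator_of_mem (show t ∈ Set.Ioc (0 : ℝ) 1 from ⟨ht, ht1⟩)]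
        rw [← hball (1 - t) (by linarith)]
        refine measure_mono fun y (hy : t < f y) => ?_
        rw [Metric.mem_closedBall, dist_zero_right]
        rcases lt_max_iff.1 hy with h | h <;> linarith
      · rw [Set.indicator_of_notMem fun h => ht1 h.2]
        refine le_of_eq (measure_eq_zero_iff_ae_notMem.2 (Eventually.of_forall fun y hy => ?_))
        rcases lt_max_iff.1 (show t < f y from hy) with h | h <;> linarith [norm_nonneg y]
    refine (setLIntegral_mono' measurableSet_Ioi h1).trans ?_
    refine (setLIntegral_le_lintegral _ _).trans ?_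
    rw [lintegral_indicator measurableSet_Ioc, lintegral_mul_const _ (by fun_prop)]
    refine mul_le_mul_left ?_ ω
    have hi : IntegrableOn (fun t : ℝ => (1 - t) ^ n) (Set.Ioc 0 1) :=
      (Continuous.integrableOn_Ioc (by fun_prop))
    rw [← ofReal_integral_eq_lintegral_ofReal hi ((ae_restrict_iff' measurableSet_Ioc).2
      (Eventually.of_forall fun t ht => pow_nonneg (by linarith [ht.2]) n))]
    refine ENNReal.ofReal_le_ofReal (le_of_eq ?_)
    rw [← intervalIntegral.integral_of_le zero_le_one,
      intervalIntegral.integral_comp_sub_left (fun t : ℝ => t ^ n) 1, sub_self, sub_zero,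
      integral_pow]
    simp
  have hsplit : ∀ y : E n, ENNReal.ofReal (a + b * n * max 0 (1 - ‖y‖)) =
      ENNReal.ofReal a + ENNReal.ofReal (b * n) * ENNReal.ofReal (f y) := fun y => by
    have h0 : 0 ≤ f y := le_max_left _ _
    rw [← ENNReal.ofReal_mul (by positivity), ← ENNReal.ofReal_add ha (by positivity)]
  simp only [hsplit]
  rw [lintegral_add_left measurable_const, setLIntegral_const,
    lintegral_const_mul _ hfm.measurable.ennreal_ofReal, hball R hR0,
    ENNReal.ofReal_add (by positivity) hb, add_mul, ENNReal.ofReal_mul ha, mul_assoc]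
  refine add_le_add le_rfl ((mul_le_mul_right hint (ENNReal.ofReal (b * n))).trans ?_)
  rw [← mul_assoc, ← ENNReal.ofReal_mul (by positivity)]
  refine mul_le_mul_left (ENNReal.ofReal_le_ofReal ?_) ω
  rw [mul_one_div, div_le_iff₀ (by positivity)]
  exact le_of_le_of_eq (show b * n ≤ b * (n + 1) by
    exact mul_le_mul_of_nonneg_left (by linarith) hb) rfl

theorem coneStmt : ConeStmt := by
  intro n e s _ he hs _
  set ω := volume (Metric.closedBall (0 : E n) 1) with hω
  set J : ℕ := ⌊(3 / 5 : ℝ) / s⌋₊ + 1 with hJ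
  have hsub : {w : E n | (7 / 10 : ℝ) ≤ ‖w‖ ∧ ‖w‖ ≤ 13 / 10 ∧ ‖dir w - e‖ < s} ⊆
      ⋃ j ∈ Finset.range J, Metric.closedBall ((7 / 10 + (j : ℝ) * s) • e) (3 * s) := by
    rintro w ⟨hw1, hw2, hw3⟩
    simp only [Set.mem_iUnion]
    set j : ℕ := ⌊(‖w‖ - 7 / 10) / s⌋₊ with hj
    have hnn : 0 ≤ (‖w‖ - 7 / 10) / s := div_nonneg (by linarith) hs.le
    have h1 : (j : ℝ) * s ≤ ‖w‖ - 7 / 10 := by
      rw [← le_div_iff₀ hs]; exact Nat.floor_le hnn
    have h2 : ‖w‖ - 7 / 10 < ((j : ℝ) + 1) * s := by
      rw [← div_lt_iff₀ hs]; exact Nat.lt_floor_add_one _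
    refine ⟨j, Finset.mem_range.2 (Nat.lt_succ_of_le (Nat.floor_le_floor ?_)), ?_⟩
    · exact div_le_div_of_nonneg_right (by linarith) hs.le
    · have hw0 : (0 : ℝ) < ‖w‖ := by linarith
      rw [Metric.mem_closedBall, dist_eq_norm]
      have e1 : w - (7 / 10 + (j : ℝ) * s) • e =
          ‖w‖ • (dir w - e) + (‖w‖ - (7 / 10 + (j : ℝ) * s)) • e := by
        rw [dir, smul_sub, smul_smul, mul_inv_cancel₀ hw0.ne', one_smul, sub_smul]
        abel
      rw [e1]
      refine (norm_add_le _ _).trans ?_
      rw [norm_smul, norm_smul, he, Real.norm_eq_abs, Real.norm_eq_abs, abs_of_pos hw0,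
        abs_of_nonneg (by linarith)]
      have := mul_le_mul hw2 hw3.le (norm_nonneg _) (by norm_num)
      linarith
  refine ((measure_mono hsub).trans (measure_biUnion_finset_le _ _)).trans ?_
  simp only [Measure.addHaar_closedBall' volume _ (by positivity : (0 : ℝ) ≤ 3 * s),
    finrank_euclideanSpace_fin, Finset.sum_const, Finset.card_range, nsmul_eq_mul, ← hω]
  rw [← mul_assoc, ← ENNReal.ofReal_natCast, ← ENNReal.ofReal_mul (Nat.cast_nonneg J)]
  refine mul_le_mul_left (ENNReal.ofReal_le_ofReal ?_) ω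
  refine mul_le_mul_of_nonneg_right ?_ (by positivity)
  rw [hJ]; push_cast
  have h3 : (⌊(3 / 5 : ℝ) / s⌋₊ : ℝ) ≤ 1 / s :=
    (Nat.floor_le (by positivity)).trans (div_le_div_of_nonneg_right (by norm_num) hs.le)
  linarith

theorem volume_cube (n : ℕ) {R : ℝ} (hR : 0 ≤ R) :
    volume (cube n R) = ENNReal.ofReal ((2 * R) ^ n) := by
  have h : cube n R = WithLp.ofLp ⁻¹' (Set.Icc (fun _ : Fin n => -R) (fun _ => R)) := by
    ext y
    simp only [cube, Set.mem_ofPred_eq, Set.mem_preimage, Set.mem_Icc, Pi.le_def, abs_le]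
    exact ⟨fun h => ⟨fun i => (h i).1, fun i => (h i).2⟩, fun h i => ⟨h.1 i, h.2 i⟩⟩
  rw [h, (PiLp.volume_preserving_ofLp (Fin n)).measure_preimage
    measurableSet_Icc.nullMeasurableSet, Real.volume_Icc_pi, Finset.prod_const,
    Finset.card_univ, Fintype.card_fin, sub_neg_eq_add, ← two_mul,
    ← ENNReal.ofReal_pow (by linarith)]

theorem isBounded_cube (n : ℕ) (R : ℝ) : Bornology.IsBounded (cube n R) := by
  refine (isBounded_iff_forall_norm_le).2 ⟨Real.sqrt (n * R ^ 2), fun y hy => ?_⟩
  rw [EuclideanSpace.norm_eq]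
  refine Real.sqrt_le_sqrt ?_
  calc ∑ i, ‖y i‖ ^ 2 ≤ ∑ _i : Fin n, R ^ 2 := Finset.sum_le_sum fun i _ =>
        pow_le_pow_left₀ (norm_nonneg _) (hy i) 2
    _ = n * R ^ 2 := by simp

theorem countable_of_locFinite {X : Set (E n)} (hX : LocFinite X) : X.Countable := by
  have h : X ⊆ ⋃ k : ℕ, X ∩ Metric.closedBall 0 k := fun x hx =>
    Set.mem_iUnion.2 ⟨⌈‖x‖⌉₊, hx, by rw [Metric.mem_closedBall, dist_zero_right]
                                     exact Nat.le_ceil _⟩
  exact (Set.countable_iUnion fun k => (hX _ Metric.isBounded_closedBall).countable).mono h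

/-- Integrated over a window, a window sum is at most the number of centres nearby times `L`. -/
theorem window_integral_le {X : Set (E n)} (hX : LocFinite X) {δ : ℝ≥0} {R : ℝ}
    (hcount : ((X ∩ cube n (R + 8)).encard : ℝ≥0∞) ≤ δ * ENNReal.ofReal ((2 * (R + 8)) ^ n))
    {F : E n → ℝ≥0∞} (hF : Measurable F) (hsupp : ∀ y, 4 < ‖y‖ → F y = 0)
    (μ : Measure (E n)) [IsProbabilityMeasure μ] (hμ : μ (Metric.closedBall 0 4)ᶜ = 0)
    {L : ℝ≥0∞} (hL : ∫⁻ y, F y ≤ L) :
    ∫⁻ u in cube n R, ∫⁻ v, ∑' x : X, F (u + v - x) ∂μ ≤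
      δ * ENNReal.ofReal ((2 * (R + 8)) ^ n) * L := by
  have : Countable X := (countable_of_locFinite hX).to_subtype
  have hmeas : Measurable fun p : E n × E n => ∑' x : X, F (p.1 + p.2 - x) :=
    Measurable.tsum fun x => hF.comp (by fun_prop)
  rw [lintegral_lintegral_swap hmeas.aemeasurable]
  have hv : ∀ᵐ v ∂μ, ∫⁻ u in cube n R, ∑' x : X, F (u + v - x) ≤
      δ * ENNReal.ofReal ((2 * (R + 8)) ^ n) * L := by
    have hb : ∀ᵐ v ∂μ, v ∈ Metric.closedBall (0 : E n) 4 := mem_ae_iff.2 hμ
    filter_upwards [hb] with v hv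
    rw [lintegral_tsum (f := fun (x : X) (u : E n) => F (u + v - x))
      fun x => (hF.comp (by fun_prop : Measurable fun u : E n => u + v - (x : E n))).aemeasurable]
    set S := {x : X | (x : E n) ∈ cube n (R + 8)} with hS
    have hterm : ∀ x : X, ∫⁻ u in cube n R, F (u + v - x) ≤ S.indicator (fun _ => L) x := by
      intro x
      by_cases hx : x ∈ S
      · rw [Set.indicator_of_mem hx]
        refine (setLIntegral_le_lintegral _ _).trans (le_trans (le_of_eq ?_) hL)
        simp only [show ∀ u : E n, u + v - x = u + (v - x) from fun u => add_sub_assoc u v _]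
        exact lintegral_add_right_eq_self F (v - (x : E n))
      · rw [Set.indicator_of_notMem hx]
        refine le_of_eq (setLIntegral_eq_zero ((isClosed_cube).measurableSet) fun u hu => ?_)
        refine hsupp _ (lt_of_not_ge fun hle => hx fun i => ?_)
        have h1 := (PiLp.norm_apply_le (u + v - (x : E n)) i).trans hle
        have h2 := (PiLp.norm_apply_le v i).trans (by rwa [← dist_zero_right, ← Metric.mem_closedBall])
        have h3 := hu i
        simp only [PiLp.sub_apply, PiLp.add_apply, Real.norm_eq_abs, abs_le] at h1 h2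
        rw [abs_le] at h3 ⊢
        constructor <;> linarith
    refine (ENNReal.tsum_le_tsum hterm).trans ?_
    have hS' : S.encard ≤ (X ∩ cube n (R + 8)).encard :=
      Set.encard_le_encard_of_injOn (f := Subtype.val) (fun x hx => ⟨x.2, hx⟩)
        Subtype.val_injective.injOn
    rw [← tsum_subtype S (fun _ => L), ENNReal.tsum_set_const]
    exact mul_le_mul_left ((ENat.toENNReal_mono hS').trans hcount) L
  refine (lintegral_mono_ae hv).trans ?_
  simp
where
  isClosed_cube : IsClosed (cube n R) := by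
    have : cube n R = ⋂ i, {y : E n | |y i| ≤ R} := by ext y; simp [cube]
    rw [this]
    exact isClosed_iInter fun i => isClosed_le (by fun_prop) continuous_const

theorem windowStmt : WindowStmt := by
  intro n m X δ hX hev F μ L hF hsupp hprob hμ hL
  classical
  set G : Fin m → E n → ℝ≥0∞ := fun i u => ∫⁻ v, ∑' x : X, F i (u + v - x) ∂(μ i) with hG
  rcases eq_or_ne δ 0 with hδ | hδ
  · refine ⟨0, fun i => ?_⟩
    have hX0 : X = ∅ := by
      refine Set.eq_empty_of_forall_notMem fun x hx => ?_
      obtain ⟨R, hR, hxR⟩ := (hev.and (eventually_ge_atTop ‖x‖)).exists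
      rw [hδ, ENNReal.coe_zero, zero_mul, nonpos_iff_eq_zero] at hR
      have hne : (X ∩ cube n R).Nonempty :=
        ⟨x, hx, fun i => (PiLp.norm_apply_le x i).trans hxR⟩
      exact absurd hR (by exact_mod_cast Set.encard_ne_zero.2 hne)
    have : IsEmpty X := by rw [hX0]; exact Subtype.isEmpty_false
    simp
  -- a large radius
  obtain ⟨R, hR1, hR2, hR3⟩ : ∃ R : ℝ,
      ((X ∩ cube n (R + 8)).encard : ℝ≥0∞) ≤ δ * ENNReal.ofReal ((2 * (R + 8)) ^ n) ∧ 1 ≤ R ∧
      (2 * (R + 8)) ^ n ≤ 2 * (2 * R) ^ n := by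
    have h1 := (tendsto_atTop_add_const_right atTop (8 : ℝ) tendsto_id).eventually hev
    have h2 : Tendsto (fun R : ℝ => (1 + 8 / R) ^ n) atTop (nhds 1) := by
      simpa using ((tendsto_const_nhds (x := (8 : ℝ))).div_atTop tendsto_id |>.const_add 1).pow n
    obtain ⟨R, ha, hb, hc⟩ :=
      (h1.and ((eventually_ge_atTop (1 : ℝ)).and (h2.eventually_le_const one_lt_two))).exists
    refine ⟨R, ha, hb, ?_⟩
    have : 2 * (R + 8) = (1 + 8 / R) * (2 * R) := by field_simp
    rw [this, mul_pow]
    exact mul_le_mul_of_nonneg_right hc (by positivity)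
  set V := ENNReal.ofReal ((2 * R) ^ n) with hV
  have hV0 : V ≠ 0 := by rw [hV, Ne, ENNReal.ofReal_eq_zero, not_le]; positivity
  have hint : ∀ i, ∫⁻ u in cube n R, G i u ≤ 2 * δ * V * L i := fun i => by
    have := hprob i
    refine (window_integral_le hX hR1 (hF i) (hsupp i) (μ i) (hμ i) (hL i)).trans ?_
    refine mul_le_mul_left ?_ (L i)
    rw [mul_comm (2 : ℝ≥0∞), mul_assoc]
    refine mul_le_mul_right ?_ _
    rw [hV, ← ENNReal.ofReal_ofNat, ← ENNReal.ofReal_mul two_pos.le]
    exact ENNReal.ofReal_le_ofReal hR3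
  have hGm : ∀ i, Measurable (G i) := fun i => by
    have : Countable X := (countable_of_locFinite hX).to_subtype
    have := hprob i
    exact Measurable.lintegral_prod_right'
      (f := fun p : E n × E n => ∑' x : X, F i (p.1 + p.2 - x))
      (Measurable.tsum fun x => (hF i).comp (by fun_prop))
  set H : E n → ℝ≥0∞ := fun u => ∑ i, if L i = 0 then 0 else G i u / L i with hH
  have hHm : Measurable H := Finset.measurable_sum _ fun i _ => by
    by_cases h : L i = 0
    · simp [h]
    · simp only [h, if_false]; exact (hGm i).div_const _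
  have hcube : volume (cube n R) = V := volume_cube n (by linarith)
  have : IsFiniteMeasure (volume.restrict (cube n R)) :=
    ⟨by rw [Measure.restrict_apply_univ, hcube, hV]; exact ENNReal.ofReal_lt_top⟩
  have hnull : volume.restrict (cube n R) {u | ∃ i, L i = 0 ∧ G i u ≠ 0} = 0 := by
    have he : {u | ∃ i, L i = 0 ∧ G i u ≠ 0} =
        ⋃ i, {u | L i = 0 ∧ G i u ≠ 0} := by ext u; simp
    rw [he]
    refine measure_iUnion_null fun i => ?_
    by_cases h : L i = 0
    · have h0 : ∫⁻ u in cube n R, G i u = 0 := by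
        have := hint i
        rwa [h, mul_zero, nonpos_iff_eq_zero] at this
      have := (lintegral_eq_zero_iff (hGm i)).1 h0
      exact measure_mono_null (fun u hu => hu.2) (ae_iff.1 this)
    · simp [h]
  obtain ⟨u, huN, hu⟩ :
      ∃ u, u ∉ {u | ∃ i, L i = 0 ∧ G i u ≠ 0} ∧ H u ≤ ⨍⁻ a in cube n R, H a ∂volume :=
    exists_notMem_null_le_laverage (by
      rw [Ne, Measure.restrict_eq_zero, hcube]; exact hV0) hHm.aemeasurable hnull
  refine ⟨u, fun i => ?_⟩
  change G i u ≤ _
  by_cases h0 : L i = 0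
  · have : G i u = 0 := by_contra fun hne => huN ⟨i, h0, hne⟩
    rw [this]; exact zero_le
  by_cases htop : L i = ⊤
  · rw [htop, ENNReal.mul_top]
    · exact le_top
    · simp [hδ]
  have hHle : ∫⁻ a in cube n R, H a ≤ m * (2 * δ * V) := by
    rw [lintegral_finsetSum _ fun j _ => by
      by_cases h : L j = 0
      · simp [h]
      · simp only [h, if_false]; exact (hGm j).div_const _]
    refine (Finset.sum_le_card_nsmul _ _ (2 * δ * V) fun j _ => ?_).trans (le_of_eq (by simp))
    by_cases h : L j = 0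
    · simp [h]
    · simp only [h, if_false, div_eq_mul_inv]
      rw [lintegral_mul_const _ (hGm j)]
      refine (mul_le_mul_left (hint j) _).trans ?_
      rw [mul_assoc]
      exact mul_le_of_le_one_right zero_le (ENNReal.mul_inv_le_one _)
  have hu2 : H u ≤ 2 * m * δ := by
    refine hu.trans ?_
    rw [setLAverage_eq, hcube, ENNReal.div_le_iff hV0 (by simp [hV])]
    exact hHle.trans (le_of_eq (by ring))
  have hGi : G i u / L i ≤ 2 * m * δ := by
    refine le_trans ?_ hu2
    have := Finset.single_le_sum (f := fun j => if L j = 0 then 0 else G j u / L j)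
      (fun j _ => zero_le) (Finset.mem_univ i)
    simpa [h0] using this
  refine ((ENNReal.div_le_iff h0 htop).1 hGi).trans ?_
  gcongr
  exact le_self_add

end Vale.Agent.P230
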