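import Vale.Agent.P230.Config
import Vale.Agent.P230.Geom

/-!
A fixed configuration leaves a point of the unit ball uncovered, except with tiny probability.
-/

namespace Vale.Agent.P230

open MeasureTheory ProbabilityTheory
open scoped ENNReal

variable {n : ℕ}

/-- the volume of the unit ball -/
noncomputable def ballVol (n : ℕ) : ℝ := volume.real (Metric.closedBall (0 : E n) 1)

theorem ballVol_pos (n : ℕ) : 0 < ballVol n :=
  ENNReal.toReal_pos (Metric.measure_closedBall_pos volume _ one_pos).ne'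
    measure_closedBall_lt_top.ne

theorem real_closedBall (x : E n) {r : ℝ} (hr : 0 ≤ r) :
    volume.real (Metric.closedBall x r) = r ^ n * ballVol n := by
  rw [Measure.addHaar_real_closedBall' volume x hr, finrank_euclideanSpace_fin, ballVol]

theorem measurableSet_goodSet (A K₁ : ℝ) (Y : Finset (E n)) :
    MeasurableSet (goodSet A K₁ Y) := by
  have hc : Measurable (cost A Y) := by
    have e : cost A Y = fun z => ∑ x ∈ Y, if ‖z - x‖ ≤ rhi n then wcost A n ‖z - x‖ else 0 :=
      funext fun z => by rw [cost, members, Finset.sum_filter]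
    rw [e]
    refine Finset.measurable_sum _ fun x _ => Measurable.ite
      (measurableSet_setOfPred.2 (measurable_le_norm x _)) ?_ measurable_const
    unfold wcost
    fun_prop
  refine MeasurableSet.inter ?_ (measurableSet_le hc measurable_const)
  have : {z : E n | ∀ x ∈ Y, rlo n ≤ ‖z - x‖} = ⋂ x ∈ Y, {z | rlo n ≤ ‖z - x‖} := by
    ext z; simp
  show MeasurableSet {z : E n | ∀ x ∈ Y, rlo n ≤ ‖z - x‖}
  rw [this]
  exact Finset.measurableSet_biInter _ fun x _ =>
    measurableSet_le measurable_const (by fun_prop)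

/-- group centres around which at least half of the witnesses are good -/
noncomputable def goodCentres (A : ℝ) (Y : Finset (E n)) : Set (E n) :=
  {u | ‖u‖ ≤ 1 / 2 ∧
    (1 / 2 : ℝ≥0∞) ≤ volume[|Metric.closedBall (0 : E n) grad]
      ((fun w => u + w) ⁻¹' goodSet A (budget n) Y)}

theorem goodCentres_volume {A : ℝ} {Y : Finset (E n)} (hY : Admissible A Y) :
    ENNReal.ofReal ((1 / 2 : ℝ) ^ (n + 1) * ballVol n) ≤ volume (goodCentres A Y) := by
  have hg : (0 : ℝ) < grad := by unfold grad; norm_num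
  set B := Metric.closedBall (0 : E n) (1 / 2) with hB
  haveI : IsProbabilityMeasure (volume[|B]) :=
    cond_isProbabilityMeasure_of_finite (Metric.measure_closedBall_pos volume _ (by norm_num)).ne'
      measure_closedBall_lt_top.ne
  haveI : IsProbabilityMeasure (volume[|Metric.closedBall (0 : E n) grad]) :=
    cond_isProbabilityMeasure_of_finite (Metric.measure_closedBall_pos volume _ hg).ne'
      measure_closedBall_lt_top.ne
  set Gs := goodSet A (budget n) Y
  have hGs : MeasurableSet Gs := measurableSet_goodSet A _ Y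
  set f : E n → ℝ≥0∞ := fun u =>
    volume[|Metric.closedBall (0 : E n) grad] ((fun w => u + w) ⁻¹' Gsᶜ) with hf
  have hadd : Measurable fun p : E n × E n => p.1 + p.2 := by fun_prop
  have hfm : Measurable f := measurable_measure_prodMk_left (hadd hGs.compl)
  have hint : ∫⁻ u, f u ∂(volume[|B]) ≤ 1 / 4 := by
    refine le_trans (le_of_eq ?_) hY.2.2
    rw [witMeasure, Measure.map_apply hadd hGs.compl, Measure.prod_apply (hadd hGs.compl)]
    rfl
  have hhalf : volume[|B] {u | 1 / 2 ≤ f u} ≤ 1 / 2 := by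
    have h := mul_meas_ge_le_lintegral₀ hfm.aemeasurable (1 / 2) (μ := volume[|B])
    have h2 : (1 / 2 : ℝ≥0∞) * volume[|B] {u | 1 / 2 ≤ f u} ≤ (1 / 2) * (1 / 2) := by
      refine (h.trans hint).trans (le_of_eq ?_)
      rw [one_div, one_div, ← ENNReal.mul_inv (Or.inl two_ne_zero) (Or.inl ENNReal.ofNat_ne_top)]
      norm_num
    exact (ENNReal.mul_le_mul_iff_right (by simp) (by simp)).1 h2
  have hsub : B \ goodCentres A Y ⊆ B ∩ {u | 1 / 2 ≤ f u} := by
    rintro u ⟨huB, hu⟩
    refine ⟨huB, ?_⟩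
    rw [hB, Metric.mem_closedBall, dist_zero_right] at huB
    have hu' := fun h => hu ⟨huB, h⟩
    rw [imp_false, not_le] at hu'
    show 1 / 2 ≤ f u
    rw [hf]
    simp only [Set.preimage_compl]
    rw [measure_compl ((measurable_const_add u) hGs) (measure_ne_top _ _), measure_univ,
      ← ENNReal.sub_half ENNReal.one_ne_top]
    exact tsub_le_tsub le_rfl hu'.le
  rw [cond_apply measurableSet_closedBall] at hhalf
  have hB0 : volume B ≠ 0 := (Metric.measure_closedBall_pos volume _ (by norm_num)).ne'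
  have hBt : volume B ≠ ⊤ := measure_closedBall_lt_top.ne
  have h3 : volume (B ∩ {u | 1 / 2 ≤ f u}) ≤ volume B * (1 / 2) := by
    calc volume (B ∩ {u | 1 / 2 ≤ f u})
        = volume B * ((volume B)⁻¹ * volume (B ∩ {u | 1 / 2 ≤ f u})) := by
          rw [← mul_assoc, ENNReal.mul_inv_cancel hB0 hBt, one_mul]
      _ ≤ _ := mul_le_mul_right hhalf _
  have h4 : volume B ≤ volume (goodCentres A Y) + volume B * (1 / 2) :=
    (le_trans (measure_mono (show B ⊆ goodCentres A Y ∪ (B \ goodCentres A Y) from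
      fun u hu => by by_cases h : u ∈ goodCentres A Y <;> simp [h, hu]))
      (measure_union_le _ _)).trans (add_le_add le_rfl ((measure_mono hsub).trans h3))
  have h5 : ENNReal.ofReal ((1 / 2 : ℝ) ^ (n + 1) * ballVol n) = volume B * (1 / 2) := by
    rw [← ENNReal.ofReal_toReal hBt, show (volume B).toReal = volume.real B from rfl, hB,
      real_closedBall _ (by norm_num), show (1 / 2 : ℝ≥0∞) = ENNReal.ofReal (1 / 2) by
        rw [ENNReal.ofReal_div_of_pos two_pos]; simp,
      ← ENNReal.ofReal_mul (mul_nonneg (by positivity) (ballVol_pos n).le)]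
    congr 1; ring
  rw [h5]
  have h6 : volume B * (1 / 2) + volume B * (1 / 2) = volume B := by
    rw [← mul_add, ENNReal.add_halves, mul_one]
  exact (ENNReal.add_le_add_iff_right (by finiteness)).1 (h6.le.trans h4)

theorem measurableSet_goodCentres (A : ℝ) (Y : Finset (E n)) :
    MeasurableSet (goodCentres A Y) := by
  have hg : (0 : ℝ) < grad := by unfold grad; norm_num
  haveI : IsProbabilityMeasure (volume[|Metric.closedBall (0 : E n) grad]) :=
    cond_isProbabilityMeasure_of_finite (Metric.measure_closedBall_pos volume _ hg).ne'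
      measure_closedBall_lt_top.ne
  have hadd : Measurable fun p : E n × E n => p.1 + p.2 := by fun_prop
  exact (measurableSet_le measurable_norm measurable_const).inter
    (measurableSet_le measurable_const
      (measurable_measure_prodMk_left (hadd (measurableSet_goodSet A (budget n) Y))))

/-- the witnesses of the group at `u` -/
noncomputable def groupSet (A : ℝ) (Y : Finset (E n)) (u : E n) : Set (E n) :=
  goodSet A (budget n) Y ∩ Metric.closedBall u grad

theorem groupSet_volume {A : ℝ} {Y : Finset (E n)} {u : E n} (hu : u ∈ goodCentres A Y) :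
    grad ^ n / 2 * ballVol n ≤ volume.real (groupSet A Y u) := by
  have hg : (0 : ℝ) < grad := by unfold grad; norm_num
  set Ba := Metric.closedBall (0 : E n) grad with hBa
  have h := hu.2
  rw [cond_apply measurableSet_closedBall] at h
  have hB0 : volume Ba ≠ 0 := (Metric.measure_closedBall_pos volume _ hg).ne'
  have hBt : volume Ba ≠ ⊤ := measure_closedBall_lt_top.ne
  have e : Ba ∩ (fun w => u + w) ⁻¹' goodSet A (budget n) Y =
      (fun w => u + w) ⁻¹' groupSet A Y u := by
    ext w; simp [groupSet, Ba, and_comm]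
  rw [e, measure_preimage_add] at h
  have h2 : volume Ba * (1 / 2) ≤ volume (groupSet A Y u) := by
    refine (mul_le_mul_right h _).trans (le_of_eq ?_)
    rw [← mul_assoc, ENNReal.mul_inv_cancel hB0 hBt, one_mul]
  have h3 := ENNReal.toReal_mono
    (ne_top_of_le_ne_top measure_closedBall_lt_top.ne (measure_mono Set.inter_subset_right)) h2
  rw [ENNReal.toReal_mul, ← measureReal_def, ← measureReal_def, hBa,
    real_closedBall _ hg.le] at h3
  simp only [one_div, ENNReal.toReal_inv, ENNReal.toReal_ofNat] at h3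
  rw [groupSet]
  linarith

theorem dir_sub_dir_le {a b : E n} (ha : a ≠ 0) : ‖dir a - dir b‖ ≤ 2 * ‖a - b‖ / ‖a‖ := by
  have hn : 0 < ‖a‖ := norm_pos_iff.2 ha
  by_cases hb : b = 0
  · rw [hb, show dir (0 : E n) = 0 from smul_zero _, sub_zero, sub_zero, norm_dir ha,
      le_div_iff₀ hn]
    linarith
  have hbn : 0 < ‖b‖ := norm_pos_iff.2 hb
  have e : dir a - dir b = ‖a‖⁻¹ • (a - b) + (‖a‖⁻¹ - ‖b‖⁻¹) • b := by
    rw [dir, dir, smul_sub, sub_smul]; abel
  rw [e]
  refine (norm_add_le _ _).trans ?_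
  have h3 : |‖a‖⁻¹ - ‖b‖⁻¹| * ‖b‖ = |‖b‖ - ‖a‖| / ‖a‖ := by
    rw [inv_sub_inv hn.ne' hbn.ne', abs_div, abs_of_pos (mul_pos hn hbn)]
    field_simp
  rw [norm_smul, norm_smul, norm_inv, norm_norm, Real.norm_eq_abs (‖a‖⁻¹ - ‖b‖⁻¹), h3, two_mul,
    add_div, inv_mul_eq_div]
  gcongr
  rw [abs_sub_comm]; exact abs_norm_sub_norm_le a b

/-- centres whose groups may use a common cell -/
def conflict (Y : Finset (E n)) (u : E n) : Set (E n) :=
  insert u (⋃ x ∈ Y, ⋃ x' ∈ Y, {u' | ((7 / 10 : ℝ) ≤ ‖u - x‖ ∧ ‖u - x‖ ≤ 13 / 10) ∧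
    ((7 / 10 : ℝ) ≤ ‖u' - x'‖ ∧ ‖u' - x'‖ ≤ 13 / 10) ∧
    ‖dir (u - x) - dir (u' - x')‖ < 4 / 100000})

theorem conflict_symm {Y : Finset (E n)} {u v : E n} (h : v ∈ conflict Y u) :
    u ∈ conflict Y v := by
  rcases Set.mem_insert_iff.1 h with h | h
  · exact Set.mem_insert_iff.2 (Or.inl h.symm)
  · simp only [Set.mem_iUnion] at h
    obtain ⟨x, hx, x', hx', h1, h2, h3⟩ := h
    refine Set.mem_insert_of_mem _ ?_
    simp only [Set.mem_iUnion]
    exact ⟨x', hx', x, hx, h2, h1, by rwa [norm_sub_rev]⟩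

theorem shifted_cone_le {e x' : E n} (hn : 1 ≤ n) (he : ‖e‖ = 1) {s : ℝ} (hs : 0 < s)
    (hs4 : s ≤ 1 / 4) :
    volume {u' : E n | (7 / 10 : ℝ) ≤ ‖u' - x'‖ ∧ ‖u' - x'‖ ≤ 13 / 10 ∧
        ‖e - dir (u' - x')‖ < s} ≤
      ENNReal.ofReal ((1 / s + 2) * (3 * s) ^ n * ballVol n) := by
  have e1 : {u' : E n | (7 / 10 : ℝ) ≤ ‖u' - x'‖ ∧ ‖u' - x'‖ ≤ 13 / 10 ∧
      ‖e - dir (u' - x')‖ < s} = (fun u' => u' + (-x')) ⁻¹'
        {w : E n | (7 / 10 : ℝ) ≤ ‖w‖ ∧ ‖w‖ ≤ 13 / 10 ∧ ‖dir w - e‖ < s} := by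
    ext u'; simp [sub_eq_add_neg, norm_sub_rev, ← sub_eq_add_neg]
  rw [e1, measure_preimage_add_right]
  refine (coneStmt n e s hn he hs hs4).trans (le_of_eq ?_)
  rw [ENNReal.ofReal_mul (by positivity : (0 : ℝ) ≤ (1 / s + 2) * (3 * s) ^ n), ballVol,
    measureReal_def, ENNReal.ofReal_toReal measure_closedBall_lt_top.ne]

theorem conflict_volume (hn : 1 ≤ n) {Y : Finset (E n)} (u : E n) :
    volume (conflict Y u) ≤
      ENNReal.ofReal ((Y.card : ℝ) ^ 2 * (30000 * (12 / 100000 : ℝ) ^ n) * ballVol n) := by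
  haveI : Nonempty (Fin n) := ⟨⟨0, hn⟩⟩
  refine (measure_union_le {u} _).trans ?_
  rw [measure_singleton, zero_add]
  refine (measure_biUnion_finset_le _ _).trans ?_
  set c := ENNReal.ofReal (30000 * (12 / 100000 : ℝ) ^ n * ballVol n) with hc
  have h1 : ∀ x ∈ Y, volume (⋃ x' ∈ Y, {u' : E n | ((7 / 10 : ℝ) ≤ ‖u - x‖ ∧ ‖u - x‖ ≤ 13 / 10) ∧
      ((7 / 10 : ℝ) ≤ ‖u' - x'‖ ∧ ‖u' - x'‖ ≤ 13 / 10) ∧
      ‖dir (u - x) - dir (u' - x')‖ < 4 / 100000}) ≤ Y.card * c := by
    intro x _
    refine (measure_biUnion_finset_le _ _).trans ?_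
    rw [← nsmul_eq_mul]
    refine Finset.sum_le_card_nsmul _ _ _ fun x' _ => ?_
    by_cases hx : (7 / 10 : ℝ) ≤ ‖u - x‖ ∧ ‖u - x‖ ≤ 13 / 10
    · refine (measure_mono fun u' h => (⟨h.2.1.1, h.2.1.2, h.2.2⟩ :
        (7 / 10 : ℝ) ≤ ‖u' - x'‖ ∧ ‖u' - x'‖ ≤ 13 / 10 ∧
          ‖dir (u - x) - dir (u' - x')‖ < 4 / 100000)).trans ?_
      refine (shifted_cone_le hn (norm_dir fun h => ?_) (by norm_num) (by norm_num)).trans
        (ENNReal.ofReal_le_ofReal ?_)
      · have := hx.1; rw [h, norm_zero] at this; linarith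
      · refine mul_le_mul_of_nonneg_right ?_ (ballVol_pos n).le
        rw [show (3 : ℝ) * (4 / 100000) = 12 / 100000 by norm_num]
        exact mul_le_mul_of_nonneg_right (by norm_num) (by positivity)
    · rw [show {u' : E n | ((7 / 10 : ℝ) ≤ ‖u - x‖ ∧ ‖u - x‖ ≤ 13 / 10) ∧
          ((7 / 10 : ℝ) ≤ ‖u' - x'‖ ∧ ‖u' - x'‖ ≤ 13 / 10) ∧
          ‖dir (u - x) - dir (u' - x')‖ < 4 / 100000} = ∅ from
        Set.eq_empty_of_forall_notMem fun u' h => hx h.1, measure_empty]
      exact bot_le
  refine (Finset.sum_le_card_nsmul _ _ _ h1).trans (le_of_eq ?_)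
  rw [nsmul_eq_mul, ← mul_assoc, hc, ← ENNReal.ofReal_natCast,
    ← ENNReal.ofReal_mul (Nat.cast_nonneg _), ← ENNReal.ofReal_mul (by positivity)]
  congr 1; ring

theorem expect_one_sub {ι : Type*} [DecidableEq ι] (q : ι → ℝ) (A : Finset ι)
    (f : Finset ι → ℝ) : expect q A (fun s => 1 - f s) = 1 - expect q A f := by
  have h := expect_add q A (fun s => 1 - f s) f
  simp only [sub_add_cancel, expect_const] at h
  linarith

theorem success_nonneg (Y : Finset (E n)) (G : Set (E n)) (s : Finset (Cell n)) :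
    0 ≤ success Y G s := by
  unfold success; split_ifs <;> norm_num

theorem success_le_one (Y : Finset (E n)) (G : Set (E n)) (s : Finset (Cell n)) :
    success Y G s ≤ 1 := by
  unfold success; split_ifs <;> norm_num

theorem one_sub_success_le {Y : Finset (E n)} {W : Set (E n)} (Gc : Finset (E n))
    (G : E n → Set (E n)) (h : ∀ u ∈ Gc, G u ⊆ W) (s : Finset (Cell n)) :
    1 - success Y W s ≤ ∏ u ∈ Gc, (1 - success Y (G u) s) := by
  by_cases hex : ∃ z ∈ W, ∀ x ∈ members Y z, ¬ Disjoint (cutters (z - x)) s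
  · rw [show success Y W s = 1 by unfold success; rw [if_pos hex], sub_self]
    exact Finset.prod_nonneg fun u _ => sub_nonneg.2 (success_le_one _ _ _)
  · rw [show success Y W s = 0 by unfold success; rw [if_neg hex], sub_zero]
    refine le_of_eq (Finset.prod_eq_one fun u hu => ?_).symm
    rw [show success Y (G u) s = 0 by
      unfold success; rw [if_neg fun ⟨z, hz, hz'⟩ => hex ⟨z, h u hu hz, hz'⟩], sub_zero]

/-- a fixed configuration fails only with tiny probability -/
theorem fail_le {A : ℝ} (hG : GaussFacts A n) (hM : MainNum A n) {Y : Finset (E n)}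
    (hY : Admissible A Y) :
    expect qk Finset.univ (fun s => 1 - success Y (Metric.closedBall 0 1) s) ≤
      Real.exp (-(13 * (n : ℝ) ^ 2 * maxCentres n)) := by
  classical
  have hn : 1 ≤ n := hM.group.n_pos
  haveI : Nonempty (Fin n) := ⟨⟨0, hn⟩⟩
  set N := maxCentres n with hN
  have hN0 : 0 < N := by
    have : (0 : ℝ) < n := by exact_mod_cast hn
    rw [hN, maxCentres]; positivity
  set b := N ^ 2 * (30000 * (12 / 100000 : ℝ) ^ n) * ballVol n with hb
  have hb0 : 0 < b := mul_pos (by positivity) (ballVol_pos n)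
  obtain ⟨Gc, hGcU, hcard, hsep⟩ := greedyStmt n (goodCentres A Y) (conflict Y) (ENNReal.ofReal b)
    (by simpa using hb0) ENNReal.ofReal_ne_top
    (ne_top_of_le_ne_top measure_closedBall_lt_top.ne (measure_mono
      (t := Metric.closedBall 0 (1 / 2)) fun u hu => by simpa using hu.1))
    (fun u _ => ⟨(conflict_volume hn u).trans (ENNReal.ofReal_le_ofReal
      (mul_le_mul_of_nonneg_right (mul_le_mul_of_nonneg_right
        (pow_le_pow_left₀ (Nat.cast_nonneg _) hY.1 2) (by positivity)) (ballVol_pos n).le)),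
      Set.mem_insert u _⟩) (fun u v => conflict_symm)
  have hcard' : (1 / 2 : ℝ) ^ (n + 1) / (N ^ 2 * (30000 * (12 / 100000 : ℝ) ^ n)) ≤ Gc.card := by
    have h := (goodCentres_volume hY).trans hcard
    rw [← ENNReal.ofReal_natCast, ← ENNReal.ofReal_mul (Nat.cast_nonneg _),
      ENNReal.ofReal_le_ofReal_iff (by positivity), hb, ← mul_assoc] at h
    rw [div_le_iff₀ (by positivity)]
    exact le_of_mul_le_mul_right h (ballVol_pos n)
  set p := Real.exp (-((n : ℝ) / 50)) / 3 with hp
  set s3 := (n : ℝ) ^ (-(1 / 3) : ℝ) with hs3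
  have hs30 : 0 < s3 := Real.rpow_pos_of_pos (by exact_mod_cast hn) _
  have hps : ∀ u ∈ Gc, p ≤ expect qk Finset.univ (success Y (groupSet A Y u)) := by
    intro u hu
    have hvol := groupSet_volume (hGcU hu)
    have hgm : MeasurableSet (groupSet A Y u) :=
      (measurableSet_goodSet A _ Y).inter measurableSet_closedBall
    have hgt : volume (groupSet A Y u) ≠ ⊤ :=
      ne_top_of_le_ne_top measure_closedBall_lt_top.ne (measure_mono Set.inter_subset_right)
    have hgrad : (0 : ℝ) < grad ^ n / 2 := by unfold grad; positivity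
    refine le_trans ?_ (group_success hG hM.group Y hgm Set.inter_subset_left hgt
      (lt_of_lt_of_le (mul_pos hgrad (ballVol_pos n)) hvol)
      (β := (n : ℝ) ^ 2 * N * ((1 / s3 + 2) * (3 * s3) ^ n) * ballVol n) ?_ ?_)
    · exact div_le_div_of_nonneg_right (Real.exp_le_exp.2 (neg_le_neg hM.ratio)) (by norm_num)
    · intro z hz
      have hsub : {z' | z' ∈ groupSet A Y u ∧ ∃ x ∈ members Y z, ∃ x' ∈ members Y z',
          ‖dir (z - x) - dir (z' - x')‖ < s3} ⊆ ⋃ x ∈ members Y z, ⋃ x' ∈ Y,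
          {u' : E n | (7 / 10 : ℝ) ≤ ‖u' - x'‖ ∧ ‖u' - x'‖ ≤ 13 / 10 ∧
            ‖dir (z - x) - dir (u' - x')‖ < s3} := by
        rintro z' ⟨hz', x, hx, x', hx', h⟩
        simp only [Set.mem_iUnion]
        obtain ⟨a1, a2⟩ := mem_radii hz'.1 hx'
        exact ⟨x, hx, x', (Finset.mem_filter.1 hx').1, by linarith [hM.rlo_ge],
          by linarith [hM.rhi_le], h⟩
      have hone : ∀ x ∈ members Y z, ‖dir (z - x)‖ = 1 := fun x hx => norm_dir fun h0 => by
        have := (mem_radii hz.1 hx).1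
        rw [h0, norm_zero] at this
        linarith [hM.rlo_ge]
      set c := (1 / s3 + 2) * (3 * s3) ^ n * ballVol n with hc
      have hc0 : 0 ≤ c := mul_nonneg (by positivity) (ballVol_pos n).le
      have hle : volume {z' | z' ∈ groupSet A Y u ∧ ∃ x ∈ members Y z, ∃ x' ∈ members Y z',
          ‖dir (z - x) - dir (z' - x')‖ < s3} ≤
          ((members Y z).card : ℝ≥0∞) * ((Y.card : ℝ≥0∞) * ENNReal.ofReal c) := by
        refine ((measure_mono hsub).trans (measure_biUnion_finset_le _ _)).trans ?_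
        refine (Finset.sum_le_card_nsmul _ _ _ fun x hx => ?_).trans_eq (nsmul_eq_mul _ _)
        refine (measure_biUnion_finset_le _ _).trans ?_
        exact (Finset.sum_le_card_nsmul _ _ _ fun x' _ =>
          shifted_cone_le hn (hone x hx) hs30 hM.small).trans_eq (nsmul_eq_mul _ _)
      have h := ENNReal.toReal_mono (by finiteness) hle
      rw [ENNReal.toReal_mul, ENNReal.toReal_mul, ENNReal.toReal_natCast, ENNReal.toReal_natCast,
        ENNReal.toReal_ofReal hc0, ← measureReal_def, ← mul_assoc] at h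
      refine h.trans ?_
      rw [hc, ← mul_assoc]
      refine mul_le_mul_of_nonneg_right (mul_le_mul_of_nonneg_right ?_ (by positivity))
        (ballVol_pos n).le
      exact mul_le_mul ((card_members_le hG.one_le hz.1).trans hM.group.K_le) hY.1
        (Nat.cast_nonneg _) (by positivity)
    · calc (n : ℝ) ^ 2 * N * ((1 / s3 + 2) * (3 * s3) ^ n) * ballVol n
          ≤ Real.exp (-(4 * budget n)) * (grad ^ n / 2) * ballVol n :=
            mul_le_mul_of_nonneg_right hM.beta (ballVol_pos n).le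
        _ ≤ _ := by
            rw [mul_assoc]
            exact mul_le_mul_of_nonneg_left hvol (Real.exp_pos _).le
  set Om : E n → Finset (Cell n) := fun u => Finset.univ.filter fun k =>
    ∃ z ∈ groupSet A Y u, ∃ x ∈ members Y z, k ∈ cutters (z - x) with hOm
  have hsupp : ∀ u ∈ Gc, SupportedIn (fun s => 1 - success Y (groupSet A Y u) s) (Om u) := by
    intro u _ a ha s
    have hiff : ∀ z ∈ groupSet A Y u, ∀ x ∈ members Y z,
        (Disjoint (cutters (z - x)) (insert a s) ↔ Disjoint (cutters (z - x)) s) := by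
      intro z hz x hx
      rw [Finset.disjoint_insert_right]
      exact and_iff_right fun hk =>
        ha (Finset.mem_filter.2 ⟨Finset.mem_univ a, z, hz, x, hx, hk⟩)
    show 1 - success Y (groupSet A Y u) (insert a s) = 1 - success Y (groupSet A Y u) s
    unfold success
    congr 1
    refine if_congr (exists_congr fun z => and_congr_right fun hz => forall₂_congr fun x hx =>
      not_congr (hiff z hz x hx)) rfl rfl
  have hdisj : ∀ u ∈ Gc, ∀ u' ∈ Gc, u ≠ u' → Disjoint (Om u) (Om u') := by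
    intro u hu u' hu' hne
    rw [Finset.disjoint_left]
    intro k hk hk'
    obtain ⟨z, hz, x, hx, hkz⟩ := (Finset.mem_filter.1 hk).2
    obtain ⟨z', hz', x', hx', hkz'⟩ := (Finset.mem_filter.1 hk').2
    refine hsep u hu u' hu' hne (Set.mem_insert_of_mem _ ?_)
    simp only [Set.mem_iUnion]
    have key : ∀ {v w y : E n}, w ∈ groupSet A Y v → y ∈ members Y w → k ∈ cutters (w - y) →
        ((7 / 10 : ℝ) ≤ ‖v - y‖ ∧ ‖v - y‖ ≤ 13 / 10) ∧
          ‖dir (nv k) - dir (v - y)‖ < 2 / 100000 := by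
      intro v w y hw hy hkw
      obtain ⟨a1, a2⟩ := mem_radii hw.1 hy
      have hd : ‖(w - y) - (v - y)‖ ≤ 1 / 1000000 := by
        have h := hw.2
        rw [Metric.mem_closedBall, dist_eq_norm, grad] at h
        simpa using h
      have h1 := abs_norm_sub_norm_le (w - y) (v - y)
      rw [abs_le] at h1
      have hwy : (9 / 10 : ℝ) ≤ ‖w - y‖ := hM.rlo_ge.trans a1
      refine ⟨⟨by linarith, by linarith [hM.rhi_le]⟩, ?_⟩
      have h2 := hG.cap _ _ a1 a2 hkw
      have h3 : ‖dir (w - y) - dir (v - y)‖ ≤ 3 / 1000000 := by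
        refine (dir_sub_dir_le fun h0 => ?_).trans ?_
        · rw [h0, norm_zero] at hwy; linarith
        · rw [div_le_iff₀ (by linarith)]; linarith
      have h4 := norm_sub_le_norm_sub_add_norm_sub (dir (nv k)) (dir (w - y)) (dir (v - y))
      linarith
    obtain ⟨c1, c2⟩ := key hz hx hkz
    obtain ⟨d1, d2⟩ := key hz' hx' hkz'
    refine ⟨x, (Finset.mem_filter.1 hx).1, x', (Finset.mem_filter.1 hx').1, c1, d1, ?_⟩
    have h4 := norm_sub_le_norm_sub_add_norm_sub (dir (u - x)) (dir (nv k)) (dir (u' - x'))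
    rw [norm_sub_rev] at c2
    linarith
  have hW : ∀ u ∈ Gc, groupSet A Y u ⊆ Metric.closedBall 0 1 := by
    intro u hu z hz
    have h1 := hz.2
    have h2 := (hGcU hu).1
    rw [Metric.mem_closedBall, dist_eq_norm, grad] at h1
    rw [Metric.mem_closedBall, dist_zero_right]
    have := norm_le_norm_add_norm_sub' z u
    linarith
  refine (expect_mono hG.qk_mem fun s _ => one_sub_success_le Gc _ hW s).trans ?_
  rw [expect_prod_of_disjoint Gc _ Om hsupp hdisj]
  refine (Finset.prod_le_prod (fun u _ => expect_nonneg hG.qk_mem fun s =>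
    sub_nonneg.2 (success_le_one _ _ _)) (fun u hu => ?_) (g := fun _ => Real.exp (-p))).trans ?_
  · rw [expect_one_sub]
    linarith [hps u hu, Real.add_one_le_exp (-p)]
  · rw [Finset.prod_const, ← Real.exp_nat_mul]
    refine Real.exp_le_exp.2 ?_
    rw [mul_neg, neg_le_neg_iff]
    exact hM.entropy.trans (mul_le_mul_of_nonneg_right hcard' (by positivity))

end Vale.Agent.P230
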