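import Vale.Agent.P230.GaussTail

/-!
The Gaussian estimates: probabilities that given cells cut given points.
-/

namespace Vale.Agent.P230

open MeasureTheory ProbabilityTheory Filter
open scoped RealInnerProductSpace

variable {n : ℕ}

theorem mesh_pos (hn : 1 ≤ n) : 0 < mesh n := by
  have : (0 : ℝ) < n := by exact_mod_cast hn
  unfold mesh; positivity

theorem near_center (hn : 1 ≤ n) {k : Cell n} {g : E n} (hg : g ∈ cellSet k) :
    ‖nv k - g‖ ≤ 1 / n := by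
  have hn0 : (0 : ℝ) < n := by exact_mod_cast hn
  have hm := mesh_pos hn
  rw [EuclideanSpace.norm_eq, Real.sqrt_le_left (by positivity)]
  calc ∑ i, ‖(nv k - g) i‖ ^ 2 ≤ ∑ _i : Fin n, mesh n ^ 2 := Finset.sum_le_sum fun i _ => by
        refine pow_le_pow_left₀ (norm_nonneg _) ?_ 2
        obtain ⟨h1, h2⟩ := hg i
        simp only [nv, PiLp.sub_apply, Real.norm_eq_abs]
        rw [abs_le]
        constructor <;> linarith
    _ = (1 / (n : ℝ)) ^ 2 := by
        rw [Finset.sum_const, Finset.card_univ, Fintype.card_fin, nsmul_eq_mul, mesh,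
          div_pow, div_pow, mul_pow, Real.sq_sqrt hn0.le]
        field_simp

theorem exists_cell (hn : 1 ≤ n) {g : E n} (hg : ‖g‖ ≤ gnorm n + 1) :
    ∃ k : Cell n, g ∈ cellSet k := by
  have hm := mesh_pos hn
  have hb : ∀ i, ⌊g i / mesh n⌋ ∈ Finset.Icc (-(gridW n : ℤ)) (gridW n : ℤ) := by
    intro i
    have h1 : |g i / mesh n| ≤ (gnorm n + 1) / mesh n := by
      rw [abs_div, abs_of_pos hm]
      gcongr
      exact le_trans (by simpa using PiLp.norm_apply_le g i) hg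
    rw [abs_le] at h1
    have h2 : (gnorm n + 1) / mesh n ≤ (⌈(gnorm n + 1) / mesh n⌉₊ : ℝ) := Nat.le_ceil _
    rw [Finset.mem_Icc, gridW]
    constructor
    · rw [Int.le_floor]; push_cast; linarith
    · have := Int.floor_le (g i / mesh n)
      exact_mod_cast show (⌊g i / mesh n⌋ : ℝ) ≤ ((⌈(gnorm n + 1) / mesh n⌉₊ + 1 : ℕ) : ℝ) by
        push_cast; linarith
  refine ⟨⟨fun i => ⌊g i / mesh n⌋, Fintype.mem_piFinset.2 hb⟩, fun i => ⟨?_, ?_⟩⟩
  · exact (le_div_iff₀ hm).1 (Int.floor_le _)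
  · exact (div_lt_iff₀ hm).1 (Int.lt_floor_add_one _)

theorem measurableSet_cellSet (k : Cell n) : MeasurableSet (cellSet k) := by
  have e : cellSet k = ⋂ i, {g : E n | (k.1 i : ℝ) * mesh n ≤ g i} ∩
      {g | g i < ((k.1 i : ℝ) + 1) * mesh n} := by
    ext g; simp [cellSet, forall_and]
  rw [e]
  exact MeasurableSet.iInter fun i => (measurableSet_le measurable_const (by fun_prop)).inter
    (measurableSet_lt (by fun_prop) measurable_const)

theorem cellSet_disjoint (hn : 1 ≤ n) {k k' : Cell n} (h : k ≠ k') :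
    Disjoint (cellSet k) (cellSet k') := by
  rw [Set.disjoint_left]
  intro g hg hg'
  refine h (Subtype.ext (funext fun i => ?_))
  obtain ⟨a1, a2⟩ := hg i
  obtain ⟨b1, b2⟩ := hg' i
  have hm := mesh_pos hn
  have h1 : ((k.1 i : ℤ) : ℝ) < ((k'.1 i : ℤ) : ℝ) + 1 :=
    lt_of_mul_lt_mul_right (lt_of_le_of_lt a1 b2) hm.le
  have h2 : ((k'.1 i : ℤ) : ℝ) < ((k.1 i : ℤ) : ℝ) + 1 :=
    lt_of_mul_lt_mul_right (lt_of_le_of_lt b1 a2) hm.le
  norm_cast at h1 h2
  omega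

/-- the Gaussian mass of a set of cells, times the intensity -/
noncomputable def rate (R : Finset (Cell n)) : ℝ :=
  lam n * ∑ k ∈ R, (stdGaussian (E n)).real (cellSet k)

theorem rate_eq (hn : 1 ≤ n) (R : Finset (Cell n)) :
    rate R = lam n * (stdGaussian (E n)).real (⋃ k ∈ R, cellSet k) := by
  rw [rate, measureReal_biUnion_finset (fun k _ k' _ h => cellSet_disjoint hn h)
    fun k _ => measurableSet_cellSet k]

theorem one_le_thr (hn : 1 ≤ n) : 1 ≤ thr n := by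
  have : (1 : ℝ) ≤ Real.sqrt n := Real.one_le_sqrt.2 (by exact_mod_cast hn)
  unfold thr cc; linarith

theorem lam_nonneg (hn : 1 ≤ n) : 0 ≤ lam n := (inv_pos.2 (tail_pos (one_le_thr hn))).le

theorem prod_one_sub_qk (R : Finset (Cell n)) : ∏ k ∈ R, (1 - qk k) = Real.exp (-rate R) := by
  simp only [qk, sub_sub_cancel]
  rw [← Real.exp_sum, rate, Finset.sum_neg_distrib, Finset.mul_sum]

theorem sum_qk_le_rate (R : Finset (Cell n)) : ∑ k ∈ R, qk k ≤ rate R := by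
  rw [rate, Finset.mul_sum]
  refine Finset.sum_le_sum fun k _ => ?_
  have := Real.add_one_le_exp (-(lam n * (stdGaussian (E n)).real (cellSet k)))
  unfold qk; linarith

theorem rate_le (hn : 1 ≤ n) {R : Finset (Cell n)} {T : Set (E n)}
    (h : ∀ k ∈ R, cellSet k ⊆ T) : rate R ≤ lam n * (stdGaussian (E n)).real T := by
  rw [rate_eq hn]
  exact mul_le_mul_of_nonneg_left (measureReal_mono (Set.iUnion₂_subset h) (measure_ne_top _ _)) (lam_nonneg hn)

theorem le_rate (hn : 1 ≤ n) {R : Finset (Cell n)} {S : Set (E n)}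
    (hS : ∀ g ∈ S, ‖g‖ ≤ gnorm n + 1) (h : ∀ k, ∀ g ∈ S, g ∈ cellSet k → k ∈ R) :
    lam n * (stdGaussian (E n)).real S ≤ rate R := by
  rw [rate_eq hn]
  refine mul_le_mul_of_nonneg_left (measureReal_mono (fun g hg => ?_) (measure_ne_top _ _))
    (lam_nonneg hn)
  obtain ⟨k, hk⟩ := exists_cell hn (hS g hg)
  exact Set.mem_iUnion₂.2 ⟨k, h k g hg hk, hk⟩

theorem hitP_ge {R : Finset (Cell n)} {a : ℝ} (ha : 0 ≤ a) (ha1 : a ≤ 1) (h : a ≤ rate R) :
    a / 2 ≤ hitP R := by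
  rw [hitP, prod_one_sub_qk]
  have h1 : Real.exp (-rate R) ≤ Real.exp (-a) := Real.exp_le_exp.2 (neg_le_neg h)
  have h2 : Real.exp (-a) ≤ 1 / (1 + a) := by
    rw [Real.exp_neg, one_div]
    exact inv_anti₀ (by linarith) (by linarith [Real.add_one_le_exp a])
  have h3 : 1 / (1 + a) ≤ 1 - a / 2 := by
    rw [div_le_iff₀ (by linarith)]; nlinarith
  linarith

/-- the numerical conditions of the Gaussian estimates -/
structure GaussNum (n : ℕ) : Prop where
  big : (100000000000000 : ℝ) ≤ n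
  log_le : Real.log n ≤ n / 100000000000000
  log_le_rpow : Real.log n ≤ (1 / 100 : ℝ) * (n : ℝ) ^ (1 / 5 : ℝ)
  union : 320 * (n : ℝ) ^ 3 ≤ Real.exp ((n : ℝ) ^ (1 / 10 : ℝ) / 2)
  width : 9 * cc ^ 2 * (n : ℝ) * ((n : ℝ) ^ (-(19 / 50) : ℝ)) ^ 2 ≤ n

theorem gaussNum_eventually : ∀ᶠ n : ℕ in atTop, GaussNum n := by
  have hlog : ∀ c p : ℝ, 0 < c → 0 < p → ∀ᶠ n : ℕ in atTop, Real.log n ≤ c * (n : ℝ) ^ p := by
    intro c p hc hp
    have h := ((isLittleO_log_rpow_atTop hp).comp_tendsto tendsto_natCast_atTop_atTop).bound hc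
    filter_upwards [h] with n hn
    simpa [abs_of_nonneg (Real.log_natCast_nonneg n),
      abs_of_nonneg (Real.rpow_nonneg (Nat.cast_nonneg n) p)] using hn
  filter_upwards [tendsto_natCast_atTop_atTop.eventually_ge_atTop (100000000000000 : ℝ),
    hlog (1 / 100000000000000) 1 (by norm_num) one_pos,
    hlog (1 / 100) (1 / 5) (by norm_num) (by norm_num),
    hlog (1 / 24) (1 / 10) (by norm_num) (by norm_num),
    ((tendsto_rpow_atTop (by norm_num : (0 : ℝ) < 19 / 25)).comp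
      tendsto_natCast_atTop_atTop).eventually_ge_atTop (9 * cc ^ 2)] with n hn h1 h2 h3 h4
  have hn0 : (0 : ℝ) < n := by linarith
  refine ⟨hn, by rw [Real.rpow_one] at h1; linarith, h2, ?_, ?_⟩
  · have hl1 : 1 ≤ Real.log n := by
      rw [Real.le_log_iff_exp_le hn0]; linarith [Real.exp_one_lt_d9]
    calc 320 * (n : ℝ) ^ 3 ≤ Real.exp (9 * Real.log n) * Real.exp (((3 : ℕ) : ℝ) * Real.log n) := by
          rw [Real.exp_nat_mul, Real.exp_log hn0]
          refine mul_le_mul_of_nonneg_right ?_ (by positivity)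
          refine le_trans ?_ (Real.exp_le_exp.2 (by linarith : (9 : ℝ) ≤ 9 * Real.log n))
          have := Real.exp_one_gt_d9
          rw [show (9 : ℝ) = ((9 : ℕ) : ℝ) * 1 by norm_num, Real.exp_nat_mul]
          exact le_trans (by norm_num) (pow_le_pow_left₀ (by norm_num)
            (show (2.7 : ℝ) ≤ Real.exp 1 by linarith) 9)
      _ ≤ _ := by rw [← Real.exp_add]; refine Real.exp_le_exp.2 ?_; push_cast; linarith
  · have e : ((n : ℝ) ^ (-(19 / 50) : ℝ)) ^ 2 = ((n : ℝ) ^ (19 / 25 : ℝ))⁻¹ := by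
      rw [← Real.rpow_natCast, ← Real.rpow_mul hn0.le, ← Real.rpow_neg hn0.le]; norm_num
    rw [e, mul_comm (9 * cc ^ 2) (n : ℝ), mul_assoc]
    refine mul_le_of_le_one_right hn0.le ?_
    rw [← div_eq_mul_inv, div_le_one (Real.rpow_pos_of_pos hn0 _)]
    exact h4

theorem norm_dir_eq {y : E n} (h : y ≠ 0) : ‖dir y‖ = 1 := norm_smul_inv_norm h

theorem perp_bound (e v : E n) (X κ : ℝ) (he : ‖e‖ = 1) (hX : 0 < X) (hκ : 0 < κ)
    (horth : ⟪e, v⟫ = 0) :
    (stdGaussian (E n)).real {g | X < ⟪g, e⟫ ∧ κ * ‖v‖ < |⟪g, v⟫|} ≤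
      2 * (bell X / X * Real.exp (-κ ^ 2 / 2)) := by
  by_cases hv0 : v = 0
  · have : {g : E n | X < ⟪g, e⟫ ∧ κ * ‖v‖ < |⟪g, v⟫|} = ∅ :=
      Set.eq_empty_of_forall_notMem fun g hg => by
        have h1 := hg.2
        rw [hv0, norm_zero, inner_zero_right, abs_zero, mul_zero] at h1
        exact lt_irrefl _ h1
    rw [this]; simp; unfold bell; positivity
  have hvn : 0 < ‖v‖ := norm_pos_iff.2 hv0
  set L := Real.sqrt (X ^ 2 + κ ^ 2) with hL
  have hL0 : 0 < L := by positivity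
  have key : ∀ s : ℝ, s ^ 2 = 1 →
      (stdGaussian (E n)).real {g | X < ⟪g, e⟫ ∧ κ * ‖v‖ < s * ⟪g, v⟫} ≤
        bell X / X * Real.exp (-κ ^ 2 / 2) := by
    intro s hs
    set u := X • e + (κ * (s * ‖v‖⁻¹)) • v with hu
    have hun : ‖u‖ = L := by
      rw [hL, ← Real.sqrt_sq (norm_nonneg u)]
      congr 1
      rw [hu, norm_add_sq_real, norm_smul, norm_smul, real_inner_smul_left, inner_smul_right,
        horth, he, mul_pow, mul_pow, Real.norm_eq_abs, Real.norm_eq_abs, sq_abs, sq_abs]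
      field_simp
      rw [hs]; ring
    refine (measureReal_mono (s₂ := {g : E n | L < ⟪g, dir u⟫}) (fun g hg => ?_)
      (measure_ne_top _ _)).trans ?_
    · show L < ⟪g, dir u⟫
      rw [dir, inner_smul_right, hun, inv_mul_eq_div, lt_div_iff₀ hL0, hu, inner_add_right,
        inner_smul_right, inner_smul_right, hL, ← sq, Real.sq_sqrt (by positivity)]
      have h1 : κ < s * ⟪g, v⟫ / ‖v‖ := (lt_div_iff₀ hvn).2 hg.2
      rw [show κ * (s * ‖v‖⁻¹) * ⟪g, v⟫ = κ * (s * ⟪g, v⟫ / ‖v‖) by ring, sq, sq]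
      exact add_lt_add (mul_lt_mul_of_pos_left hg.1 hX) (mul_lt_mul_of_pos_left h1 hκ)
    · have hu0 : u ≠ 0 := fun h0 => by rw [h0, norm_zero] at hun; linarith
      rw [real_halfspace _ (norm_dir_eq hu0)]
      refine (tail_le hL0).trans ?_
      have hXL : X ≤ L := Real.le_sqrt_of_sq_le (by nlinarith)
      calc bell L / L ≤ bell L / X :=
            div_le_div_of_nonneg_left (Real.exp_pos _).le hX hXL
        _ = _ := by
            rw [bell, bell, div_mul_eq_mul_div, ← Real.exp_add, hL,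
              Real.sq_sqrt (by positivity)]
            congr 2; ring
  have hsplit : {g : E n | X < ⟪g, e⟫ ∧ κ * ‖v‖ < |⟪g, v⟫|} ⊆
      {g : E n | X < ⟪g, e⟫ ∧ κ * ‖v‖ < (1 : ℝ) * ⟪g, v⟫} ∪
        {g : E n | X < ⟪g, e⟫ ∧ κ * ‖v‖ < (-1 : ℝ) * ⟪g, v⟫} := by
    intro g hg
    obtain ⟨h1, h2⟩ := hg
    rcases le_total 0 ⟪g, v⟫ with hs | hs
    · exact Or.inl ⟨h1, by rw [one_mul]; rwa [abs_of_nonneg hs] at h2⟩
    · exact Or.inr ⟨h1, by rw [neg_one_mul]; rwa [abs_of_nonpos hs] at h2⟩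
  refine ((measureReal_mono hsplit (measure_ne_top _ _)).trans (measureReal_union_le _ _)).trans ?_
  linarith [key 1 (by norm_num), key (-1) (by norm_num)]

theorem excl_real {t t' τ X η κ ρ d α a b w : ℝ} (hρ : 0 < ρ) (hρ2 : ρ ^ 2 ≤ 1 / 4)
    (hκ : 0 ≤ κ) (hη : 0 ≤ η) (hd : 2 * ρ < d) (hwd : w ≤ d) (hw0 : 0 ≤ w) (ht : t ≤ t')
    (hX : t' ≤ X) (hgap : t' - τ ≤ t * ρ ^ 2 / 4) (hηρ : η ≤ t * ρ ^ 2 / 4)
    (hκρ : 3 * ρ * κ ≤ t * ρ ^ 2 / 4) (hκt : 12 * κ ≤ t)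
    (hXe : (1 - ρ ^ 2 / 2) * X = t' + ρ * κ) (hα : α = 1 - d ^ 2 / 2)
    (hwsq : w ^ 2 = 1 - α ^ 2) (ha1 : X ≤ a) (ha : a ≤ X + η) (hb : b ≤ κ * w)
    (hgt : τ < α * a + b) : False := by
  have ht0 : 0 ≤ t := by linarith
  rcases le_or_gt 0 α with hpos | hneg
  · have h2 : α * a ≤ α * (X + η) := mul_le_mul_of_nonneg_left ha hpos
    have h3 : κ * w ≤ κ * d := mul_le_mul_of_nonneg_left hwd hκ
    have h4 : 0 ≤ (d - 2 * ρ) * ((d + 2 * ρ) * (X + η) / 2 - κ) := by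
      refine mul_nonneg (by linarith) ?_
      have e1 : 2 * ρ * t ≤ (d + 2 * ρ) * (X + η) / 2 := by
        have := mul_le_mul (show 4 * ρ ≤ d + 2 * ρ by linarith) (show t ≤ X + η by linarith) ht0
          (by linarith)
        linarith
      have e2 : κ * ρ ≤ 2 * ρ * t * ρ := by nlinarith
      have := le_of_mul_le_mul_right e2 hρ
      linarith
    have h5 : (1 - 2 * ρ ^ 2) * (X + η) + 2 * ρ * κ ≤ τ := by
      have e1 : (1 - 2 * ρ ^ 2) * X ≤ (1 - ρ ^ 2) * ((1 - ρ ^ 2 / 2) * X) := by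
        rw [← mul_assoc]
        exact mul_le_mul_of_nonneg_right (by nlinarith [sq_nonneg (ρ ^ 2)]) (by linarith)
      rw [hXe] at e1
      nlinarith [mul_nonneg hρ.le hκ, mul_nonneg (sq_nonneg ρ) hη,
        mul_le_mul_of_nonneg_left ht (sq_nonneg ρ)]
    rw [hα] at h2 hgt
    nlinarith
  · have h2 : α * a ≤ 0 := mul_nonpos_of_nonpos_of_nonneg hneg.le (by linarith)
    have hw1 : w ≤ 1 := by nlinarith [sq_nonneg α]
    have h3 : κ * w ≤ κ * 1 := mul_le_mul_of_nonneg_left hw1 hκ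
    have h6 : t * ρ ^ 2 ≤ t * (1 / 4) := mul_le_mul_of_nonneg_left hρ2 ht0
    linarith

namespace GaussNum

variable (h : GaussNum n)
include h

theorem npos : (0 : ℝ) < n := by linarith [h.big]

theorem one_le : 1 ≤ n := by exact_mod_cast (show (1 : ℝ) ≤ n by linarith [h.big])

theorem rlo_ge : 99 / 100 ≤ rlo n ∧ rlo n ≤ 1 := by
  have hn := h.npos
  have hl := Real.log_natCast_nonneg n
  have : 3 * Real.log n / n ≤ 1 / 100 := (div_le_iff₀ hn).2 (by linarith [h.log_le])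
  have : 0 ≤ 3 * Real.log n / n := by positivity
  unfold rlo; constructor <;> linarith

theorem inv_small : 1 / (n : ℝ) ≤ 1 / 100000000000000 :=
  div_le_div_of_nonneg_left one_pos.le (by norm_num) h.big

theorem rhi_le : 1 ≤ rhi n ∧ rhi n ≤ 1 + 1 / 100000000000 := by
  have hn := h.npos
  unfold rhi
  have : 2 / (n : ℝ) ^ 2 ≤ 1 / 100000000000 := by
    rw [div_le_iff₀ (by positivity)]
    nlinarith [h.big]
  constructor
  · have : 0 ≤ 2 / (n : ℝ) ^ 2 := by positivity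
    linarith
  · linarith

theorem thr_sq : thr n ^ 2 = cc ^ 2 * n := by
  rw [thr, mul_pow, Real.sq_sqrt (Nat.cast_nonneg n)]

theorem thr_le_n : thr n ≤ n := by
  have hn := h.npos
  rw [thr, ← le_div_iff₀' (by norm_num [cc]), Real.sqrt_le_left (by unfold cc; positivity),
    div_pow, le_div_iff₀ (by norm_num [cc])]
  have : (cc : ℝ) ^ 2 ≤ n := by
    rw [show cc ^ 2 = 1000000000000 by norm_num [cc]]; linarith [h.big]
  nlinarith

theorem gnorm_le : gnorm n ≤ n := by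
  have hn := h.npos
  rw [gnorm, Real.sqrt_le_left hn.le]
  have : (cc : ℝ) ^ 2 + 70 ≤ n := by
    rw [show cc ^ 2 = 1000000000000 by norm_num [cc]]; linarith [h.big]
  nlinarith

theorem big_norm {g : E n} (hg : gnorm n - 2 / n < ‖g‖) :
    (cc ^ 2 + 69) * n ≤ ‖g‖ ^ 2 := by
  have hn := h.npos
  have hsq : gnorm n ^ 2 = (cc ^ 2 + 70) * n := Real.sq_sqrt (by positivity)
  have h1 : 1 ≤ gnorm n := Real.one_le_sqrt.2 (by norm_num [cc]; nlinarith [h.big])
  have h2 : 2 / (n : ℝ) ≤ 1 := by rw [div_le_one hn]; linarith [h.big]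
  have h3 := pow_le_pow_left₀ (by linarith) hg.le 2
  have h4 : 2 / (n : ℝ) * gnorm n ≤ 2 := by
    rw [div_mul_eq_mul_div, div_le_iff₀ hn]; linarith [h.gnorm_le]
  nlinarith [h.big, sq_nonneg (2 / (n : ℝ))]

theorem lam_mul_tail {x : ℝ} : lam n * tail x = tail x / tail (thr n) := by
  rw [lam, inv_mul_eq_div]

theorem norm_tail_le {x : ℝ} (hx : 1 ≤ x) (hx2 : x ≤ 2 * thr n)
    (hsq : x ^ 2 ≤ thr n ^ 2 + n) :
    (stdGaussian (E n)).real {g | (cc ^ 2 + 69) * n ≤ ‖g‖ ^ 2} ≤ bell x / (20 * x) / 4 := by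
  have hn := h.npos
  refine (norm_tail n).trans ?_
  rw [h.thr_sq] at hsq
  rw [div_div, bell, le_div_iff₀ (by positivity)]
  have h80 : 20 * x * 4 ≤ Real.exp (19 * n) := by
    have h1 := Real.quadratic_le_exp_of_nonneg (show (0 : ℝ) ≤ 19 * n by positivity)
    nlinarith [h.thr_le_n, h.big]
  calc Real.exp (-(cc ^ 2 * n / 2) - 20 * n) * (20 * x * 4)
      ≤ Real.exp (-(cc ^ 2 * n / 2) - 20 * n) * Real.exp (19 * n) :=
        mul_le_mul_of_nonneg_left h80 (Real.exp_pos _).le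
    _ ≤ _ := by rw [← Real.exp_add]; exact Real.exp_le_exp.2 (by linarith)

theorem vol_bound {y : E n} (hy : ‖y‖ ≤ 1) :
    rate (Finset.univ.filter fun k : Cell n => thr n < ⟪nv k, y⟫) ≤ 120 := by
  have hn := h.npos
  have ht := one_le_thr h.one_le
  have hi := h.inv_small
  by_cases h0 : y = 0
  · have : (Finset.univ.filter fun k : Cell n => thr n < ⟪nv k, y⟫) = ∅ :=
      Finset.filter_eq_empty_iff.2 fun k _ => by simp [h0]; linarith
    rw [this, rate]; simp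
  set x := thr n - 1 / n with hx
  have hx1 : 1 / 2 ≤ x := by linarith
  refine (rate_le h.one_le (T := {g | x < ⟪g, dir y⟫}) fun k hk g hg => ?_).trans ?_
  · have hk' := (Finset.mem_filter.1 hk).2
    have h1 : ⟪nv k - g, y⟫ ≤ 1 / n := (real_inner_le_norm _ _).trans
      ((mul_le_mul (near_center h.one_le hg) hy (norm_nonneg _) (by positivity)).trans (by simp))
    rw [inner_sub_left] at h1
    have hy0 : 0 < ‖y‖ := norm_pos_iff.2 h0
    show x < ⟪g, dir y⟫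
    rw [dir, inner_smul_right, inv_mul_eq_div, lt_div_iff₀ hy0]
    calc x * ‖y‖ ≤ x * 1 := mul_le_mul_of_nonneg_left hy (by linarith)
      _ < _ := by linarith
  · rw [real_halfspace (dir y) (norm_dir_eq h0), h.lam_mul_tail]
    refine (tail_ratio_le ht (by linarith)).trans ?_
    have e : -((x ^ 2 - thr n ^ 2) / 2) ≤ 1 := by
      have : thr n * (1 / n) ≤ 1 := by rw [mul_one_div, div_le_one hn]; exact h.thr_le_n
      nlinarith [sq_nonneg (1 / (n : ℝ))]
    have h2 : thr n / x ≤ 2 := by rw [div_le_iff₀ (by linarith)]; linarith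
    calc _ ≤ 20 * 2 * Real.exp 1 := by gcongr
      _ ≤ 120 := by linarith [Real.exp_one_lt_d9]

theorem hit_bound {y : E n} (h1 : rlo n ≤ ‖y‖) (h2 : ‖y‖ ≤ rhi n) :
    Real.exp (-wcost 100000000000000 n ‖y‖) ≤ hitP (cutters y) := by
  have hn := h.npos
  have ht := one_le_thr h.one_le
  have hi := h.inv_small
  obtain ⟨hlo, -⟩ := h.rlo_ge
  obtain ⟨-, hhi⟩ := h.rhi_le
  set r := ‖y‖ with hr
  have hr0 : 0 < r := by linarith
  have hy : y ≠ 0 := norm_pos_iff.1 hr0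
  set x := (thr n + 3 / n) / r with hxdef
  have h3n : 3 / (n : ℝ) ≤ 1 / 10000 := by
    rw [show 3 / (n : ℝ) = 3 * (1 / n) by ring]; linarith
  have h3n0 : 0 ≤ 3 / (n : ℝ) := by positivity
  have hx1 : 1 / 2 * thr n ≤ x := by
    rw [hxdef, le_div_iff₀ hr0]; nlinarith
  have hx2 : x ≤ 2 * thr n := by
    rw [hxdef, div_le_iff₀ hr0]; nlinarith
  have hx : 1 ≤ x := by
    have : 2 ≤ thr n := by
      have : (1 : ℝ) ≤ Real.sqrt n := Real.one_le_sqrt.2 (by linarith [h.big])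
      unfold thr cc; linarith
    linarith
  set m := max 0 (1 - r) with hm
  have hm0 : 0 ≤ m := le_max_left _ _
  have hxt : x ^ 2 - thr n ^ 2 ≤ 23 / 10 * cc ^ 2 * n * m + 20 := by
    have htn : thr n * (1 / n) ≤ 1 := by rw [mul_one_div, div_le_one hn]; exact h.thr_le_n
    have e : x ^ 2 * r ^ 2 = (thr n + 3 / n) ^ 2 := by
      rw [← mul_pow, hxdef, div_mul_cancel₀ _ hr0.ne']
    refine le_of_mul_le_mul_right ?_ (pow_pos hr0 2)
    rw [sub_mul, e]
    have hmr : 1 - r ≤ m := le_max_right _ _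
    have hr2 : 1 - r ^ 2 ≤ 23 / 10 * m * r ^ 2 := by
      rcases le_or_gt r 1 with hle | hgt
      · have h98 : (49 / 50 : ℝ) ≤ r ^ 2 := by nlinarith
        nlinarith [mul_le_mul_of_nonneg_left h98 hm0,
          mul_le_mul_of_nonneg_right hmr (show (0 : ℝ) ≤ 1 + r by linarith)]
      · nlinarith
    have ht2 := h.thr_sq
    nlinarith [mul_le_mul_of_nonneg_left hr2 (sq_nonneg (thr n)),
      show 3 / (n : ℝ) * thr n ≤ 3 by
        rw [show 3 / (n : ℝ) * thr n = 3 * (thr n * (1 / n)) by ring]; linarith]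
  have hsq : x ^ 2 ≤ thr n ^ 2 + n := by
    have hmb : m ≤ 3 * Real.log n / n := max_le (by
      have := Real.log_natCast_nonneg n; positivity) (by unfold rlo at h1; linarith)
    have : cc ^ 2 * n * m ≤ 3 * cc ^ 2 * Real.log n := by
      refine (mul_le_mul_of_nonneg_left hmb (by positivity)).trans (le_of_eq ?_)
      field_simp
    have hc : (cc : ℝ) ^ 2 = 1000000000000 := by norm_num [cc]
    nlinarith [h.log_le, h.big]
  set S := {g : E n | x < ⟪g, dir y⟫ ∧ ‖g‖ ≤ gnorm n - 2 / n} with hS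
  have hrate : lam n * (stdGaussian (E n)).real S ≤ rate (cutters y) := by
    refine le_rate h.one_le (fun g hg => ?_) fun k g hg hk => ?_
    · have : 0 ≤ 2 / (n : ℝ) := by positivity
      linarith [hg.2]
    · refine Finset.mem_filter.2 ⟨Finset.mem_univ k, ?_, ?_⟩
      · have hd : ⟪g - nv k, y⟫ ≤ 1 / n * r := (real_inner_le_norm _ _).trans
          (mul_le_mul_of_nonneg_right (norm_sub_rev g (nv k) ▸ near_center h.one_le hk) hr0.le)
        rw [inner_sub_left] at hd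
        have hg1 : x < ⟪g, dir y⟫ := hg.1
        rw [dir, inner_smul_right, inv_mul_eq_div, hxdef, div_lt_div_iff_of_pos_right hr0] at hg1
        have : 1 / (n : ℝ) * r ≤ 1 / n * 2 :=
          mul_le_mul_of_nonneg_left (by linarith) (by positivity)
        have : 3 / (n : ℝ) = 1 / n + 1 / n * 2 := by ring
        linarith
      · have := norm_le_norm_add_norm_sub' (nv k) g
        have := near_center h.one_le hk
        have : 2 / (n : ℝ) = 1 / n + 1 / n := by ring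
        linarith [hg.2, show (0 : ℝ) ≤ 1 / n by positivity]
  have hmass : tail x / 2 ≤ (stdGaussian (E n)).real S := by
    have hsub : {g : E n | x < ⟪g, dir y⟫} ⊆ S ∪ {g | (cc ^ 2 + 69) * n ≤ ‖g‖ ^ 2} := fun g hg => by
      by_cases hb : ‖g‖ ≤ gnorm n - 2 / n
      · exact Or.inl ⟨hg, hb⟩
      · exact Or.inr (h.big_norm (not_le.1 hb))
    have := (measureReal_mono (μ := stdGaussian (E n)) hsub).trans (measureReal_union_le _ _)
    rw [real_halfspace _ (norm_dir_eq hy)] at this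
    linarith [h.norm_tail_le hx hx2 hsq, le_tail hx, show 0 ≤ bell x / (20 * x) by
      unfold bell; positivity]
  set a := 1 / 80 * Real.exp (-10 - 23 / 20 * cc ^ 2 * n * m) with ha
  have hale : a ≤ rate (cutters y) := by
    refine le_trans ?_ hrate
    refine le_trans ?_ (mul_le_mul_of_nonneg_left hmass (lam_nonneg h.one_le))
    rw [← mul_div_assoc, h.lam_mul_tail]
    refine le_trans ?_ (div_le_div_of_nonneg_right (tail_ratio_ge ht hx) two_pos.le)
    have e1 : 1 / 40 ≤ thr n / (20 * x) := by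
      rw [le_div_iff₀ (by linarith)]; linarith
    rw [ha]
    have e2 : Real.exp (-10 - 23 / 20 * cc ^ 2 * n * m) ≤
        Real.exp (-((x ^ 2 - thr n ^ 2) / 2)) := Real.exp_le_exp.2 (by linarith)
    have := mul_le_mul e1 e2 (Real.exp_pos _).le (by positivity)
    linarith
  refine le_trans ?_ (hitP_ge (by positivity) ?_ hale)
  · rw [ha, wcost, ← hm, show (1 / 80 : ℝ) * Real.exp (-10 - 23 / 20 * cc ^ 2 * n * m) / 2 =
      Real.exp (-10 - 23 / 20 * cc ^ 2 * n * m) * (1 / 160) by ring]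
    calc Real.exp (-(100000000000000 + 3 * cc ^ 2 * n * m))
        ≤ Real.exp (-10 - 23 / 20 * cc ^ 2 * n * m) * Real.exp (-160) := by
          rw [← Real.exp_add]
          refine Real.exp_le_exp.2 ?_
          nlinarith [mul_nonneg (mul_nonneg (sq_nonneg cc) hn.le) hm0]
      _ ≤ _ := by
          refine mul_le_mul_of_nonneg_left ?_ (Real.exp_pos _).le
          rw [Real.exp_neg, one_div]
          exact inv_anti₀ (by norm_num) (by linarith [Real.add_one_le_exp (160 : ℝ)])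
  · have : Real.exp (-10 - 23 / 20 * cc ^ 2 * n * m) ≤ 1 :=
      Real.exp_le_one_iff.2 (by nlinarith [mul_nonneg (mul_nonneg (sq_nonneg cc) hn.le) hm0])
    rw [ha]; linarith

theorem cap_bound {y : E n} {k : Cell n} (h1 : rlo n ≤ ‖y‖) (h2 : ‖y‖ ≤ rhi n)
    (hk : k ∈ cutters y) : ‖dir (nv k) - dir y‖ ≤ 1 / 100000 := by
  have hn := h.npos
  obtain ⟨-, hkt, hkn⟩ := Finset.mem_filter.1 hk
  have ht := one_le_thr h.one_le
  have hy0 : 0 < ‖y‖ := by linarith [h.rlo_ge.1]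
  have hy : y ≠ 0 := norm_pos_iff.1 hy0
  have hv : nv k ≠ 0 := fun h0 => by
    rw [h0, inner_zero_left] at hkt
    linarith [show (0 : ℝ) < 1 / n by positivity]
  have hv0 : 0 < ‖nv k‖ := norm_pos_iff.2 hv
  have hi : ⟪dir (nv k), dir y⟫ = ⟪nv k, y⟫ / (‖nv k‖ * ‖y‖) := by
    rw [dir, dir, real_inner_smul_left, inner_smul_right]
    field_simp
  have hsq : ‖dir (nv k) - dir y‖ ^ 2 = 2 - 2 * ⟪dir (nv k), dir y⟫ := by
    rw [norm_sub_sq_real, show ‖dir (nv k)‖ = 1 from norm_smul_inv_norm hv,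
      show ‖dir y‖ = 1 from norm_smul_inv_norm hy]
    ring
  have hg : gnorm n ≤ (cc + 35 / cc) * Real.sqrt n := by
    rw [gnorm, Real.sqrt_mul (by positivity)]
    refine mul_le_mul_of_nonneg_right ?_ (Real.sqrt_nonneg _)
    rw [Real.sqrt_le_left (by norm_num [cc])]
    norm_num [cc]
  have hc : 1 - 49 / 1000000000000 ≤ ⟪dir (nv k), dir y⟫ := by
    rw [hi, le_div_iff₀ (mul_pos hv0 hy0)]
    refine le_trans (mul_le_mul_of_nonneg_left
      (mul_le_mul (hkn.trans hg) h2 hy0.le (by unfold cc; positivity)) (by norm_num)) ?_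
    refine le_trans ?_ hkt.le
    refine le_trans ?_ (le_add_of_nonneg_right (by positivity))
    unfold thr
    have hr := h.rhi_le.2
    have hs := Real.sqrt_nonneg (n : ℝ)
    refine le_trans (mul_le_mul_of_nonneg_left (mul_le_mul_of_nonneg_left hr
      (by unfold cc; positivity)) (by norm_num)) ?_
    norm_num [cc]
    linarith
  nlinarith [norm_nonneg (dir (nv k) - dir y)]

theorem cut_gt {y : E n} {k : Cell n} {g : E n} (h0 : 0 < ‖y‖) (h2 : ‖y‖ ≤ rhi n)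
    (hk : k ∈ cutters y) (hg : g ∈ cellSet k) :
    (thr n - 1 / n) / rhi n < ⟪g, dir y⟫ := by
  have hn := h.npos
  obtain ⟨-, hkt, -⟩ := Finset.mem_filter.1 hk
  have hd : ⟪nv k - g, y⟫ ≤ 1 / n * ‖y‖ := (real_inner_le_norm _ _).trans
    (mul_le_mul_of_nonneg_right (near_center h.one_le hg) h0.le)
  rw [inner_sub_left] at hd
  have h1n : 0 ≤ 1 / (n : ℝ) := by positivity
  have h3 : 1 / (n : ℝ) * ‖y‖ ≤ 1 / n * 2 :=
    mul_le_mul_of_nonneg_left (by linarith [h.rhi_le.2]) h1n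
  have ht : 0 ≤ thr n - 1 / n := by linarith [one_le_thr h.one_le, h.inv_small]
  rw [dir, inner_smul_right, inv_mul_eq_div]
  exact lt_of_le_of_lt (div_le_div_of_nonneg_left ht h0 h2)
    (div_lt_div_of_pos_right (by linarith) h0)

theorem cross_bound {y y' : E n} (h1 : rlo n ≤ ‖y‖) (h2 : ‖y‖ ≤ rhi n) (h1' : rlo n ≤ ‖y'‖)
    (h2' : ‖y'‖ ≤ rhi n) :
    (∑ k ∈ cutters y ∩ cutters y', qk k) ≤
      100000000000000 * Real.exp (-(cc ^ 2 * n * ‖dir y - dir y'‖ ^ 2 / 8)) := by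
  have hn := h.npos
  have ht := one_le_thr h.one_le
  have hi := h.inv_small
  obtain ⟨hhi0, hhi⟩ := h.rhi_le
  have hy : y ≠ 0 := fun h0 => by rw [h0, norm_zero] at h1; linarith [h.rlo_ge.1]
  have hy' : y' ≠ 0 := fun h0 => by rw [h0, norm_zero] at h1'; linarith [h.rlo_ge.1]
  set e := dir y
  set e' := dir y'
  set d := ‖e - e'‖
  set τ := (thr n - 1 / n) / rhi n with hτ
  have hτ0 : 0 < τ := by
    rw [hτ]; exact div_pos (by linarith) (by linarith)
  refine (sum_qk_le_rate _).trans ?_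
  have hne : ∀ k ∈ cutters y ∩ cutters y', ∀ g ∈ cellSet k,
      2 * τ < ⟪g, e + e'⟫ := by
    intro k hk g hg
    obtain ⟨ha, hb⟩ := Finset.mem_inter.1 hk
    rw [inner_add_right]
    linarith [h.cut_gt (norm_pos_iff.2 hy) h2 ha hg, h.cut_gt (norm_pos_iff.2 hy') h2' hb hg]
  by_cases hs : e + e' = 0
  · refine le_trans (rate_le h.one_le (T := ∅) fun k hk g hg => ?_) (by simp; positivity)
    have := hne k hk g hg
    rw [hs, inner_zero_right] at this
    linarith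
  set L := ‖e + e'‖
  have hL0 : 0 < L := norm_pos_iff.2 hs
  have hLd : L ^ 2 = 4 - d ^ 2 := by
    simp only [L, d, norm_add_sq_real, norm_sub_sq_real,
      show ‖e‖ = 1 from norm_smul_inv_norm hy, show ‖e'‖ = 1 from norm_smul_inv_norm hy']
    ring
  set x := 2 * τ / L with hxdef
  refine (rate_le h.one_le (T := {g | x < ⟪g, dir (e + e')⟫}) fun k hk g hg => ?_).trans ?_
  · show x < ⟪g, dir (e + e')⟫
    rw [dir, inner_smul_right, inv_mul_eq_div]
    exact div_lt_div_of_pos_right (hne k hk g hg) hL0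
  rw [real_halfspace _ (norm_dir_eq hs), h.lam_mul_tail]
  have hL2 : L ≤ 2 := by nlinarith [sq_nonneg d]
  have hxτ : τ ≤ x := by rw [hxdef, le_div_iff₀ hL0]; nlinarith
  refine (tail_ratio_le ht (hτ0.trans_le hxτ)).trans ?_
  have hratio : thr n / x ≤ 2 := by
    rw [div_le_iff₀ (hτ0.trans_le hxτ)]
    have : thr n ≤ 2 * τ := by
      rw [hτ, mul_div_assoc', le_div_iff₀ (by linarith)]; nlinarith
    linarith
  have hd4 : d ^ 2 ≤ 4 := by nlinarith
  have htn : thr n * (1 / n) ≤ 1 := by rw [mul_one_div, div_le_one hn]; exact h.thr_le_n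
  have hx2 : τ ^ 2 * (1 + d ^ 2 / 4) ≤ x ^ 2 := by
    rw [hxdef, div_pow (2 * τ) L, le_div_iff₀ (pow_pos hL0 2), hLd]
    nlinarith [mul_nonneg (sq_nonneg τ) (sq_nonneg (d ^ 2))]
  have hτ2 : thr n ^ 2 - 7 ≤ τ ^ 2 := by
    have e1 : (thr n - 1 / n) * (1 - 2 / (n : ℝ) ^ 2) ≤ τ := by
      rw [hτ, le_div_iff₀ (by linarith), mul_assoc]
      refine mul_le_of_le_one_right (by linarith) ?_
      unfold rhi
      nlinarith [sq_nonneg (2 / (n : ℝ) ^ 2)]
    have e2 : thr n - 3 / n ≤ τ := by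
      refine le_trans ?_ e1
      have : thr n * (2 / (n : ℝ) ^ 2) ≤ 2 / n := by
        rw [mul_div_assoc', div_le_div_iff₀ (by positivity) hn]
        nlinarith [h.thr_le_n]
      have : 0 ≤ 1 / (n : ℝ) * (2 / (n : ℝ) ^ 2) := by positivity
      have : 3 / (n : ℝ) = 1 / n + 2 / n := by ring
      nlinarith
    have e3 : 0 ≤ thr n - 3 / n := by
      have : 3 / (n : ℝ) = 3 * (1 / n) := by ring
      linarith
    have := pow_le_pow_left₀ e3 e2 2
    have : thr n * (3 / n) ≤ 3 := by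
      rw [show thr n * (3 / (n : ℝ)) = 3 * (thr n * (1 / n)) by ring]; linarith
    nlinarith [sq_nonneg (3 / (n : ℝ))]
  have hexp : -((x ^ 2 - thr n ^ 2) / 2) ≤ 7 - cc ^ 2 * n * d ^ 2 / 8 := by
    rw [← h.thr_sq]
    nlinarith [mul_le_mul_of_nonneg_right hτ2 (sq_nonneg d), mul_nonneg hτ0.le hτ0.le]
  calc _ ≤ 20 * 2 * Real.exp (7 - cc ^ 2 * n * d ^ 2 / 8) := by gcongr
    _ ≤ _ := by
        rw [sub_eq_add_neg, Real.exp_add, ← mul_assoc]
        refine mul_le_mul_of_nonneg_right ?_ (Real.exp_pos _).le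
        rw [show (7 : ℝ) = ((7 : ℕ) : ℝ) * 1 by norm_num, Real.exp_nat_mul]
        have := pow_le_pow_left₀ (Real.exp_pos 1).le
          (show Real.exp 1 ≤ 3 by linarith [Real.exp_one_lt_d9]) 7
        norm_num at this ⊢
        linarith

theorem tube_scales {ρ : ℝ} (hρ1 : (n : ℝ) ^ (-(2 / 5) : ℝ) ≤ ρ)
    (hρ2 : ρ ≤ (n : ℝ) ^ (-(19 / 50) : ℝ)) :
    0 < ρ ∧ ρ ^ 2 ≤ 1 / 4 ∧ 1 ≤ (n : ℝ) * ρ ^ 2 ∧ 1 / Real.sqrt n ≤ thr n * ρ ^ 2 / 4 ∧
      3 * ρ * (n : ℝ) ^ (1 / 20 : ℝ) ≤ thr n * ρ ^ 2 / 4 ∧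
      (thr n + 3 / n) / rlo n - (thr n - 1 / n) / rhi n ≤ thr n * ρ ^ 2 / 4 := by
  have hn := h.npos
  have ht := one_le_thr h.one_le
  obtain ⟨hlo, hlo1⟩ := h.rlo_ge
  obtain ⟨hhi0, hhi⟩ := h.rhi_le
  set κ := (n : ℝ) ^ (1 / 20 : ℝ) with hκ
  set η := 1 / Real.sqrt n with hη
  set t' := (thr n + 3 / n) / rlo n with ht'
  set τ := (thr n - 1 / n) / rhi n with hτ
  have hκ0 : 0 < κ := Real.rpow_pos_of_pos hn _
  have hρ0 : 0 < ρ := lt_of_lt_of_le (Real.rpow_pos_of_pos hn _) hρ1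
  have hρsmall : ρ ^ 2 ≤ 1 / 4 := by
    have h9 := mul_le_mul_of_nonneg_left (pow_le_pow_left₀ hρ0.le hρ2 2)
      (show (0 : ℝ) ≤ 9 * cc ^ 2 * n by positivity)
    have h10 := h9.trans h.width
    have hc : (cc : ℝ) ^ 2 = 1000000000000 := by norm_num [cc]
    rw [hc] at h10
    nlinarith
  have hnr : 1 ≤ (n : ℝ) * ρ ^ 2 := by
    refine le_trans ?_ (mul_le_mul_of_nonneg_left
      (pow_le_pow_left₀ (Real.rpow_nonneg hn.le _) hρ1 2) hn.le)
    rw [← Real.rpow_natCast, ← Real.rpow_mul hn.le]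
    nth_rw 1 [← Real.rpow_one (n : ℝ)]
    rw [← Real.rpow_add hn]
    exact Real.one_le_rpow (by linarith [h.big]) (by norm_num)
  have hA : cc * (n : ℝ) ^ (-(3 / 10) : ℝ) ≤ thr n * ρ ^ 2 := by
    have := mul_le_mul_of_nonneg_left (pow_le_pow_left₀ (Real.rpow_nonneg hn.le _) hρ1 2)
      (show 0 ≤ thr n by linarith)
    refine le_trans (le_of_eq ?_) this
    rw [thr, Real.sqrt_eq_rpow, ← Real.rpow_natCast, ← Real.rpow_mul hn.le, mul_assoc,
      ← Real.rpow_add hn]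
    norm_num
  have hn310 : (n : ℝ) ^ (-(1 / 2) : ℝ) ≤ (n : ℝ) ^ (-(3 / 10) : ℝ) :=
    Real.rpow_le_rpow_of_exponent_le (by linarith [h.big]) (by norm_num)
  have hηρ : η ≤ thr n * ρ ^ 2 / 4 := by
    have : η = (n : ℝ) ^ (-(1 / 2) : ℝ) := by
      rw [hη, Real.sqrt_eq_rpow, one_div ((n : ℝ) ^ (1 / 2 : ℝ)), ← Real.rpow_neg hn.le]
    have : (4 : ℝ) * (n : ℝ) ^ (-(3 / 10) : ℝ) ≤ cc * (n : ℝ) ^ (-(3 / 10) : ℝ) :=
      mul_le_mul_of_nonneg_right (by norm_num [cc]) (Real.rpow_nonneg hn.le _)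
    linarith
  have hκρ : 3 * ρ * κ ≤ thr n * ρ ^ 2 / 4 := by
    have h12 : 12 * κ ≤ thr n * ρ := by
      have e1 := mul_le_mul_of_nonneg_left hρ1 (show 0 ≤ thr n by linarith)
      refine le_trans ?_ e1
      rw [thr, Real.sqrt_eq_rpow, mul_assoc, ← Real.rpow_add hn]
      refine mul_le_mul (by norm_num [cc]) (Real.rpow_le_rpow_of_exponent_le
        (by linarith [h.big]) (by norm_num)) hκ0.le (by norm_num [cc])
    nlinarith
  have hlogρ : t' - τ ≤ thr n * ρ ^ 2 / 4 := by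
    have hl := Real.log_natCast_nonneg n
    have e1 : t' ≤ (thr n + 3 / n) * (1 + 4 * Real.log n / n) := by
      rw [ht', div_le_iff₀ (by linarith), mul_assoc]
      refine le_mul_of_one_le_right (by positivity) ?_
      unfold rlo
      have hlq : Real.log n / n ≤ 1 / 100 := (div_le_iff₀ hn).2 (by linarith [h.log_le])
      have : 0 ≤ Real.log n / n := by positivity
      rw [mul_div_assoc, mul_div_assoc]
      nlinarith
    have e2 : thr n - 3 / n ≤ τ := by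
      rw [hτ, le_div_iff₀ (by linarith)]
      unfold rhi
      have : thr n * (2 / (n : ℝ) ^ 2) ≤ 2 / n := by
        rw [mul_div_assoc', div_le_div_iff₀ (by positivity) hn]
        nlinarith [h.thr_le_n]
      have : 0 ≤ 3 / (n : ℝ) * (2 / (n : ℝ) ^ 2) := by positivity
      have : 3 / (n : ℝ) = 1 / n + 2 / n := by ring
      nlinarith
    have e3 : thr n * (4 * Real.log n / n) = 4 * cc * Real.log n * (n : ℝ) ^ (-(1 / 2) : ℝ) := by
      have hs : Real.sqrt n / n = (n : ℝ) ^ (-(1 / 2) : ℝ) := by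
        rw [Real.sqrt_eq_rpow, div_eq_mul_inv, ← Real.rpow_neg_one (n : ℝ), ← Real.rpow_add hn]
        norm_num
      rw [← hs, thr]; ring
    have e4 : Real.log n * (n : ℝ) ^ (-(1 / 2) : ℝ) ≤ 1 / 100 * (n : ℝ) ^ (-(3 / 10) : ℝ) := by
      refine (mul_le_mul_of_nonneg_right h.log_le_rpow (Real.rpow_nonneg hn.le _)).trans
        (le_of_eq ?_)
      rw [mul_assoc, ← Real.rpow_add hn]; norm_num
    have e5 : 3 / (n : ℝ) * (1 + 4 * Real.log n / n) + 3 / n ≤
        10 * (n : ℝ) ^ (-(3 / 10) : ℝ) := by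
      have h1 : 4 * Real.log n / n ≤ 1 := (div_le_one hn).2 (by linarith [h.log_le])
      have h2 : 1 / (n : ℝ) ≤ (n : ℝ) ^ (-(3 / 10) : ℝ) := by
        rw [one_div, ← Real.rpow_neg_one]
        exact Real.rpow_le_rpow_of_exponent_le (by linarith [h.big]) (by norm_num)
      have h3 : 0 ≤ 1 / (n : ℝ) := by positivity
      have : 3 / (n : ℝ) = 3 * (1 / n) := by ring
      nlinarith
    have e6 := mul_le_mul_of_nonneg_left e4 (show (0 : ℝ) ≤ 4 * cc by norm_num [cc])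
    have : (10 : ℝ) * (n : ℝ) ^ (-(3 / 10) : ℝ) ≤ cc / 5 * (n : ℝ) ^ (-(3 / 10) : ℝ) :=
      mul_le_mul_of_nonneg_right (by norm_num [cc]) (Real.rpow_nonneg hn.le _)
    rw [add_mul, mul_add (thr n), mul_one] at e1
    linarith [show 0 ≤ thr n * ρ ^ 2 by positivity]
  exact ⟨hρ0, hρsmall, hnr, hηρ, hκρ, hlogρ⟩

theorem tube_mass {M : Finset (E n)} {e : E n} {w : E n → E n} {X ρ κ η : ℝ}
    {R : Finset (Cell n)} (hM : M.card ≤ n ^ 3) (he : ‖e‖ = 1) (hρ0 : 0 < ρ)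
    (hρ2 : ρ ≤ (n : ℝ) ^ (-(19 / 50) : ℝ)) (hnr : 1 ≤ (n : ℝ) * ρ ^ 2)
    (hκ : κ = (n : ℝ) ^ (1 / 20 : ℝ)) (hη : η = 1 / Real.sqrt n) (htX : thr n ≤ X)
    (hX2 : X ≤ 2 * thr n) (hXsq : X ^ 2 - thr n ^ 2 ≤ 8 * cc ^ 2 * n * ρ ^ 2)
    (horth : ∀ y, ⟪e, w y⟫ = 0)
    (hR : ∀ k g, X < ⟪g, e⟫ → ⟪g, e⟫ ≤ X + η → (∀ y ∈ M, |⟪g, w y⟫| ≤ κ * ‖w y‖) →
      ‖g‖ ≤ gnorm n - 2 / n → g ∈ cellSet k → k ∈ R) :
    Real.exp (-(100000000000000 * n * ρ ^ 2)) ≤ hitP R := by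
  have hn := h.npos
  have ht := one_le_thr h.one_le
  have hX1 : 1 ≤ X := ht.trans htX
  have hκ0 : 0 < κ := hκ ▸ Real.rpow_pos_of_pos hn _
  have hsn : 0 < Real.sqrt n := Real.sqrt_pos.2 hn
  have hη0 : 0 < η := by rw [hη]; positivity
  set S := {g : E n | X < ⟪g, e⟫ ∧ ⟪g, e⟫ ≤ X + η ∧ (∀ y ∈ M, |⟪g, w y⟫| ≤ κ * ‖w y‖) ∧
    ‖g‖ ≤ gnorm n - 2 / n} with hS
  have hrate : lam n * (stdGaussian (E n)).real S ≤ rate R :=
    le_rate h.one_le (fun g hg => by
        have := hg.2.2.2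
        linarith [show (0 : ℝ) ≤ 2 / n by positivity])
      fun k g hg hk => hR k g hg.1 hg.2.1 hg.2.2.1 hg.2.2.2 hk
  set γ := stdGaussian (E n)
  set P := fun y => {g : E n | X < ⟪g, e⟫ ∧ κ * ‖w y‖ < |⟪g, w y⟫|} with hP
  have hsub : {g : E n | X < ⟪g, e⟫} ⊆ ((S ∪ {g | X + η < ⟪g, e⟫}) ∪ (⋃ y ∈ M, P y)) ∪
      {g | (cc ^ 2 + 69) * n ≤ ‖g‖ ^ 2} := by
    intro g hg
    by_cases h1 : ‖g‖ ≤ gnorm n - 2 / n
    · by_cases h2 : ⟪g, e⟫ ≤ X + η
      · by_cases h3 : ∀ y ∈ M, |⟪g, w y⟫| ≤ κ * ‖w y‖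
        · exact Or.inl (Or.inl (Or.inl ⟨hg, h2, h3, h1⟩))
        · push Not at h3
          obtain ⟨y, hy, hy'⟩ := h3
          exact Or.inl (Or.inr (Set.mem_iUnion₂.2 ⟨y, hy, hg, hy'⟩))
      · exact Or.inl (Or.inl (Or.inr (not_le.1 h2)))
    · exact Or.inr (h.big_norm (not_le.1 h1))
  have hmain := (measureReal_mono (μ := γ) hsub).trans ((measureReal_union_le _ _).trans
    (add_le_add ((measureReal_union_le _ _).trans (add_le_add (measureReal_union_le _ _)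
      (measureReal_biUnion_finset_le _ _))) le_rfl))
  rw [real_halfspace e he, real_halfspace e he] at hmain
  have hPy : ∀ y ∈ M, γ.real (P y) ≤ 2 * (bell X / X * Real.exp (-κ ^ 2 / 2)) := fun y _ =>
    perp_bound e (w y) X κ he (by linarith) hκ0 (horth y)
  have hb0 : 0 ≤ bell X / X := by unfold bell; positivity
  have hsumP : ∑ y ∈ M, γ.real (P y) ≤ bell X / X / 160 := by
    refine (Finset.sum_le_card_nsmul _ _ _ hPy).trans ?_
    rw [nsmul_eq_mul]
    have hc : (M.card : ℝ) ≤ (n : ℝ) ^ 3 := by exact_mod_cast hM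
    have hκ2 : κ ^ 2 = (n : ℝ) ^ (1 / 10 : ℝ) := by
      rw [hκ, ← Real.rpow_natCast, ← Real.rpow_mul hn.le]; norm_num
    have hu : (n : ℝ) ^ 3 * Real.exp (-κ ^ 2 / 2) ≤ 1 / 320 := by
      rw [hκ2, neg_div, Real.exp_neg, ← div_eq_mul_inv, div_le_iff₀ (Real.exp_pos _)]
      linarith [h.union]
    refine (mul_le_mul_of_nonneg_right hc (by positivity)).trans ?_
    calc (n : ℝ) ^ 3 * (2 * (bell X / X * Real.exp (-κ ^ 2 / 2)))
        = 2 * (bell X / X) * ((n : ℝ) ^ 3 * Real.exp (-κ ^ 2 / 2)) := by ring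
      _ ≤ 2 * (bell X / X) * (1 / 320) := mul_le_mul_of_nonneg_left hu (by positivity)
      _ = _ := by ring
  have htop : tail (X + η) ≤ bell X / X / 160 := by
    refine (tail_le (by linarith)).trans ?_
    have hXη : 5 * 2 ≤ X * η := by
      have e : thr n * η = cc := by
        rw [hη, thr, mul_one_div, mul_div_assoc, div_self hsn.ne', mul_one]
      have := mul_le_mul_of_nonneg_right htX hη0.le
      rw [e] at this
      refine le_trans ?_ this
      norm_num [cc]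
    calc bell (X + η) / (X + η) ≤ bell (X + η) / X :=
          div_le_div_of_nonneg_left (Real.exp_pos _).le (by linarith) (by linarith)
      _ ≤ bell X * Real.exp (-(5 * 2)) / X := by
          refine div_le_div_of_nonneg_right ?_ (by linarith)
          rw [bell, bell, ← Real.exp_add]
          exact Real.exp_le_exp.2 (by nlinarith)
      _ ≤ bell X * (1 / 160) / X := by
          refine div_le_div_of_nonneg_right
            (mul_le_mul_of_nonneg_left ?_ (Real.exp_pos _).le) (by linarith)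
          rw [Real.exp_neg, one_div]
          refine inv_anti₀ (by norm_num) ?_
          rw [show (5 : ℝ) * 2 = ((5 : ℕ) : ℝ) * 2 by norm_num, Real.exp_nat_mul]
          exact le_trans (by norm_num) (pow_le_pow_left₀ (by norm_num)
            (show (3 : ℝ) ≤ Real.exp 2 by linarith [Real.add_one_le_exp (2 : ℝ)]) 5)
      _ = _ := by ring
  have hnt := h.norm_tail_le hX1 hX2 (by
    nlinarith [h.width, mul_le_mul_of_nonneg_left (pow_le_pow_left₀ hρ0.le hρ2 2)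
      (show (0 : ℝ) ≤ 8 * cc ^ 2 * n by positivity)])
  have hlt := le_tail hX1
  have e20 : bell X / (20 * X) = bell X / X / 20 := by rw [div_div, mul_comm]
  rw [e20] at hnt hlt
  have hmass : tail X / 2 ≤ γ.real S := by linarith
  set a := 1 / 80 * Real.exp (-(4 * cc ^ 2 * n * ρ ^ 2)) with ha
  have hale : a ≤ rate R := by
    refine le_trans ?_ hrate
    refine le_trans ?_ (mul_le_mul_of_nonneg_left hmass (lam_nonneg h.one_le))
    rw [← mul_div_assoc, h.lam_mul_tail]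
    refine le_trans ?_ (div_le_div_of_nonneg_right (tail_ratio_ge ht hX1) two_pos.le)
    have e1 : 1 / 40 ≤ thr n / (20 * X) := by
      rw [le_div_iff₀ (by linarith)]; linarith
    have e2 : Real.exp (-(4 * cc ^ 2 * n * ρ ^ 2)) ≤
        Real.exp (-((X ^ 2 - thr n ^ 2) / 2)) := Real.exp_le_exp.2 (by linarith)
    have := mul_le_mul e1 e2 (Real.exp_pos _).le (by positivity)
    rw [ha]; linarith
  refine le_trans ?_ (hitP_ge (by positivity) ?_ hale)
  · have hc : (cc : ℝ) ^ 2 = 1000000000000 := by norm_num [cc]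
    calc Real.exp (-(100000000000000 * n * ρ ^ 2))
        ≤ Real.exp (-(4 * cc ^ 2 * n * ρ ^ 2)) * Real.exp (-160) := by
          rw [← Real.exp_add, hc]; exact Real.exp_le_exp.2 (by nlinarith)
      _ ≤ Real.exp (-(4 * cc ^ 2 * n * ρ ^ 2)) * (1 / 160) := by
          refine mul_le_mul_of_nonneg_left ?_ (Real.exp_pos _).le
          rw [Real.exp_neg, one_div]
          exact inv_anti₀ (by norm_num) (by linarith [Real.add_one_le_exp (160 : ℝ)])
      _ = a / 2 := by rw [ha]; ring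
  · have : Real.exp (-(4 * cc ^ 2 * n * ρ ^ 2)) ≤ 1 :=
      Real.exp_le_one_iff.2 (neg_nonpos.2 (by positivity))
    rw [ha]; linarith

theorem kappa_le : 12 * (n : ℝ) ^ (1 / 20 : ℝ) ≤ thr n := by
  have hn := h.npos
  rw [thr, Real.sqrt_eq_rpow]
  exact mul_le_mul (by norm_num [cc]) (Real.rpow_le_rpow_of_exponent_le
    (by linarith [h.big]) (by norm_num)) (Real.rpow_nonneg hn.le _) (by norm_num [cc])

theorem tube_bound (M : Finset (E n)) (e : E n) (ρ : ℝ) (hM : M.card ≤ n ^ 3) (he : ‖e‖ = 1)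
    (hMr : ∀ y ∈ M, rlo n ≤ ‖y‖ ∧ ‖y‖ ≤ rhi n) (hρ1 : (n : ℝ) ^ (-(2 / 5) : ℝ) ≤ ρ)
    (hρ2 : ρ ≤ (n : ℝ) ^ (-(19 / 50) : ℝ)) :
    ∃ R : Finset (Cell n), Real.exp (-(100000000000000 * n * ρ ^ 2)) ≤ hitP R ∧
      (∀ k ∈ R, ∀ y ∈ M, ‖dir y - e‖ ≤ ρ → k ∈ cutters y) ∧
      (∀ k ∈ R, ∀ y ∈ M, k ∈ cutters y → ‖dir y - e‖ ≤ 2 * ρ) := by
  classical
  have hn := h.npos
  have ht := one_le_thr h.one_le
  have hi := h.inv_small
  obtain ⟨hlo, hlo1⟩ := h.rlo_ge
  obtain ⟨hhi0, hhi⟩ := h.rhi_le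
  set κ := (n : ℝ) ^ (1 / 20 : ℝ) with hκ
  set η := 1 / Real.sqrt n with hη
  set t' := (thr n + 3 / n) / rlo n with ht'
  set τ := (thr n - 1 / n) / rhi n with hτ
  have hκ0 : 0 < κ := Real.rpow_pos_of_pos hn _
  have hρ0 : 0 < ρ := lt_of_lt_of_le (Real.rpow_pos_of_pos hn _) hρ1
  have hsn : 0 < Real.sqrt n := Real.sqrt_pos.2 hn
  have hη0 : 0 < η := by positivity
  obtain ⟨-, hρsmall, hnr, hηρ, hκρ, hlogρ⟩ := h.tube_scales hρ1 hρ2
  rw [← hη] at hηρ
  rw [← hκ] at hκρ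
  rw [← ht', ← hτ] at hlogρ
  have ht't : thr n ≤ t' := by
    rw [ht', le_div_iff₀ (by linarith)]
    nlinarith [show (0 : ℝ) ≤ 3 / n by positivity]
  set X := (t' + ρ * κ) / (1 - ρ ^ 2 / 2) with hX
  have hden : 0 < 1 - ρ ^ 2 / 2 := by linarith
  have hXt : t' ≤ X := by
    rw [hX, le_div_iff₀ hden]; nlinarith
  have hτle : τ ≤ thr n := by
    rw [hτ, div_le_iff₀ (by linarith)]
    nlinarith [show (0 : ℝ) ≤ 1 / n by positivity]
  have htρ : 0 ≤ thr n * ρ ^ 2 := by positivity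
  have hXup : X ≤ thr n + 2 * (thr n * ρ ^ 2) := by
    rw [hX, div_le_iff₀ hden]
    nlinarith [mul_nonneg htρ (show (0 : ℝ) ≤ 1 / 4 - ρ ^ 2 by linarith)]
  have hX1 : 1 ≤ X := by linarith
  have hX2 : X ≤ 2 * thr n := by nlinarith
  have hXsq : X ^ 2 - thr n ^ 2 ≤ 8 * cc ^ 2 * n * ρ ^ 2 := by
    calc X ^ 2 - thr n ^ 2 ≤ 2 * (thr n * ρ ^ 2) * (4 * thr n) := by nlinarith
      _ = 8 * (thr n ^ 2) * ρ ^ 2 := by ring
      _ = _ := by rw [h.thr_sq]; ring
  -- the cell set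
  set w : E n → E n := fun y => dir y - ⟪dir y, e⟫ • e with hw
  set S := {g : E n | X < ⟪g, e⟫ ∧ ⟪g, e⟫ ≤ X + η ∧ (∀ y ∈ M, |⟪g, w y⟫| ≤ κ * ‖w y‖) ∧
    ‖g‖ ≤ gnorm n - 2 / n} with hS
  set R := Finset.univ.filter fun k : Cell n => ∃ g ∈ S, g ∈ cellSet k with hR
  have hgeo : ∀ y ∈ M, ∀ g ∈ S, ∃ α : ℝ, α = 1 - ‖dir y - e‖ ^ 2 / 2 ∧
      ‖w y‖ ^ 2 = 1 - α ^ 2 ∧ ⟪g, dir y⟫ = α * ⟪g, e⟫ + ⟪g, w y⟫ := by
    intro y hy g _
    have hy0 : y ≠ 0 := fun h0 => by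
      have := (hMr y hy).1
      rw [h0, norm_zero] at this; linarith
    refine ⟨⟪dir y, e⟫, ?_, ?_, ?_⟩
    · rw [norm_sub_sq_real, show ‖dir y‖ = 1 from norm_smul_inv_norm hy0, he]; ring
    · rw [hw, norm_sub_sq_real, show ‖dir y‖ = 1 from norm_smul_inv_norm hy0, norm_smul, he,
        inner_smul_right, Real.norm_eq_abs, mul_one, sq_abs]
      ring
    · rw [hw, inner_sub_right, inner_smul_right]; ring
  have hXe : (1 - ρ ^ 2 / 2) * X = t' + ρ * κ := mul_div_cancel₀ _ hden.ne'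
  refine ⟨R, h.tube_mass hM he hρ0 hρ2 hnr hκ hη (ht't.trans hXt) hX2 hXsq (fun y => by
      rw [hw, inner_sub_right, inner_smul_right, real_inner_self_eq_norm_sq, he,
        real_inner_comm]
      ring)
    (fun k g a1 a2 a3 a4 hk => Finset.mem_filter.2
      ⟨Finset.mem_univ k, g, ⟨a1, a2, a3, a4⟩, hk⟩), ?_, ?_⟩
  · intro k hk y hy hd
    obtain ⟨g, hg, hgk⟩ := (Finset.mem_filter.1 hk).2
    obtain ⟨α, hα, hwsq, hdec⟩ := hgeo y hy g hg
    obtain ⟨hg1, hg2, hg3, hg4⟩ := hg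
    obtain ⟨hr1, hr2⟩ := hMr y hy
    set d := ‖dir y - e‖
    have hd0 : 0 ≤ d := norm_nonneg _
    have hd2 : d ^ 2 ≤ ρ ^ 2 := pow_le_pow_left₀ hd0 hd 2
    have hwd : ‖w y‖ ≤ ρ := by
      refine (pow_le_pow_iff_left₀ (norm_nonneg _) hρ0.le two_ne_zero).1 ?_
      rw [hwsq, hα, show 1 - (1 - d ^ 2 / 2) ^ 2 = d ^ 2 - (d ^ 2) ^ 2 / 4 by ring]
      linarith [sq_nonneg (d ^ 2)]
    have hlow : t' ≤ ⟪g, dir y⟫ := by
      have h1 := (abs_le.1 (hg3 y hy)).1
      have h2 : κ * ‖w y‖ ≤ κ * ρ := mul_le_mul_of_nonneg_left hwd hκ0.le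
      have h3 : (1 - ρ ^ 2 / 2) * X ≤ α * ⟪g, e⟫ :=
        mul_le_mul (by rw [hα]; linarith) hg1.le (by linarith) (by rw [hα]; linarith)
      rw [hdec]; linarith
    have hy0 : 0 < ‖y‖ := by linarith
    refine Finset.mem_filter.2 ⟨Finset.mem_univ k, ?_, ?_⟩
    · have hd' : ⟪g - nv k, y⟫ ≤ 1 / n * ‖y‖ := (real_inner_le_norm _ _).trans
        (mul_le_mul_of_nonneg_right (norm_sub_rev g (nv k) ▸ near_center h.one_le hgk) hy0.le)
      rw [inner_sub_left] at hd'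
      rw [dir, inner_smul_right, inv_mul_eq_div, le_div_iff₀ hy0] at hlow
      have h5 : thr n + 3 / n ≤ t' * ‖y‖ := by
        refine le_trans ?_ (mul_le_mul_of_nonneg_left hr1 (by linarith))
        rw [ht', div_mul_cancel₀ _ (by linarith)]
      have h6 : 1 / (n : ℝ) * ‖y‖ < 1 / n * 2 :=
        mul_lt_mul_of_pos_left (by linarith) (by positivity)
      have : 3 / (n : ℝ) = 1 / n + 1 / n * 2 := by ring
      linarith
    · have := norm_le_norm_add_norm_sub' (nv k) g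
      have := near_center h.one_le hgk
      have : 2 / (n : ℝ) = 1 / n + 1 / n := by ring
      linarith [show (0 : ℝ) ≤ 1 / n by positivity]
  · intro k hk y hy hcut
    obtain ⟨g, hg, hgk⟩ := (Finset.mem_filter.1 hk).2
    obtain ⟨α, hα, hwsq, hdec⟩ := hgeo y hy g hg
    obtain ⟨hg1, hg2, hg3, hg4⟩ := hg
    obtain ⟨hr1, hr2⟩ := hMr y hy
    have hgt := h.cut_gt (by linarith) hr2 hcut hgk
    rw [← hτ, hdec] at hgt
    set d := ‖dir y - e‖
    have hd0 : 0 ≤ d := norm_nonneg _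
    by_contra hd
    rw [not_le] at hd
    have h1 := (abs_le.1 (hg3 y hy)).2
    have hwd : ‖w y‖ ≤ d := by
      refine (pow_le_pow_iff_left₀ (norm_nonneg _) hd0 two_ne_zero).1 ?_
      rw [hwsq, hα, show 1 - (1 - d ^ 2 / 2) ^ 2 = d ^ 2 - (d ^ 2) ^ 2 / 4 by ring]
      linarith [sq_nonneg (d ^ 2)]
    exact excl_real hρ0 hρsmall hκ0.le hη0.le hd hwd (norm_nonneg (w y)) ht't hXt hlogρ hηρ hκρ
      h.kappa_le hXe hα hwsq hg1.le hg2 h1 hgt

end GaussNum

theorem gaussFacts : ∃ A : ℝ, ∀ᶠ n : ℕ in atTop, GaussFacts A n := by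
  refine ⟨100000000000000, ?_⟩
  filter_upwards [gaussNum_eventually] with n h
  refine ⟨by norm_num, fun k => ⟨?_, ?_⟩, fun y hy => ?_, fun y h1 h2 => h.hit_bound h1 h2,
    fun y k h1 h2 hk => h.cap_bound h1 h2 hk, fun y y' a b c d => h.cross_bound a b c d,
    fun M e ρ a b c d f => h.tube_bound M e ρ a b c d f⟩
  · exact sub_nonneg.2 (Real.exp_le_one_iff.2
      (neg_nonpos.2 (mul_nonneg (lam_nonneg h.one_le) measureReal_nonneg)))
  · exact sub_le_self _ (Real.exp_pos _).le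
  · rw [prod_one_sub_qk]
    exact Real.exp_le_exp.2 (by linarith [h.vol_bound hy])

end Vale.Agent.P230
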