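import Vale.Agent.P230.Setup

/-!
Tails of the standard Gaussian law, in one and in `n` dimensions.
-/

namespace Vale.Agent.P230

open MeasureTheory ProbabilityTheory Filter Set
open scoped RealInnerProductSpace Topology

variable {n : ℕ}

/-- the unnormalised density -/
noncomputable def bell (t : ℝ) : ℝ := Real.exp (-t ^ 2 / 2)

theorem integrable_bell : Integrable bell := by
  refine (integrable_exp_neg_mul_sq (b := 1 / 2) (by norm_num)).congr (Eventually.of_forall ?_)
  intro t; simp only [bell]; congr 1; ring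

theorem integrable_mul_bell : Integrable fun t : ℝ => t * bell t := by
  refine (integrable_mul_exp_neg_mul_sq (b := 1 / 2) (by norm_num)).congr (Eventually.of_forall ?_)
  intro t; simp only [bell]; congr 2; ring

theorem integral_mul_bell (x : ℝ) : ∫ t in Ioi x, t * bell t = bell x := by
  have hd : ∀ t ∈ Ici x, HasDerivAt (fun t => -bell t) (t * bell t) t := by
    intro t _
    have h : HasDerivAt (fun t : ℝ => -t ^ 2 / 2) (-t) t :=
      (((hasDerivAt_pow 2 t).neg).div_const 2).congr_deriv (by ring)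
    exact h.exp.neg.congr_deriv (by simp [bell]; ring)
  have ht : Tendsto (fun t => -bell t) atTop (𝓝 0) := by
    have h : Tendsto (fun t : ℝ => -t ^ 2 / 2) atTop atBot :=
      (tendsto_neg_atTop_atBot.comp (tendsto_pow_atTop (two_ne_zero))).atBot_div_const two_pos
    simpa [bell] using (Real.tendsto_exp_atBot.comp h).neg
  rw [integral_Ioi_of_hasDerivAt_of_tendsto' hd integrable_mul_bell.integrableOn ht]
  simp

theorem tail_eq (x : ℝ) : tail x = (Real.sqrt (2 * Real.pi))⁻¹ * ∫ t in Ioi x, bell t := by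
  rw [tail, measureReal_def, gaussianReal_apply_eq_integral 0 one_ne_zero,
    ENNReal.toReal_ofReal (setIntegral_nonneg measurableSet_Ioi fun t _ =>
      gaussianPDFReal_nonneg _ _ _), ← integral_const_mul]
  refine setIntegral_congr_fun measurableSet_Ioi fun t _ => ?_
  simp [gaussianPDFReal, bell]

theorem tail_le {x : ℝ} (hx : 0 < x) : tail x ≤ bell x / x := by
  have h1 : ∫ t in Ioi x, bell t ≤ bell x / x := by
    rw [← integral_mul_bell x, ← integral_div]
    refine setIntegral_mono_on integrable_bell.integrableOn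
      (integrable_mul_bell.integrableOn.div_const x) measurableSet_Ioi fun t ht => ?_
    rw [le_div_iff₀ hx, mul_comm]
    exact mul_le_mul_of_nonneg_right (le_of_lt ht) (Real.exp_pos _).le
  have h2 : (Real.sqrt (2 * Real.pi))⁻¹ ≤ 1 :=
    inv_le_one_of_one_le₀ (Real.one_le_sqrt.2 (by linarith [Real.pi_gt_three]))
  have h0 : 0 ≤ ∫ t in Ioi x, bell t :=
    setIntegral_nonneg measurableSet_Ioi fun t _ => (Real.exp_pos _).le
  rw [tail_eq]
  nlinarith

theorem le_tail {x : ℝ} (hx : 1 ≤ x) : bell x / (20 * x) ≤ tail x := by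
  have hx0 : 0 < x := by linarith
  have hi : (0 : ℝ) < 1 / x := by positivity
  have h1 : bell (x + 1 / x) * (1 / x) ≤ ∫ t in Ioi x, bell t := by
    calc bell (x + 1 / x) * (1 / x) = ∫ _t in Ioc x (x + 1 / x), bell (x + 1 / x) := by
          rw [setIntegral_const, smul_eq_mul, Real.volume_real_Ioc_of_le (by linarith)]; ring
      _ ≤ ∫ t in Ioc x (x + 1 / x), bell t := by
          refine setIntegral_mono_on (integrableOn_const (by simp)) integrable_bell.integrableOn
            measurableSet_Ioc fun t ht => Real.exp_le_exp.2 ?_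
          have := pow_le_pow_left₀ (by linarith [ht.1] : 0 ≤ t) ht.2 2
          linarith
      _ ≤ ∫ t in Ioi x, bell t := setIntegral_mono_set integrable_bell.integrableOn
          (Eventually.of_forall fun t => (Real.exp_pos _).le)
          (Ioc_subset_Ioi_self.eventuallyLE)
  have h2 : bell x * Real.exp (-(3 / 2)) ≤ bell (x + 1 / x) := by
    rw [bell, bell, ← Real.exp_add]
    refine Real.exp_le_exp.2 ?_
    have e : x * (1 / x) = 1 := mul_one_div_cancel hx0.ne'
    have : 1 / x ≤ 1 := (div_le_one hx0).2 hx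
    nlinarith
  have h3 : (1 / 5 : ℝ) ≤ Real.exp (-(3 / 2)) := by
    rw [Real.exp_neg, one_div]
    refine inv_anti₀ (Real.exp_pos _) ?_
    have := Real.exp_nat_mul (3 / 4 : ℝ) 2
    have h4 := Real.exp_bound' (by norm_num : (0 : ℝ) ≤ 3 / 4) (by norm_num : (3 / 4 : ℝ) ≤ 1)
      (n := 3) (by norm_num)
    norm_num [Finset.sum_range_succ, Nat.factorial] at h4
    norm_num at this
    rw [this]
    nlinarith [Real.exp_pos (3 / 4 : ℝ)]
  have h5 : (1 / 4 : ℝ) ≤ (Real.sqrt (2 * Real.pi))⁻¹ := by
    rw [one_div]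
    exact inv_anti₀ (by positivity) ((Real.sqrt_le_left (by norm_num)).2
      (by linarith [Real.pi_lt_four]))
  rw [tail_eq]
  have hb : 0 ≤ bell x := (Real.exp_pos _).le
  calc bell x / (20 * x) = 1 / 4 * ((bell x * (1 / 5)) * (1 / x)) := by field_simp; ring
    _ ≤ (Real.sqrt (2 * Real.pi))⁻¹ * ∫ t in Ioi x, bell t := by
        refine mul_le_mul h5 (le_trans ?_ h1) (by positivity) (by positivity)
        exact mul_le_mul_of_nonneg_right
          ((mul_le_mul_of_nonneg_left h3 hb).trans h2) hi.le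

theorem tail_pos {x : ℝ} (hx : 1 ≤ x) : 0 < tail x :=
  lt_of_lt_of_le (by unfold bell; positivity) (le_tail hx)

theorem tail_anti {x y : ℝ} (h : x ≤ y) : tail y ≤ tail x :=
  measureReal_mono (Ioi_subset_Ioi h)

/-- the ratio of two tails, from below -/
theorem tail_ratio_ge {t x : ℝ} (ht : 1 ≤ t) (hx : 1 ≤ x) :
    t / (20 * x) * Real.exp (-((x ^ 2 - t ^ 2) / 2)) ≤ tail x / tail t := by
  rw [le_div_iff₀ (tail_pos ht)]
  refine le_trans (mul_le_mul_of_nonneg_left (tail_le (by linarith)) (by positivity)) ?_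
  refine le_trans (le_of_eq ?_) (le_tail hx)
  have e : Real.exp (-((x ^ 2 - t ^ 2) / 2)) * bell t = bell x := by
    rw [bell, bell, ← Real.exp_add]; congr 1; ring
  rw [← e]; field_simp

/-- the ratio of two tails, from above -/
theorem tail_ratio_le {t x : ℝ} (ht : 1 ≤ t) (hx : 0 < x) :
    tail x / tail t ≤ 20 * (t / x) * Real.exp (-((x ^ 2 - t ^ 2) / 2)) := by
  rw [div_le_iff₀ (tail_pos ht)]
  refine (tail_le hx).trans (le_trans (le_of_eq ?_)
    (mul_le_mul_of_nonneg_left (le_tail ht) (by positivity)))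
  have e : Real.exp (-((x ^ 2 - t ^ 2) / 2)) * bell t = bell x := by
    rw [bell, bell, ← Real.exp_add]; congr 1; ring
  rw [← e]; field_simp

theorem map_inner_eq (e : E n) (he : ‖e‖ = 1) :
    (stdGaussian (E n)).map (fun g => ⟪e, g⟫) = gaussianReal 0 1 := by
  have h := IsGaussian.map_eq_gaussianReal (μ := stdGaussian (E n)) (innerSL ℝ e)
  rw [integral_strongDual_stdGaussian, variance_dual_stdGaussian, innerSL_apply_norm, he] at h
  simpa using h

theorem real_halfspace (e : E n) (he : ‖e‖ = 1) (x : ℝ) :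
    (stdGaussian (E n)).real {g | x < ⟪g, e⟫} = tail x := by
  rw [tail, ← map_inner_eq e he, map_measureReal_apply (by fun_prop) measurableSet_Ioi]
  congr 1
  ext g
  simp [real_inner_comm]

theorem integrable_expSq {l : ℝ} (hl : l < 1 / 2) :
    Integrable (fun t : ℝ => Real.exp (l * t ^ 2)) (gaussianReal 0 1) := by
  rw [gaussianReal_of_var_ne_zero _ one_ne_zero, integrable_withDensity_iff
    (measurable_gaussianPDF _ _) (Eventually.of_forall fun x => gaussianPDF_lt_top)]
  refine ((integrable_exp_neg_mul_sq (b := 1 / 2 - l) (by linarith)).const_mul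
    (Real.sqrt (2 * Real.pi))⁻¹).congr (Eventually.of_forall fun t => ?_)
  simp only [toReal_gaussianPDF, gaussianPDFReal, NNReal.coe_one, mul_one, sub_zero]
  rw [mul_left_comm (Real.exp (l * t ^ 2)), ← Real.exp_add]
  congr 2; ring

theorem integral_expSq {l : ℝ} (hl : l < 1 / 2) :
    ∫ t, Real.exp (l * t ^ 2) ∂(gaussianReal 0 1) = Real.sqrt (1 / (1 - 2 * l)) := by
  rw [integral_gaussianReal_eq_integral_smul one_ne_zero]
  simp only [gaussianPDFReal, NNReal.coe_one, mul_one, sub_zero, smul_eq_mul]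
  have e : ∀ t : ℝ, (Real.sqrt (2 * Real.pi))⁻¹ * Real.exp (-t ^ 2 / 2) * Real.exp (l * t ^ 2) =
      (Real.sqrt (2 * Real.pi))⁻¹ * Real.exp (-(1 / 2 - l) * t ^ 2) := fun t => by
    rw [mul_assoc, ← Real.exp_add]; congr 2; ring
  rw [funext e, integral_const_mul, integral_gaussian,
    ← Real.sqrt_inv, ← Real.sqrt_mul (by positivity)]
  congr 1
  have : (1 - 2 * l) ≠ 0 := by linarith
  field_simp

/-- norms above `√((c² + 69) n)` are negligible against a tail at `c √n` -/
theorem norm_tail (n : ℕ) :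
    (stdGaussian (E n)).real {g | (cc ^ 2 + 69) * n ≤ ‖g‖ ^ 2} ≤
      Real.exp (-(cc ^ 2 * n / 2) - 20 * n) := by
  set l : ℝ := (1 - 1 / cc ^ 2) / 2 with hl
  have hl2 : l < 1 / 2 := by rw [hl]; norm_num [cc]
  have hl0 : 0 ≤ l := by rw [hl]; norm_num [cc]
  set μ := Measure.pi (fun _ : Fin n => gaussianReal 0 1) with hμ
  set f : (Fin n → ℝ) → ℝ := fun x => ∏ i, Real.exp (l * x i ^ 2) with hf
  have hfi : Integrable f μ := Integrable.fintype_prod fun _ => integrable_expSq hl2
  have hfe : ∫ x, f x ∂μ = cc ^ n := by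
    rw [hμ, hf, integral_fintype_prod_eq_pow (μ := gaussianReal 0 1)
      (fun t : ℝ => Real.exp (l * t ^ 2)), integral_expSq hl2, Fintype.card_fin]
    congr 1
    rw [show 1 / (1 - 2 * l) = cc ^ 2 by rw [hl]; norm_num [cc]]
    exact Real.sqrt_sq (by norm_num [cc])
  set T := Real.exp (l * ((cc ^ 2 + 69) * n)) with hT
  have hM := mul_meas_ge_le_integral_of_nonneg (Eventually.of_forall fun x : Fin n → ℝ =>
    Finset.prod_nonneg fun i _ => (Real.exp_pos _).le) hfi T
  rw [hfe] at hM
  have hset : (stdGaussian (E n)).real {g | (cc ^ 2 + 69) * n ≤ ‖g‖ ^ 2} =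
      μ.real {x | T ≤ f x} := by
    rw [← map_pi_eq_stdGaussian, map_measureReal_apply (by fun_prop)
      (measurableSet_le measurable_const (by fun_prop))]
    congr 1
    ext x
    simp only [mem_preimage, mem_ofPred_eq, EuclideanSpace.real_norm_sq_eq, hf, hT,
      ← Real.exp_sum, Real.exp_le_exp, ← Finset.mul_sum]
    constructor
    · exact fun h => mul_le_mul_of_nonneg_left h hl0
    · exact fun h => le_of_mul_le_mul_left h (by rw [hl]; norm_num [cc])
  rw [hset]
  have hT0 : 0 < T := Real.exp_pos _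
  refine le_of_mul_le_mul_left (hM.trans ?_) hT0
  rw [hT, ← Real.exp_add, show (cc : ℝ) = Real.exp (Real.log cc) from
    (Real.exp_log (by norm_num [cc])).symm, ← Real.exp_nat_mul,
    Real.exp_log (by norm_num [cc])]
  refine Real.exp_le_exp.2 ?_
  have hlog : Real.log cc ≤ 139 / 10 := by
    have : (cc : ℝ) ≤ (2 : ℝ) ^ 20 := by norm_num [cc]
    refine (Real.log_le_log (by norm_num [cc]) this).trans ?_
    rw [Real.log_pow]; push_cast; linarith [Real.log_two_lt_d9]
  have hn0 : (0 : ℝ) ≤ n := Nat.cast_nonneg n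
  calc (n : ℝ) * Real.log cc ≤ n * (139 / 10) := mul_le_mul_of_nonneg_left hlog hn0
    _ ≤ _ := by rw [hl]; norm_num [cc]; nlinarith

end Vale.Agent.P230
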