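import Vale.Agent.P230.Setup

/-!
Geometric facts needed for the covering argument, as statements.
-/

namespace Vale.Agent.P230

open MeasureTheory Filter
open scoped ENNReal NNReal

/-- averaging: some translate sees no more than the average number of centres -/
def WindowStmt : Prop :=
  ∀ (n m : ℕ) (X : Set (E n)) (δ : ℝ≥0), LocFinite X →
    (∀ᶠ R : ℝ in atTop, ((X ∩ cube n R).encard : ℝ≥0∞) ≤ δ * ENNReal.ofReal ((2 * R) ^ n)) →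
    ∀ (F : Fin m → E n → ℝ≥0∞) (μ : Fin m → Measure (E n)) (L : Fin m → ℝ≥0∞),
      (∀ i, Measurable (F i)) → (∀ i, ∀ y, 4 < ‖y‖ → F i y = 0) →
      (∀ i, IsProbabilityMeasure (μ i)) → (∀ i, μ i (Metric.closedBall 0 4)ᶜ = 0) →
      (∀ i, ∫⁻ y, F i y ≤ L i) →
      ∃ u₀ : E n, ∀ i, ∫⁻ v, ∑' x : X, F i (u₀ + v - x) ∂(μ i) ≤ 2 * (m + 1) * δ * L i

/-- the integral of the cost profile over a ball -/
def ProfileStmt : Prop :=
  ∀ (n : ℕ) (a b R : ℝ), 0 ≤ a → 0 ≤ b → 1 ≤ R →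
    ∫⁻ y in Metric.closedBall (0 : E n) R, ENNReal.ofReal (a + b * n * max 0 (1 - ‖y‖)) ≤
      ENNReal.ofReal (a * R ^ n + b) * volume (Metric.closedBall (0 : E n) 1)

/-- a thin cone piece has small volume -/
def ConeStmt : Prop :=
  ∀ (n : ℕ) (e : E n) (s : ℝ), 1 ≤ n → ‖e‖ = 1 → 0 < s → s ≤ 1 / 4 →
    volume {w : E n | (7 / 10 : ℝ) ≤ ‖w‖ ∧ ‖w‖ ≤ 13 / 10 ∧ ‖dir w - e‖ < s} ≤
      ENNReal.ofReal ((1 / s + 2) * (3 * s) ^ n) * volume (Metric.closedBall (0 : E n) 1)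

/-- greedy selection of pairwise compatible points -/
def GreedyStmt : Prop :=
  ∀ (n : ℕ) (U : Set (E n)) (F : E n → Set (E n)) (b : ℝ≥0∞), b ≠ 0 → b ≠ ⊤ →
    volume U ≠ ⊤ → (∀ u ∈ U, volume (F u) ≤ b ∧ u ∈ F u) → (∀ u v, v ∈ F u → u ∈ F v) →
    ∃ G : Finset (E n), ↑G ⊆ U ∧ volume U ≤ G.card * b ∧ ∀ u ∈ G, ∀ v ∈ G, u ≠ v → v ∉ F u

end Vale.Agent.P230
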