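import Mathlib

/-!
Independent bits on a finite ground set: Harris inequality, independence, and a bound for two
conjunctions of hitting events with a thin common support.
-/

namespace Vale.Agent.P230

open Finset

variable {ι κ : Type*} [DecidableEq ι]

/-- expectation of `f` when each element of `A` is present independently with probability `q` -/
def expect (q : ι → ℝ) (A : Finset ι) (f : Finset ι → ℝ) : ℝ :=
  ∑ s ∈ A.powerset, (∏ i ∈ s, q i) * (∏ i ∈ A \ s, (1 - q i)) * f s

/-- indicator that `s` meets `R` -/
def hit (R s : Finset ι) : ℝ := if Disjoint R s then 0 else 1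

/-- indicator that `s` meets all `R j`, `j ∈ J` -/
def allHit (J : Finset κ) (R : κ → Finset ι) (s : Finset ι) : ℝ := ∏ j ∈ J, hit (R j) s

/-- `f` is unchanged by inserting elements outside `S` -/
def SupportedIn (f : Finset ι → ℝ) (S : Finset ι) : Prop :=
  ∀ a, a ∉ S → ∀ s, f (insert a s) = f s

theorem expect_empty (q : ι → ℝ) (f : Finset ι → ℝ) : expect q ∅ f = f ∅ := by simp [expect]

theorem expect_insert (q : ι → ℝ) {A : Finset ι} {a : ι} (ha : a ∉ A) (f : Finset ι → ℝ) :
    expect q (insert a A) f =
      (1 - q a) * expect q A f + q a * expect q A (fun s => f (insert a s)) := by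
  unfold expect
  rw [sum_powerset_insert ha, mul_sum, mul_sum]
  congr 1
  · refine sum_congr rfl fun s hs => ?_
    rw [mem_powerset] at hs
    have has : a ∉ s := fun h => ha (hs h)
    rw [insert_sdiff_of_notMem _ has, prod_insert (by simp [ha])]
    ring
  · refine sum_congr rfl fun s hs => ?_
    rw [mem_powerset] at hs
    have has : a ∉ s := fun h => ha (hs h)
    rw [prod_insert has, insert_sdiff_of_mem _ (mem_insert_self a s)]
    have : A \ insert a s = A \ s := by
      ext x; simp only [mem_sdiff, mem_insert, not_or]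
      exact ⟨fun h => ⟨h.1, h.2.2⟩, fun h => ⟨h.1, fun e => ha (e ▸ h.1), h.2⟩⟩
    rw [this]; ring

variable {q : ι → ℝ}

theorem expect_mono (hq : ∀ i, q i ∈ Set.Icc (0 : ℝ) 1) {A : Finset ι} {f g : Finset ι → ℝ}
    (h : ∀ s, s ⊆ A → f s ≤ g s) : expect q A f ≤ expect q A g :=
  sum_le_sum fun s hs => mul_le_mul_of_nonneg_left (h s (mem_powerset.1 hs))
    (mul_nonneg (prod_nonneg fun i _ => (hq i).1)
      (prod_nonneg fun i _ => by linarith [(hq i).2]))

theorem expect_const (q : ι → ℝ) (A : Finset ι) (c : ℝ) : expect q A (fun _ => c) = c := by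
  induction A using Finset.induction with
  | empty => rw [expect_empty]
  | insert a A ha ih => rw [expect_insert q ha, ih]; ring

theorem expect_nonneg (hq : ∀ i, q i ∈ Set.Icc (0 : ℝ) 1) {A : Finset ι} {f : Finset ι → ℝ}
    (h : ∀ s, 0 ≤ f s) : 0 ≤ expect q A f := by
  simpa [expect_const] using expect_mono hq (g := f) (f := fun _ => (0 : ℝ)) (A := A) fun s _ => h s

theorem expect_add (q : ι → ℝ) (A : Finset ι) (f g : Finset ι → ℝ) :
    expect q A (fun s => f s + g s) = expect q A f + expect q A g := by
  simp only [expect, mul_add, sum_add_distrib]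

theorem expect_sum (q : ι → ℝ) (A : Finset ι) (T : Finset κ) (f : κ → Finset ι → ℝ) :
    expect q A (fun s => ∑ t ∈ T, f t s) = ∑ t ∈ T, expect q A (f t) := by
  simp only [expect, mul_sum]; exact sum_comm

theorem expect_mul_const (q : ι → ℝ) (A : Finset ι) (f : Finset ι → ℝ) (c : ℝ) :
    expect q A (fun s => c * f s) = c * expect q A f := by
  simp only [expect, mul_sum]; exact sum_congr rfl fun s _ => by ring

theorem harris (hq : ∀ i, q i ∈ Set.Icc (0 : ℝ) 1) (A : Finset ι) {f g : Finset ι → ℝ}
    (hf : Monotone f) (hg : Monotone g) :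
    expect q A f * expect q A g ≤ expect q A (fun s => f s * g s) := by
  induction A using Finset.induction generalizing f g with
  | empty => simp [expect_empty]
  | insert a A ha ih =>
    rw [expect_insert q ha, expect_insert q ha, expect_insert q ha]
    have hmono : ∀ {h : Finset ι → ℝ}, Monotone h →
        Monotone (fun s => h (insert a s)) ∧
          expect q A h ≤ expect q A (fun s => h (insert a s)) :=
      fun hh => ⟨fun s t hst => hh (insert_subset_insert a hst),
        expect_mono hq fun s _ => hh (subset_insert a s)⟩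
    obtain ⟨hf1, hf2⟩ := hmono hf
    obtain ⟨hg1, hg2⟩ := hmono hg
    have h0 := ih hf hg
    have h1 := ih hf1 hg1
    obtain ⟨q0, q1⟩ := hq a
    nlinarith [mul_le_mul_of_nonneg_left h0 (by linarith : (0 : ℝ) ≤ 1 - q a),
      mul_le_mul_of_nonneg_left h1 q0,
      mul_nonneg (mul_nonneg q0 (by linarith : (0 : ℝ) ≤ 1 - q a))
        (mul_nonneg (sub_nonneg.2 hf2) (sub_nonneg.2 hg2))]

theorem expect_le_of_subset (hq : ∀ i, q i ∈ Set.Icc (0 : ℝ) 1) {A B : Finset ι} (hAB : A ⊆ B)
    {f : Finset ι → ℝ} (hf : Monotone f) : expect q A f ≤ expect q B f := by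
  obtain ⟨C, hC, rfl⟩ : ∃ C, Disjoint A C ∧ B = A ∪ C :=
    ⟨B \ A, disjoint_sdiff, (union_sdiff_of_subset hAB).symm⟩
  clear hAB
  induction C using Finset.induction with
  | empty => simp
  | insert a C ha ih =>
    rw [disjoint_insert_right] at hC
    rw [union_insert, expect_insert q (by simp [hC.1, ha])]
    have h2 : expect q (A ∪ C) f ≤ expect q (A ∪ C) (fun s => f (insert a s)) :=
      expect_mono hq fun s _ => hf (subset_insert a s)
    nlinarith [ih hC.2, (hq a).1]

theorem expect_mul_of_disjoint {A S T : Finset ι} {f g : Finset ι → ℝ} (hST : Disjoint S T)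
    (hf : SupportedIn f S) (hg : SupportedIn g T) :
    expect q A (fun s => f s * g s) = expect q A f * expect q A g := by
  induction A using Finset.induction generalizing f g with
  | empty => simp [expect_empty]
  | insert a A ha ih =>
    have hins : ∀ {h : Finset ι → ℝ} {U : Finset ι}, SupportedIn h U →
        SupportedIn (fun s => h (insert a s)) U := fun {h U} hh b hb s => by
      show h (insert a (insert b s)) = h (insert a s)
      rw [insert_comm, hh b hb]
    rw [expect_insert q ha, expect_insert q ha, expect_insert q ha, ih hf hg,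
      ih (hins hf) (hins hg)]
    by_cases haS : a ∈ S
    · have : (fun s => g (insert a s)) = g := funext (hg a (disjoint_left.1 hST haS))
      rw [this]; ring
    · have : (fun s => f (insert a s)) = f := funext (hf a haS)
      rw [this]; ring

theorem supportedIn_prod {G : Finset κ} {f : κ → Finset ι → ℝ} {S : κ → Finset ι}
    (hf : ∀ g ∈ G, SupportedIn (f g) (S g)) :
    SupportedIn (fun s => ∏ g ∈ G, f g s) (G.biUnion S) := fun a ha s =>
  prod_congr rfl fun g hg => hf g hg a (fun h => ha (mem_biUnion.2 ⟨g, hg, h⟩)) s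

theorem expect_prod_of_disjoint {A : Finset ι} (G : Finset κ) (f : κ → Finset ι → ℝ)
    (S : κ → Finset ι) (hf : ∀ g ∈ G, SupportedIn (f g) (S g))
    (hd : ∀ g ∈ G, ∀ g' ∈ G, g ≠ g' → Disjoint (S g) (S g')) :
    expect q A (fun s => ∏ g ∈ G, f g s) = ∏ g ∈ G, expect q A (f g) := by
  classical
  induction G using Finset.induction with
  | empty => simp [expect_const]
  | insert a G ha ih =>
    simp only [prod_insert ha]
    rw [expect_mul_of_disjoint (T := G.biUnion S) ?_ (hf a (mem_insert_self a G))
      (supportedIn_prod fun g hg => hf g (mem_insert_of_mem hg)),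
      ih (fun g hg => hf g (mem_insert_of_mem hg))
        (fun g hg g' hg' => hd g (mem_insert_of_mem hg) g' (mem_insert_of_mem hg'))]
    rw [disjoint_biUnion_right]
    exact fun g hg => hd a (mem_insert_self a G) g (mem_insert_of_mem hg) (fun e => ha (e ▸ hg))

theorem hit_nonneg (R s : Finset ι) : 0 ≤ hit R s := by unfold hit; split_ifs <;> norm_num

theorem hit_le_one (R s : Finset ι) : hit R s ≤ 1 := by unfold hit; split_ifs <;> norm_num

theorem hit_mono (R : Finset ι) : Monotone (hit R) := fun s t hst => by
  unfold hit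
  by_cases h : Disjoint R t
  · simp [h, disjoint_of_subset_right hst h]
  · simp only [h, if_false]; split_ifs <;> norm_num

theorem hit_le_of_subset {R R' : Finset ι} (h : R ⊆ R') (s : Finset ι) : hit R s ≤ hit R' s := by
  unfold hit
  by_cases h' : Disjoint R' s
  · simp [h', disjoint_of_subset_left h h']
  · simp only [h', if_false]; split_ifs <;> norm_num

theorem hit_supported (R : Finset ι) : SupportedIn (hit R) R := fun a ha s => by
  simp [hit, ha]

theorem allHit_nonneg (J : Finset κ) (R : κ → Finset ι) (s : Finset ι) : 0 ≤ allHit J R s :=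
  prod_nonneg fun _ _ => hit_nonneg _ _

theorem allHit_mono (J : Finset κ) (R : κ → Finset ι) : Monotone (allHit J R) := fun _ _ hst =>
  Finset.prod_le_prod (fun _ _ => hit_nonneg _ _) fun j _ => hit_mono (R j) hst

theorem allHit_le_of_subset {J : Finset κ} {R R' : κ → Finset ι} (h : ∀ j ∈ J, R j ⊆ R' j)
    (s : Finset ι) : allHit J R s ≤ allHit J R' s :=
  Finset.prod_le_prod (fun _ _ => hit_nonneg _ _) fun j hj => hit_le_of_subset (h j hj) s

theorem allHit_antitone {J J' : Finset κ} (h : J ⊆ J') (R : κ → Finset ι) (s : Finset ι) :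
    allHit J' R s ≤ allHit J R s := by
  classical
  rw [allHit, allHit, ← prod_sdiff h]
  exact mul_le_of_le_one_left (prod_nonneg fun _ _ => hit_nonneg _ _)
    (Finset.prod_le_one (fun _ _ => hit_nonneg _ _) fun _ _ => hit_le_one _ _)

theorem allHit_insert (J : Finset κ) (R : κ → Finset ι) (a : ι) (s : Finset ι) :
    allHit J R (insert a s) = allHit (J.filter fun j => a ∉ R j) R s := by
  rw [allHit, allHit, prod_filter]
  refine prod_congr rfl fun j _ => ?_
  by_cases h : a ∈ R j <;> simp [hit, h]

theorem expect_hit (q : ι → ℝ) (A : Finset ι) (R : Finset ι) :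
    expect q A (hit R) = 1 - ∏ i ∈ A ∩ R, (1 - q i) := by
  induction A using Finset.induction with
  | empty => simp [expect_empty, hit]
  | insert a A ha ih =>
    rw [expect_insert q ha, ih]
    by_cases h : a ∈ R
    · have h1 : (fun s : Finset ι => hit R (insert a s)) = fun _ => (1 : ℝ) := by
        funext s; simp [hit, h]
      rw [h1, expect_const, insert_inter_of_mem h, prod_insert (by simp [ha])]; ring
    · have h1 : (fun s : Finset ι => hit R (insert a s)) = hit R := by
        funext s; simp [hit, h]
      rw [h1, ih, insert_inter_of_notMem h]; ring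

theorem prod_expect_hit_le (hq : ∀ i, q i ∈ Set.Icc (0 : ℝ) 1) (A : Finset ι) (J : Finset κ)
    (R : κ → Finset ι) : ∏ j ∈ J, expect q A (hit (R j)) ≤ expect q A (allHit J R) := by
  classical
  induction J using Finset.induction with
  | empty =>
    rw [prod_empty, show allHit (∅ : Finset κ) R = fun _ => (1 : ℝ) from funext fun s => by
      simp [allHit], expect_const]
  | insert a J ha ih =>
    rw [prod_insert ha, show allHit (insert a J) R = fun s => hit (R a) s * allHit J R s from
      funext fun s => by rw [allHit, prod_insert ha]; rfl]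
    exact (mul_le_mul_of_nonneg_left ih (expect_nonneg hq (hit_nonneg _))).trans
      (harris hq A (hit_mono _) (allHit_mono J R))

/-- Two conjunctions of hitting events with a thin common support are nearly uncorrelated. -/
theorem pair_bound [Fintype ι] (hq : ∀ i, q i ∈ Set.Icc (0 : ℝ) 1) {J J' : Finset κ}
    {R R' P P' : κ → Finset ι} (hR : ∀ j ∈ J, R j ⊆ P j) (hR' : ∀ j ∈ J', R' j ⊆ P' j) {b : ℝ}
    (hb : 0 < b)
    (hJ : ∀ a ∈ J.biUnion R, b ≤ expect q univ (allHit (J.filter fun j => a ∈ R j) P))
    (hJ' : ∀ a ∈ J'.biUnion R', b ≤ expect q univ (allHit (J'.filter fun j => a ∈ R' j) P')) :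
    expect q univ (fun s => allHit J R s * allHit J' R' s) ≤
      expect q univ (allHit J P) * expect q univ (allHit J' P') *
        Real.exp ((∑ a ∈ J.biUnion R ∩ J'.biUnion R', q a) / b ^ 2) := by
  classical
  set S := J.biUnion R ∩ J'.biUnion R' with hS
  have key : ∀ T ⊆ S, ∀ J₁ ⊆ J, ∀ J₂ ⊆ J',
      expect q ((univ \ S) ∪ T) (fun s => allHit J₁ R s * allHit J₂ R' s) ≤
        expect q univ (allHit J₁ P) * expect q univ (allHit J₂ P') *
          ∏ a ∈ T, (1 + q a / b ^ 2) := by
    intro T hT
    induction T using Finset.induction with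
    | empty =>
      intro J₁ h₁ J₂ h₂
      rw [union_empty, prod_empty, mul_one]
      have hsupp : ∀ (K : Finset κ) (Q : κ → Finset ι), SupportedIn (allHit K Q) (K.biUnion Q) :=
        fun K Q a ha s => prod_congr rfl fun j hj =>
          hit_supported (Q j) a (fun h => ha (mem_biUnion.2 ⟨j, hj, h⟩)) s
      have e1 : expect q (univ \ S) (fun s => allHit J₁ R s * allHit J₂ R' s) =
          expect q (univ \ S) (fun s => allHit J₁ (fun j => R j \ S) s *
            allHit J₂ (fun j => R' j \ S) s) := by
        refine sum_congr rfl fun s hs => ?_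
        rw [mem_powerset] at hs
        have hh : ∀ Q : Finset ι, hit (Q \ S) s = hit Q s := fun Q => by
          have : Disjoint (Q \ S) s ↔ Disjoint Q s := by
            simp only [disjoint_left, mem_sdiff]
            exact ⟨fun h x hx hxs => h ⟨hx, (mem_sdiff.1 (hs hxs)).2⟩ hxs, fun h x hx => h hx.1⟩
          simp only [hit, this]
        simp only [allHit, hh]
      rw [e1, expect_mul_of_disjoint ?_ (hsupp _ _) (hsupp _ _)]
      · have hmain : ∀ {K K' : Finset κ} {Q Q' : κ → Finset ι}, K ⊆ K' →
            (∀ j ∈ K', Q j ⊆ Q' j) →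
            expect q (univ \ S) (allHit K fun j => Q j \ S) ≤ expect q univ (allHit K Q') :=
          fun hK hQ => (expect_le_of_subset hq (subset_univ _) (allHit_mono _ _)).trans
            (expect_mono hq fun s _ =>
              allHit_le_of_subset (fun j hj => sdiff_subset.trans (hQ j (hK hj))) s)
        exact mul_le_mul (hmain h₁ hR) (hmain h₂ hR') (expect_nonneg hq (allHit_nonneg _ _))
          (expect_nonneg hq (allHit_nonneg _ _))
      · rw [disjoint_left]
        simp only [mem_biUnion, mem_sdiff]
        rintro x ⟨j, hj, hx, hxS⟩ ⟨j', hj', hx', -⟩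
        exact hxS (mem_inter.2 ⟨mem_biUnion.2 ⟨j, h₁ hj, hx⟩, mem_biUnion.2 ⟨j', h₂ hj', hx'⟩⟩)
    | insert a T ha ih =>
      intro J₁ h₁ J₂ h₂
      have haS : a ∈ S := hT (mem_insert_self a T)
      have ih' := ih fun x hx => hT (mem_insert_of_mem hx)
      rw [union_insert, expect_insert q (by simp [ha, haS]), prod_insert ha]
      simp only [allHit_insert]
      have hdrop : ∀ {K K' : Finset κ} {Q Q' : κ → Finset ι}, K ⊆ K' →
          b ≤ expect q univ (allHit (K'.filter fun j => a ∈ Q j) Q') →
          expect q univ (allHit (K.filter fun j => a ∉ Q j) Q') * b ≤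
            expect q univ (allHit K Q') := by
        intro K K' Q Q' hK hbK
        have e : allHit K Q' = fun s => allHit (K.filter fun j => a ∉ Q j) Q' s *
            allHit (K.filter fun j => a ∈ Q j) Q' s := funext fun s => by
          rw [mul_comm]; exact (prod_filter_mul_prod_filter_not K _ _).symm
        rw [e]
        refine le_trans (mul_le_mul_of_nonneg_left (hbK.trans ?_)
          (expect_nonneg hq (allHit_nonneg _ _))) (harris hq _ (allHit_mono _ _) (allHit_mono _ _))
        exact expect_mono hq fun s _ => allHit_antitone (filter_subset_filter _ hK) _ s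
      have i0 := ih' J₁ h₁ J₂ h₂
      have i1 := ih' (J₁.filter fun j => a ∉ R j) ((filter_subset _ _).trans h₁)
        (J₂.filter fun j => a ∉ R' j) ((filter_subset _ _).trans h₂)
      have d1 := hdrop (Q' := P) h₁ (hJ a (mem_inter.1 haS).1)
      have d2 := hdrop (Q' := P') h₂ (hJ' a (mem_inter.1 haS).2)
      have n1 : 0 ≤ expect q univ (allHit (J₁.filter fun j => a ∉ R j) P) :=
        expect_nonneg hq (allHit_nonneg _ _)
      have n2 : 0 ≤ expect q univ (allHit (J₂.filter fun j => a ∉ R' j) P') :=
        expect_nonneg hq (allHit_nonneg _ _)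
      set F := expect q univ (allHit J₁ P)
      set F' := expect q univ (allHit J₂ P')
      set F₁ := expect q univ (allHit (J₁.filter fun j => a ∉ R j) P)
      set F₁' := expect q univ (allHit (J₂.filter fun j => a ∉ R' j) P')
      set M := ∏ x ∈ T, (1 + q x / b ^ 2)
      have hM : 0 ≤ M := prod_nonneg fun x _ => by
        have := (hq x).1; positivity
      have h3 : F₁ * F₁' ≤ F * F' / b ^ 2 := by
        rw [le_div_iff₀ (by positivity)]
        have := mul_le_mul d1 d2 (by positivity) (expect_nonneg hq (allHit_nonneg _ _))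
        nlinarith
      have hF : 0 ≤ F * F' :=
        mul_nonneg (expect_nonneg hq (allHit_nonneg _ _)) (expect_nonneg hq (allHit_nonneg _ _))
      obtain ⟨q0, q1⟩ := hq a
      calc _ ≤ (1 - q a) * (F * F' * M) + q a * (F₁ * F₁' * M) :=
            add_le_add (mul_le_mul_of_nonneg_left i0 (by linarith))
              (mul_le_mul_of_nonneg_left i1 q0)
        _ ≤ 1 * (F * F' * M) + q a * (F * F' / b ^ 2 * M) :=
            add_le_add (mul_le_mul_of_nonneg_right (by linarith) (mul_nonneg hF hM))
              (mul_le_mul_of_nonneg_left (mul_le_mul_of_nonneg_right h3 hM) q0)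
        _ = F * F' * ((1 + q a / b ^ 2) * M) := by ring
  have h := key S Subset.rfl J Subset.rfl J' Subset.rfl
  rw [sdiff_union_of_subset (subset_univ S)] at h
  refine h.trans (mul_le_mul_of_nonneg_left ?_
    (mul_nonneg (expect_nonneg hq (allHit_nonneg _ _)) (expect_nonneg hq (allHit_nonneg _ _))))
  rw [sum_div, Real.exp_sum]
  exact Finset.prod_le_prod (fun x _ => by have := (hq x).1; positivity) fun x _ => by
    have := Real.add_one_le_exp (q x / b ^ 2); linarith

/-- Paley-Zygmund at level zero -/
theorem second_moment (hq : ∀ i, q i ∈ Set.Icc (0 : ℝ) 1) (A : Finset ι) {f : Finset ι → ℝ}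
    (hf : ∀ s, 0 ≤ f s) :
    expect q A f ^ 2 ≤
      expect q A (fun s => if 0 < f s then 1 else 0) * expect q A (fun s => f s ^ 2) := by
  unfold expect
  refine sum_sq_le_sum_mul_sum_of_sq_le_mul A.powerset (fun s _ => ?_) (fun s _ => ?_) fun s _ => ?_
  · exact mul_nonneg (mul_nonneg (prod_nonneg fun i _ => (hq i).1)
      (prod_nonneg fun i _ => by linarith [(hq i).2])) (by beta_reduce; split_ifs <;> norm_num)
  · exact mul_nonneg (mul_nonneg (prod_nonneg fun i _ => (hq i).1)
      (prod_nonneg fun i _ => by linarith [(hq i).2])) (sq_nonneg _)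
  · rcases (hf s).lt_or_eq with h | h
    · simp only [if_pos h]; exact le_of_eq (by ring)
    · simp [← h]

end Vale.Agent.P230
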