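import Vale.Agent.P230.GeomStmt
import Vale.Agent.P230.Prob

/-!
One group of witnesses: with probability not exponentially small in `n log n`, some witness is
missed by every translate.
-/

namespace Vale.Agent.P230

open MeasureTheory Finset
open scoped RealInnerProductSpace

variable {n : ℕ}

/-- the translates relevant to the point `z` -/
noncomputable def members (Y : Finset (E n)) (z : E n) : Finset (E n) :=
  Y.filter fun x => ‖z - x‖ ≤ rhi n

/-- the total cost of a point -/
noncomputable def cost (A : ℝ) (Y : Finset (E n)) (z : E n) : ℝ :=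
  ∑ x ∈ members Y z, wcost A n ‖z - x‖

/-- points without core translate and of bounded cost -/
noncomputable def goodSet (A K₁ : ℝ) (Y : Finset (E n)) : Set (E n) :=
  {z | (∀ x ∈ Y, rlo n ≤ ‖z - x‖) ∧ cost A Y z ≤ K₁}

/-- the scales -/
noncomputable def scl (n i : ℕ) : ℝ := 2 ^ i * (n : ℝ) ^ (-(2 / 5) : ℝ)

/-- cutters of `z - x` that cut no two far apart members of `z` -/
noncomputable def region (Y : Finset (E n)) (i : ℕ) (z x : E n) : Finset (Cell n) := by
  classical
  exact (cutters (z - x)).filter fun k => ∃ x₀ ∈ Y, ‖z - x₀‖ ≤ rhi n ∧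
    ∀ x' ∈ Y, ‖z - x'‖ ≤ rhi n → k ∈ cutters (z - x') →
      ‖dir (z - x') - dir (z - x₀)‖ ≤ scl n i

/-- probability that all members of `z` are cut at scale `i` -/
noncomputable def wprob (Y : Finset (E n)) (i : ℕ) (z : E n) : ℝ :=
  expect qk univ (allHit (members Y z) (region Y i z))

/-- some point of `G` has all its members cut -/
noncomputable def success (Y : Finset (E n)) (G : Set (E n)) (s : Finset (Cell n)) : ℝ := by
  classical
  exact if ∃ z ∈ G, ∀ x ∈ members Y z, ¬ Disjoint (cutters (z - x)) s then 1 else 0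

theorem mem_region {Y : Finset (E n)} {i : ℕ} {z x : E n} {k : Cell n} :
    k ∈ region Y i z x ↔ k ∈ cutters (z - x) ∧ ∃ x₀ ∈ Y, ‖z - x₀‖ ≤ rhi n ∧
      ∀ x' ∈ Y, ‖z - x'‖ ≤ rhi n → k ∈ cutters (z - x') →
        ‖dir (z - x') - dir (z - x₀)‖ ≤ scl n i := by
  classical
  exact mem_filter

theorem region_subset_cutters (Y : Finset (E n)) (i : ℕ) (z x : E n) :
    region Y i z x ⊆ cutters (z - x) := fun _ hk => (mem_region.1 hk).1

theorem scl_nonneg (n i : ℕ) : 0 ≤ scl n i := by unfold scl; positivity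

theorem scl_succ (n i : ℕ) : scl n (i + 1) = 2 * scl n i := by rw [scl, scl, pow_succ]; ring

theorem region_mono (Y : Finset (E n)) (i : ℕ) (z x : E n) :
    region Y i z x ⊆ region Y (i + 1) z x := fun k hk => by
  obtain ⟨h1, x₀, h2, h3, h4⟩ := mem_region.1 hk
  refine mem_region.2 ⟨h1, x₀, h2, h3, fun x' a b c => (h4 x' a b c).trans ?_⟩
  rw [scl_succ]; linarith [scl_nonneg n i]

theorem norm_dir {y : E n} (h : y ≠ 0) : ‖dir y‖ = 1 := norm_smul_inv_norm h

theorem measurable_dir : Measurable (dir : E n → E n) := by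
  unfold dir
  exact (measurable_norm.inv).smul measurable_id

theorem measurable_mem_cutters (k : Cell n) (x : E n) :
    Measurable fun z : E n => k ∈ cutters (z - x) := by
  have h : (fun z : E n => k ∈ cutters (z - x)) = fun z =>
      thr n + 1 / (n : ℝ) < ⟪nv k, z - x⟫ ∧ ‖nv k‖ ≤ gnorm n := by
    funext z; simp [cutters]
  rw [h]
  refine Measurable.and (measurableSet_setOfPred.1 ?_) measurable_const
  exact measurableSet_lt measurable_const (by fun_prop)

theorem measurable_le_norm (x : E n) (r : ℝ) : Measurable fun z : E n => ‖z - x‖ ≤ r :=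
  measurableSet_setOfPred.1 (measurableSet_le (by fun_prop) measurable_const)

theorem measurable_allHit (Y : Finset (E n)) (i : ℕ) (s : Finset (Cell n)) :
    Measurable fun z : E n => allHit (members Y z) (region Y i z) s := by
  classical
  have e : (fun z : E n => allHit (members Y z) (region Y i z) s) = fun z =>
      ∏ x ∈ Y, if (‖z - x‖ ≤ rhi n → ∃ k ∈ s, k ∈ region Y i z x) then (1 : ℝ) else 0 := by
    funext z
    rw [allHit, members, prod_filter]
    refine prod_congr rfl fun x _ => ?_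
    by_cases hx : ‖z - x‖ ≤ rhi n
    · simp only [hx, if_true, true_imp_iff, hit]
      by_cases hd : Disjoint (region Y i z x) s
      · rw [if_pos hd, if_neg]
        rintro ⟨k, hk, hk'⟩
        exact disjoint_left.1 hd hk' hk
      · rw [if_neg hd, if_pos]
        obtain ⟨k, hk, hk'⟩ := not_disjoint_iff.1 hd
        exact ⟨k, hk', hk⟩
    · simp [hx]
  rw [e]
  refine Finset.measurable_prod _ fun x _ => Measurable.ite ?_ measurable_const measurable_const
  refine measurableSet_setOfPred.2 ((measurable_le_norm x _).imp ?_)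
  simp only [mem_region]
  refine Measurable.exists fun k => measurable_const.and ((measurable_mem_cutters k x).and ?_)
  have : (fun z : E n => ∃ x₀ ∈ Y, ‖z - x₀‖ ≤ rhi n ∧ ∀ x' ∈ Y, ‖z - x'‖ ≤ rhi n →
      k ∈ cutters (z - x') → ‖dir (z - x') - dir (z - x₀)‖ ≤ scl n i) = fun z =>
      ∃ x₀ : Y, ‖z - x₀.1‖ ≤ rhi n ∧ ∀ x' : Y, ‖z - x'.1‖ ≤ rhi n →
        k ∈ cutters (z - x'.1) → ‖dir (z - x'.1) - dir (z - x₀.1)‖ ≤ scl n i := by
    funext z
    exact propext ⟨fun ⟨a, ha, hb, hc⟩ => ⟨⟨a, ha⟩, hb, fun x' => hc x'.1 x'.2⟩,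
      fun ⟨a, hb, hc⟩ => ⟨a.1, a.2, hb, fun x' hx' => hc ⟨x', hx'⟩⟩⟩
  rw [this]
  refine Measurable.exists fun x₀ => (measurable_le_norm _ _).and (Measurable.forall fun x' =>
    (measurable_le_norm _ _).imp ((measurable_mem_cutters k _).imp ?_))
  exact measurableSet_setOfPred.1 (measurableSet_le ((measurable_dir.comp (measurable_id.sub_const _)).sub
    (measurable_dir.comp (measurable_id.sub_const _))).norm measurable_const)

theorem one_sub_prod_le_sum {ι : Type*} [DecidableEq ι] {q : ι → ℝ}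
    (hq : ∀ i, q i ∈ Set.Icc (0 : ℝ) 1) (S : Finset ι) :
    1 - ∏ i ∈ S, (1 - q i) ≤ ∑ i ∈ S, q i := by
  induction S using Finset.induction with
  | empty => simp
  | insert a S ha ih =>
    rw [prod_insert ha, sum_insert ha]
    have h0 : 0 ≤ ∏ i ∈ S, (1 - q i) := prod_nonneg fun i _ => by linarith [(hq i).2]
    have h1 : ∏ i ∈ S, (1 - q i) ≤ 1 :=
      Finset.prod_le_one (fun i _ => by linarith [(hq i).2]) fun i _ => by linarith [(hq i).1]
    nlinarith [(hq a).1]

theorem sum_biUnion_le {α β : Type*} [DecidableEq β] {q : β → ℝ} (hq : ∀ b, 0 ≤ q b)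
    (S : Finset α) (T : α → Finset β) :
    ∑ b ∈ S.biUnion T, q b ≤ ∑ a ∈ S, ∑ b ∈ T a, q b := by
  classical
  induction S using Finset.induction with
  | empty => simp
  | insert a S ha ih =>
    rw [biUnion_insert, sum_insert ha]
    have h := sum_union_inter (s₁ := T a) (s₂ := S.biUnion T) (f := q)
    have : 0 ≤ ∑ b ∈ T a ∩ S.biUnion T, q b := sum_nonneg fun b _ => hq b
    linarith

theorem expect_hit_univ (R : Finset (Cell n)) : expect qk univ (hit R) = hitP R := by
  rw [expect_hit, univ_inter, hitP]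

theorem hitP_le_of_subset (hq : ∀ k : Cell n, qk k ∈ Set.Icc (0 : ℝ) 1) {R R' : Finset (Cell n)}
    (h : R' ⊆ R) : hitP R ≤ hitP R' + ∑ k ∈ R \ R', qk k := by
  have hp : ∏ k ∈ R, (1 - qk k) = (∏ k ∈ R \ R', (1 - qk k)) * ∏ k ∈ R', (1 - qk k) :=
    (prod_sdiff h).symm
  have h0 : 0 ≤ ∏ k ∈ R', (1 - qk k) := prod_nonneg fun i _ => by linarith [(hq i).2]
  have h1 : ∏ k ∈ R', (1 - qk k) ≤ 1 :=
    Finset.prod_le_one (fun i _ => by linarith [(hq i).2]) fun i _ => by linarith [(hq i).1]
  have h2 := one_sub_prod_le_sum hq (R \ R')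
  have h3 : ∏ k ∈ R \ R', (1 - qk k) ≤ 1 :=
    Finset.prod_le_one (fun i _ => by linarith [(hq i).2]) fun i _ => by linarith [(hq i).1]
  rw [hitP, hitP, hp]
  nlinarith [mul_nonneg (sub_nonneg.2 h1) (sub_nonneg.2 h3)]

variable {A K₁ : ℝ} {Y : Finset (E n)} {z : E n}

theorem wcost_ge {r : ℝ} : A ≤ wcost A n r := by
  have : (0 : ℝ) ≤ 3 * cc ^ 2 * n * max 0 (1 - r) := by
    have := le_max_left (0 : ℝ) (1 - r); positivity
  unfold wcost; linarith

theorem wcost_le {r : ℝ} (hn : 1 ≤ n) (hr : rlo n ≤ r) :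
    wcost A n r ≤ A + 9 * cc ^ 2 * Real.log n := by
  have hl : 0 ≤ Real.log n := Real.log_natCast_nonneg n
  have hn' : (0 : ℝ) < n := by exact_mod_cast hn
  have : max 0 (1 - r) ≤ 3 * Real.log n / n :=
    max_le (by positivity) (by unfold rlo at hr; linarith)
  unfold wcost
  calc A + 3 * cc ^ 2 * n * max 0 (1 - r) ≤ A + 3 * cc ^ 2 * n * (3 * Real.log n / n) := by
        gcongr
    _ = A + 9 * cc ^ 2 * Real.log n := by field_simp; ring

theorem card_members_le (hA : 1 ≤ A) (hz : z ∈ goodSet A K₁ Y) :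
    ((members Y z).card : ℝ) ≤ K₁ := by
  refine le_trans ?_ hz.2
  have := card_nsmul_le_sum (members Y z) (fun x => wcost A n ‖z - x‖) 1
    (fun x _ => hA.trans wcost_ge)
  simpa [cost] using this

theorem mem_radii (hz : z ∈ goodSet A K₁ Y) {x : E n} (hx : x ∈ members Y z) :
    rlo n ≤ ‖z - x‖ ∧ ‖z - x‖ ≤ rhi n := by
  obtain ⟨h1, h2⟩ := mem_filter.1 hx
  exact ⟨hz.1 x h1, h2⟩

/-- the numerical conditions of the group lemma -/
structure GroupNum (A K₁ : ℝ) (n I : ℕ) : Prop where
  n_pos : 1 ≤ n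
  I_pos : 1 ≤ I
  K_le : K₁ ≤ (n : ℝ) ^ 2
  rlo_pos : 0 < rlo n
  near : 2 * ((n : ℝ) ^ 2 * (A * Real.exp (-(cc ^ 2 * n * scl n 0 ^ 2 / 8)))) ≤
    Real.exp (-(A + 9 * cc ^ 2 * Real.log n))
  top : scl n I ≤ (n : ℝ) ^ (-(19 / 50) : ℝ)
  far : (n : ℝ) ^ 4 * (A * Real.exp (-(cc ^ 2 * n * ((n : ℝ) ^ (-(1 / 3) : ℝ)) ^ 2 / 8))) ≤
    Real.exp (-(A * n * ((n : ℝ) ^ (-(19 / 50) : ℝ)) ^ 2)) ^ 2 * Real.log 2

theorem wprob_zero_ge (hG : GaussFacts A n) {I : ℕ} (hN : GroupNum A K₁ n I)
    (hz : z ∈ goodSet A K₁ Y) : Real.exp (-(2 * K₁)) ≤ wprob Y 0 z := by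
  classical
  refine le_trans ?_ (prod_expect_hit_le hG.qk_mem univ (members Y z) (region Y 0 z))
  have hx : ∀ x ∈ members Y z, Real.exp (-(2 * wcost A n ‖z - x‖)) ≤
      expect qk univ (hit (region Y 0 z x)) := by
    intro x hx
    obtain ⟨hr, hr'⟩ := mem_radii hz hx
    rw [expect_hit_univ]
    set w := wcost A n ‖z - x‖ with hw
    set B := A * Real.exp (-(cc ^ 2 * n * scl n 0 ^ 2 / 8)) with hBdef
    have hB : 0 ≤ B := mul_nonneg (by linarith [hG.one_le]) (Real.exp_pos _).le
    have hsub : cutters (z - x) \ region Y 0 z x ⊆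
        ((members Y z).filter fun x' => scl n 0 < ‖dir (z - x') - dir (z - x)‖).biUnion
          fun x' => cutters (z - x) ∩ cutters (z - x') := by
      intro k hk
      obtain ⟨h1, h2⟩ := mem_sdiff.1 hk
      rw [mem_region] at h2
      push Not at h2
      obtain ⟨x', ha, hb, hc, hd⟩ := h2 h1 x (mem_filter.1 hx).1 hr'
      exact mem_biUnion.2 ⟨x', mem_filter.2 ⟨mem_filter.2 ⟨ha, hb⟩, hd⟩, mem_inter.2 ⟨h1, hc⟩⟩
    have hsum : ∑ k ∈ cutters (z - x) \ region Y 0 z x, qk k ≤ (n : ℝ) ^ 2 * B := by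
      refine (sum_le_sum_of_subset_of_nonneg hsub fun k _ _ => (hG.qk_mem k).1).trans ?_
      refine (sum_biUnion_le (fun k => (hG.qk_mem k).1) _ _).trans ?_
      refine (sum_le_card_nsmul _ _ B fun x' hx' => ?_).trans ?_
      · obtain ⟨hm, hd⟩ := mem_filter.1 hx'
        obtain ⟨hs, hs'⟩ := mem_radii hz hm
        refine (hG.cross _ _ hr hr' hs hs').trans (mul_le_mul_of_nonneg_left ?_
          (by linarith [hG.one_le]))
        rw [norm_sub_rev] at hd
        have : scl n 0 ^ 2 ≤ ‖dir (z - x) - dir (z - x')‖ ^ 2 :=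
          pow_le_pow_left₀ (scl_nonneg n 0) hd.le 2
        gcongr
      · rw [nsmul_eq_mul]
        refine mul_le_mul_of_nonneg_right (le_trans ?_ hN.K_le) hB
        exact le_trans (by exact_mod_cast card_filter_le _ _) (card_members_le hG.one_le hz)
    have h1 := (hitP_le_of_subset hG.qk_mem (region_subset_cutters Y 0 z x)).trans
      (add_le_add le_rfl hsum)
    have h2 := hG.hit (z - x) hr hr'
    rw [← hw] at h2
    have h3 : Real.exp (-(A + 9 * cc ^ 2 * Real.log n)) ≤ Real.exp (-w) :=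
      Real.exp_le_exp.2 (neg_le_neg (wcost_le hN.n_pos hr))
    have h4 : 2 * Real.exp (-(2 * w)) ≤ Real.exp (-w) := by
      rw [show -(2 * w) = -w + -w by ring, Real.exp_add, ← mul_assoc]
      refine mul_le_of_le_one_left (Real.exp_pos _).le ?_
      rw [Real.exp_neg, ← div_eq_mul_inv, div_le_one (Real.exp_pos _)]
      linarith [Real.add_one_le_exp w, hG.one_le, wcost_ge (A := A) (n := n) (r := ‖z - x‖)]
    linarith [hN.near]
  refine le_trans ?_ (prod_le_prod (fun _ _ => (Real.exp_pos _).le) hx)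
  rw [← Real.exp_sum]
  refine Real.exp_le_exp.2 ?_
  rw [sum_neg_distrib, ← mul_sum]
  have := hz.2
  rw [cost] at this
  linarith

theorem wprob_mono (hG : GaussFacts A n) (i : ℕ) : wprob Y i z ≤ wprob Y (i + 1) z :=
  expect_mono hG.qk_mem fun s _ => allHit_le_of_subset (fun x _ => region_mono Y i z x) s

theorem wprob_le_one (hG : GaussFacts A n) (i : ℕ) : wprob Y i z ≤ 1 := by
  have : expect qk univ (fun _ : Finset (Cell n) => (1 : ℝ)) = 1 := expect_const _ _ _
  rw [← this]
  exact expect_mono hG.qk_mem fun s _ =>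
    prod_le_one (fun _ _ => hit_nonneg _ _) fun _ _ => hit_le_one _ _

theorem wprob_pair (hG : GaussFacts A n) {I : ℕ} (hN : GroupNum A K₁ n I) {i : ℕ} (hi : i + 1 ≤ I)
    {z' : E n} (hz : z ∈ goodSet A K₁ Y) (hz' : z' ∈ goodSet A K₁ Y)
    (hsep : ∀ x ∈ members Y z, ∀ x' ∈ members Y z',
      (n : ℝ) ^ (-(1 / 3) : ℝ) ≤ ‖dir (z - x) - dir (z' - x')‖) :
    expect qk univ (fun s => allHit (members Y z) (region Y i z) s *
        allHit (members Y z') (region Y i z') s) ≤
      2 * (wprob Y (i + 1) z * wprob Y (i + 1) z') := by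
  classical
  set τ := (n : ℝ) ^ (-(19 / 50) : ℝ) with hτ
  set b := Real.exp (-(A * n * τ ^ 2)) with hb
  have hA := hG.one_le
  have hJ : ∀ {w : E n}, w ∈ goodSet A K₁ Y → ∀ a ∈ (members Y w).biUnion (region Y i w),
      b ≤ expect qk univ (allHit ((members Y w).filter fun x => a ∈ region Y i w x)
        (region Y (i + 1) w)) := by
    intro w hw a ha
    obtain ⟨x₁, -, hax⟩ := mem_biUnion.1 ha
    obtain ⟨-, x₀, hx₀, hr₀', hball⟩ := mem_region.1 hax
    have hne : w - x₀ ≠ 0 := fun h => by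
      have := hw.1 x₀ hx₀
      rw [h, norm_zero] at this
      linarith [hN.rlo_pos]
    have hscl : scl n i ≤ τ := by
      refine le_trans ?_ hN.top
      exact mul_le_mul_of_nonneg_right (pow_le_pow_right₀ one_le_two (by omega))
        (Real.rpow_nonneg (Nat.cast_nonneg n) _)
    have hscl0 : (n : ℝ) ^ (-(2 / 5) : ℝ) ≤ scl n i :=
      le_mul_of_one_le_left (Real.rpow_nonneg (Nat.cast_nonneg n) _) (one_le_pow₀ one_le_two)
    obtain ⟨R, hR1, hR2, hR3⟩ := hG.tube ((members Y w).image fun x => w - x) (dir (w - x₀))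
      (scl n i) (card_image_le.trans (by
        have h := (card_members_le hA hw).trans hN.K_le
        have h' : (members Y w).card ≤ n ^ 2 := by exact_mod_cast h
        exact h'.trans (Nat.pow_le_pow_right hN.n_pos (by omega))))
      (norm_dir hne) (by
        intro y hy
        obtain ⟨x, hx, rfl⟩ := mem_image.1 hy
        exact mem_radii hw hx) hscl0 hscl
    calc b ≤ Real.exp (-(A * n * scl n i ^ 2)) := Real.exp_le_exp.2 (neg_le_neg
          (mul_le_mul_of_nonneg_left (pow_le_pow_left₀ (scl_nonneg n i) hscl 2) (by positivity)))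
      _ ≤ hitP R := hR1
      _ = expect qk univ (hit R) := (expect_hit_univ R).symm
      _ ≤ _ := expect_mono hG.qk_mem fun s _ => by
          by_cases hd : Disjoint R s
          · rw [hit, if_pos hd]; exact allHit_nonneg _ _ _
          · refine le_of_le_of_eq (hit_le_one R s) (prod_eq_one fun x hx => ?_).symm
            obtain ⟨hxm, hxa⟩ := mem_filter.1 hx
            have hsub : R ⊆ region Y (i + 1) w x := fun k hk => by
              refine mem_region.2 ⟨hR2 k hk _ (mem_image.2 ⟨x, hxm, rfl⟩)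
                (hball x (mem_filter.1 hxm).1 (mem_filter.1 hxm).2
                  (region_subset_cutters Y i w x hxa)), x₀, hx₀, hr₀', fun x' h1 h2 h3 => ?_⟩
              rw [scl_succ]
              exact hR3 k hk _ (mem_image.2 ⟨x', mem_filter.2 ⟨h1, h2⟩, rfl⟩) h3
            rw [hit, if_neg fun h => hd (disjoint_of_subset_left hsub h)]
  refine (pair_bound hG.qk_mem (P := region Y (i + 1) z) (P' := region Y (i + 1) z')
    (fun x _ => region_mono Y i z x) (fun x _ => region_mono Y i z' x) (Real.exp_pos _)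
    (hJ hz) (hJ hz')).trans ?_
  rw [mul_comm (2 : ℝ)]
  refine mul_le_mul_of_nonneg_left ?_ (mul_nonneg (expect_nonneg hG.qk_mem (allHit_nonneg _ _))
    (expect_nonneg hG.qk_mem (allHit_nonneg _ _)))
  rw [← Real.exp_log (show (0 : ℝ) < 2 by norm_num)]
  refine Real.exp_le_exp.2 ((div_le_iff₀ (by positivity)).2 ?_)
  set B := A * Real.exp (-(cc ^ 2 * n * ((n : ℝ) ^ (-(1 / 3) : ℝ)) ^ 2 / 8))
  calc _ ≤ ∑ k ∈ (members Y z).biUnion fun x =>
        (members Y z').biUnion fun x' => cutters (z - x) ∩ cutters (z' - x'), qk k := by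
        refine sum_le_sum_of_subset_of_nonneg (fun k hk => ?_) fun k _ _ => (hG.qk_mem k).1
        obtain ⟨h1, h2⟩ := mem_inter.1 hk
        obtain ⟨x, hx, hkx⟩ := mem_biUnion.1 h1
        obtain ⟨x', hx', hkx'⟩ := mem_biUnion.1 h2
        exact mem_biUnion.2 ⟨x, hx, mem_biUnion.2 ⟨x', hx', mem_inter.2
          ⟨region_subset_cutters _ _ _ _ hkx, region_subset_cutters _ _ _ _ hkx'⟩⟩⟩
    _ ≤ (members Y z).card • ((members Y z').card • B) := by
        refine (sum_biUnion_le (fun k => (hG.qk_mem k).1) _ _).trans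
          (sum_le_card_nsmul _ _ _ fun x hx => ?_)
        refine (sum_biUnion_le (fun k => (hG.qk_mem k).1) _ _).trans
          (sum_le_card_nsmul _ _ _ fun x' hx' => ?_)
        obtain ⟨a1, a2⟩ := mem_radii hz hx
        obtain ⟨b1, b2⟩ := mem_radii hz' hx'
        refine (hG.cross _ _ a1 a2 b1 b2).trans (mul_le_mul_of_nonneg_left ?_ (by linarith))
        have := pow_le_pow_left₀ (Real.rpow_nonneg (Nat.cast_nonneg n) _) (hsep x hx x' hx') 2
        gcongr
    _ ≤ (n : ℝ) ^ 4 * B := by
        rw [nsmul_eq_mul, nsmul_eq_mul, ← mul_assoc]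
        refine mul_le_mul_of_nonneg_right ?_ (mul_nonneg (by linarith) (Real.exp_pos _).le)
        calc _ ≤ (n : ℝ) ^ 2 * (n : ℝ) ^ 2 := mul_le_mul ((card_members_le hA hz).trans hN.K_le)
              ((card_members_le hA hz').trans hN.K_le) (by positivity) (by positivity)
          _ = _ := by ring
    _ ≤ _ := hN.far.trans (le_of_eq (mul_comm _ _))

theorem integrable_of_bounded {ν : Measure (E n)} [IsFiniteMeasure ν] {f : E n → ℝ}
    (hf : Measurable f) (h0 : ∀ z, 0 ≤ f z) (h1 : ∀ z, f z ≤ 1) : Integrable f ν :=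
  Integrable.of_bound hf.aestronglyMeasurable 1 (.of_forall fun z => by
    rw [Real.norm_eq_abs, abs_of_nonneg (h0 z)]; exact h1 z)

theorem measurable_wprob (Y : Finset (E n)) (i : ℕ) : Measurable (wprob Y i) := by
  unfold wprob expect
  exact Finset.measurable_sum _ fun s _ => (measurable_allHit Y i s).const_mul _

theorem group_pair_point (hG : GaussFacts A n) {I : ℕ} (hN : GroupNum A K₁ n I) {Y : Finset (E n)}
    {G : Set (E n)} (hGm : MeasurableSet G) (hGsub : G ⊆ goodSet A K₁ Y)
    [IsFiniteMeasure (volume.restrict G)] {β : ℝ} {i : ℕ} (hi : i + 1 ≤ I) {z : E n} (hz : z ∈ G)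
    (hcone : volume.real {z' | z' ∈ G ∧ ∃ x ∈ members Y z, ∃ x' ∈ members Y z',
      ‖dir (z - x) - dir (z' - x')‖ < (n : ℝ) ^ (-(1 / 3) : ℝ)} ≤ β) :
    expect qk univ (fun s => allHit (members Y z) (region Y i z) s *
        ∫ z, allHit (members Y z) (region Y i z) s ∂(volume.restrict G)) ≤
      β + 2 * wprob Y (i + 1) z * ∫ z, wprob Y (i + 1) z ∂(volume.restrict G) := by
  classical
  set ν := volume.restrict G
  set a : ℕ → Finset (Cell n) → E n → ℝ := fun i s z => allHit (members Y z) (region Y i z) s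
    with ha
  have ha0 : ∀ i s z, 0 ≤ a i s z := fun i s z => allHit_nonneg _ _ _
  have ha1 : ∀ i s z, a i s z ≤ 1 := fun i s z =>
    prod_le_one (fun _ _ => hit_nonneg _ _) fun _ _ => hit_le_one _ _
  have hai : ∀ i s, Integrable (a i s) ν := fun i s =>
    integrable_of_bounded (measurable_allHit Y i s) (ha0 i s) (ha1 i s)
  have hw0 : ∀ i z, 0 ≤ wprob Y i z := fun i z => expect_nonneg hG.qk_mem (allHit_nonneg _ _)
  have hwi : ∀ i, Integrable (wprob Y i) ν := fun i =>
    integrable_of_bounded (measurable_wprob Y i) (hw0 i) fun z => wprob_le_one hG i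
  set N : ℕ → Finset (Cell n) → ℝ := fun i s => ∫ z, a i s z ∂ν with hNdef
  show expect qk univ (fun s => a i s z * N i s) ≤ _
  set bad := {z' | z' ∈ G ∧ ∃ x ∈ members Y z, ∃ x' ∈ members Y z',
    ‖dir (z - x) - dir (z' - x')‖ < (n : ℝ) ^ (-(1 / 3) : ℝ)} with hbad
  have hbm : MeasurableSet bad := by
    have : bad = G ∩ ⋃ x ∈ members Y z, ⋃ x' ∈ Y, {z' | ‖z' - x'‖ ≤ rhi n ∧
        ‖dir (z - x) - dir (z' - x')‖ < (n : ℝ) ^ (-(1 / 3) : ℝ)} := by
      ext z'
      simp only [Set.mem_inter_iff, Set.mem_iUnion, exists_prop]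
      exact ⟨fun ⟨a, x, hx, x', hx', h⟩ => ⟨a, x, hx, x', (mem_filter.1 hx').1,
        (mem_filter.1 hx').2, h⟩,
        fun ⟨a, x, hx, x', hx', h', h⟩ => ⟨a, x, hx, x', mem_filter.2 ⟨hx', h'⟩, h⟩⟩
    rw [this]
    refine hGm.inter (Finset.measurableSet_biUnion _ fun x _ =>
      Finset.measurableSet_biUnion _ fun x' _ => measurableSet_setOfPred.2 ?_)
    exact (measurable_le_norm x' _).and (measurableSet_setOfPred.1 (measurableSet_lt
      (measurable_const.sub (measurable_dir.comp (measurable_id.sub_const _))).norm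
      measurable_const))
  have e : expect qk univ (fun s => a i s z * N i s) =
      ∫ z', expect qk univ (fun s => a i s z * a i s z') ∂ν := by
    unfold expect
    simp only [hNdef, ← integral_const_mul]
    rw [← integral_finsetSum]
    exact fun s _ => ((hai i s).const_mul _).const_mul _
  rw [e]
  have hint : Integrable (fun z' => expect qk univ (fun s => a i s z * a i s z')) ν := by
    unfold expect
    exact integrable_finsetSum _ fun s _ => ((hai i s).const_mul _).const_mul _
  calc _ ≤ ∫ z', (bad.indicator (fun _ => (1 : ℝ)) z' +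
        2 * wprob Y (i + 1) z * wprob Y (i + 1) z') ∂ν := by
        refine integral_mono_ae hint
          (((integrable_const (1 : ℝ)).indicator hbm).add ((hwi (i + 1)).const_mul _))
          ((ae_restrict_mem hGm).mono fun z' hz' => ?_)
        show expect qk univ (fun s => a i s z * a i s z') ≤ _
        beta_reduce
        by_cases hb : z' ∈ bad
        · rw [Set.indicator_of_mem hb]
          have h1 : expect qk univ (fun s => a i s z * a i s z') ≤ 1 :=
            (expect_mono hG.qk_mem fun s _ =>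
              mul_le_one₀ (ha1 i s z) (ha0 i s z') (ha1 i s z')).trans_eq (expect_const _ _ _)
          nlinarith [mul_nonneg (hw0 (i + 1) z) (hw0 (i + 1) z')]
        · rw [Set.indicator_of_notMem hb, zero_add, mul_assoc]
          refine wprob_pair hG hN hi (hGsub hz) (hGsub hz') fun x hx x' hx' => ?_
          by_contra hlt
          exact hb ⟨hz', x, hx, x', hx', not_le.1 hlt⟩
    _ ≤ _ := by
        rw [integral_add ((integrable_const (1 : ℝ)).indicator hbm)
          ((hwi (i + 1)).const_mul _), integral_const_mul, integral_indicator_const _ hbm,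
          smul_eq_mul, mul_one]
        refine add_le_add (le_trans ?_ hcone) le_rfl
        rw [measureReal_restrict_apply hbm]
        exact le_of_eq (congrArg volume.real (Set.inter_eq_left.2 fun _ h => h.1))

theorem group_success (hG : GaussFacts A n) {I : ℕ} (hN : GroupNum A K₁ n I) (Y : Finset (E n))
    {G : Set (E n)} (hGm : MeasurableSet G) (hGsub : G ⊆ goodSet A K₁ Y) (hGtop : volume G ≠ ⊤)
    (hGpos : 0 < volume.real G) {β : ℝ}
    (hcone : ∀ z ∈ G, volume.real {z' | z' ∈ G ∧ ∃ x ∈ members Y z, ∃ x' ∈ members Y z',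
      ‖dir (z - x) - dir (z' - x')‖ < (n : ℝ) ^ (-(1 / 3) : ℝ)} ≤ β)
    (hβ : β ≤ Real.exp (-(4 * K₁)) * volume.real G) :
    Real.exp (-(4 * K₁ / I)) / 3 ≤ expect qk univ (success Y G) := by
  classical
  haveI : IsFiniteMeasure (volume.restrict G) :=
    ⟨by rw [Measure.restrict_apply_univ]; exact hGtop.lt_top⟩
  set ν := volume.restrict G
  set V := volume.real G with hV
  set a : ℕ → Finset (Cell n) → E n → ℝ := fun i s z => allHit (members Y z) (region Y i z) s
    with ha
  have ha0 : ∀ i s z, 0 ≤ a i s z := fun i s z => allHit_nonneg _ _ _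
  have ha1 : ∀ i s z, a i s z ≤ 1 := fun i s z =>
    prod_le_one (fun _ _ => hit_nonneg _ _) fun _ _ => hit_le_one _ _
  have hai : ∀ i s, Integrable (a i s) ν := fun i s =>
    integrable_of_bounded (measurable_allHit Y i s) (ha0 i s) (ha1 i s)
  have hw0 : ∀ i z, 0 ≤ wprob Y i z := fun i z => expect_nonneg hG.qk_mem (allHit_nonneg _ _)
  have hwi : ∀ i, Integrable (wprob Y i) ν := fun i =>
    integrable_of_bounded (measurable_wprob Y i) (hw0 i) fun z => wprob_le_one hG i
  set N : ℕ → Finset (Cell n) → ℝ := fun i s => ∫ z, a i s z ∂ν with hNdef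
  set M : ℕ → ℝ := fun i => ∫ z, wprob Y i z ∂ν with hM
  have hEN : ∀ i, expect qk univ (N i) = M i := by
    intro i
    show ∑ s ∈ _, _ * (∫ z, a i s z ∂ν) = ∫ z, wprob Y i z ∂ν
    simp only [← integral_const_mul]
    rw [← integral_finsetSum _ fun s _ => (hai i s).const_mul _]
    rfl
  have hVν : ν.real Set.univ = V := by rw [measureReal_restrict_apply_univ]
  have hMle : ∀ i, M i ≤ V := fun i => by
    refine (integral_mono (hwi i) (integrable_const (1 : ℝ)) fun z => wprob_le_one hG i).trans ?_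
    rw [integral_const, smul_eq_mul, mul_one, hVν]
  have hMmono : ∀ i, M i ≤ M (i + 1) := fun i =>
    integral_mono (hwi i) (hwi (i + 1)) fun z => wprob_mono hG i
  have hM0 : Real.exp (-(2 * K₁)) * V ≤ M 0 := by
    calc Real.exp (-(2 * K₁)) * V = ∫ _z, Real.exp (-(2 * K₁)) ∂ν := by
          rw [integral_const, smul_eq_mul, hVν, mul_comm]
      _ ≤ M 0 := integral_mono_ae (integrable_const _) (hwi 0)
          ((ae_restrict_mem hGm).mono fun z hz => wprob_zero_ge hG hN (hGsub hz))
  have hMpos : ∀ i, 0 < M i := fun i => by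
    induction i with
    | zero => exact lt_of_lt_of_le (by positivity) hM0
    | succ i ih => exact lt_of_lt_of_le ih (hMmono i)
  obtain ⟨i, hi, hrat⟩ : ∃ i < I, M (i + 1) ≤ Real.exp (2 * K₁ / I) * M i := by
    by_contra hno
    push Not at hno
    have hgrow : ∀ j ≤ I, Real.exp (2 * K₁ / I) ^ j * M 0 ≤ M j := by
      intro j hj
      induction j with
      | zero => simp
      | succ j ih =>
        rw [pow_succ', mul_assoc]
        exact (mul_le_mul_of_nonneg_left (ih (by omega)) (Real.exp_pos _).le).trans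
          (hno j (by omega)).le
    have hI : (I : ℝ) ≠ 0 := by exact_mod_cast (show I ≠ 0 by have := hN.I_pos; omega)
    obtain ⟨J, rfl⟩ : ∃ J, I = J + 1 := ⟨I - 1, by have := hN.I_pos; omega⟩
    have h1 := hgrow J (by omega)
    have h2 := hno J (by omega)
    have h3 := mul_le_mul_of_nonneg_left h1 (Real.exp_pos (2 * K₁ / (J + 1 : ℕ))).le
    rw [← mul_assoc, ← pow_succ', ← Real.exp_nat_mul, mul_div_cancel₀ _ hI] at h3
    have h4 := mul_le_mul_of_nonneg_left hM0 (Real.exp_pos (2 * K₁)).le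
    rw [← mul_assoc, ← Real.exp_add, add_neg_cancel, Real.exp_zero, one_mul] at h4
    linarith [hMle (J + 1)]
  have hsq : expect qk univ (fun s => N i s ^ 2) ≤ 3 * M (i + 1) ^ 2 := by
    have hpt : ∀ z ∈ G, expect qk univ (fun s => a i s z * N i s) ≤
        β + 2 * wprob Y (i + 1) z * M (i + 1) :=
      fun z hz => group_pair_point hG hN hGm hGsub hi hz (hcone z hz)
    have e : expect qk univ (fun s => N i s ^ 2) =
        ∫ z, expect qk univ (fun s => a i s z * N i s) ∂ν := by
      unfold expect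
      rw [integral_finsetSum _ fun s _ => ((hai i s).mul_const _).const_mul _]
      refine sum_congr rfl fun s _ => ?_
      simp only [integral_const_mul, integral_mul_const, sq, hNdef]
    have hint : Integrable (fun z => expect qk univ (fun s => a i s z * N i s)) ν := by
      unfold expect
      exact integrable_finsetSum _ fun s _ => ((hai i s).mul_const _).const_mul _
    rw [e]
    refine (integral_mono_ae hint ((integrable_const β).add (((hwi (i + 1)).const_mul 2).mul_const _))
      ((ae_restrict_mem hGm).mono hpt)).trans ?_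
    simp only [Pi.add_apply]
    rw [integral_add (integrable_const β) (((hwi (i + 1)).const_mul 2).mul_const _),
      integral_const, integral_mul_const, integral_const_mul, hVν, smul_eq_mul]
    have h1 : V * β ≤ M 0 ^ 2 := by
      have h := pow_le_pow_left₀ (by positivity) hM0 2
      rw [mul_pow, ← Real.exp_nat_mul, show ((2 : ℕ) : ℝ) * -(2 * K₁) = -(4 * K₁) by
        push_cast; ring] at h
      nlinarith [mul_le_mul_of_nonneg_left hβ hGpos.le]
    have h2 : M 0 ^ 2 ≤ M (i + 1) ^ 2 :=
      pow_le_pow_left₀ (hMpos 0).le (monotone_nat_of_le_succ hMmono (Nat.zero_le _)) 2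
    change V * β + 2 * M (i + 1) * M (i + 1) ≤ _
    nlinarith
  have hpz := second_moment hG.qk_mem univ (f := N i) fun s =>
    integral_nonneg fun z => ha0 i s z
  rw [hEN] at hpz
  have hsucc : expect qk univ (fun s => if 0 < N i s then (1 : ℝ) else 0) ≤
      expect qk univ (success Y G) := by
    refine expect_mono hG.qk_mem fun s _ => ?_
    unfold success
    by_cases h : 0 < N i s
    · rw [if_pos h, if_pos]
      by_contra hno
      push Not at hno
      refine h.ne' ?_
      refine setIntegral_eq_zero_of_forall_eq_zero fun z hz => ?_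
      obtain ⟨x, hx, hd⟩ := hno z hz
      exact prod_eq_zero hx (if_pos (disjoint_of_subset_left (region_subset_cutters _ _ _ _) hd))
    · rw [if_neg h]
      split_ifs <;> norm_num
  refine le_trans ?_ hsucc
  set P := expect qk univ (fun s => if 0 < N i s then (1 : ℝ) else 0)
  have hP : 0 ≤ P := expect_nonneg hG.qk_mem fun s => by split_ifs <;> norm_num
  have h1 : M i ^ 2 ≤ P * (3 * M (i + 1) ^ 2) := hpz.trans (mul_le_mul_of_nonneg_left hsq hP)
  have h2 : M (i + 1) ^ 2 ≤ Real.exp (4 * K₁ / I) * M i ^ 2 := by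
    have := pow_le_pow_left₀ (hMpos _).le hrat 2
    rw [mul_pow, ← Real.exp_nat_mul] at this
    refine this.trans_eq ?_
    congr 2
    push_cast
    ring
  have h3 : M i ^ 2 * 1 ≤ M i ^ 2 * (3 * P * Real.exp (4 * K₁ / I)) := by
    nlinarith [mul_le_mul_of_nonneg_left h2 hP]
  have h4 := le_of_mul_le_mul_left h3 (pow_pos (hMpos i) 2)
  rw [Real.exp_neg, div_le_iff₀ (by norm_num : (0 : ℝ) < 3),
    inv_le_iff_one_le_mul₀ (Real.exp_pos _)]
  linarith

end Vale.Agent.P230
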