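import Vale.Agent.P230.Defs

/-!
A lattice covering is a translative covering of the same density.
-/

namespace Vale.Agent.P230

open MeasureTheory Filter Module ZSpan
open scoped ENNReal Topology Pointwise

variable {n : ℕ}

theorem volume_cube_eq (R : ℝ) (hR : 0 ≤ R) :
    volume (cube n R) = ENNReal.ofReal ((2 * R) ^ n) := by
  have h : cube n R = WithLp.ofLp ⁻¹' (Set.Icc (fun _ : Fin n => -R) (fun _ => R)) := by
    ext y
    simp only [cube, Set.mem_ofPred_eq, Set.mem_preimage, Set.mem_Icc, Pi.le_def, abs_le]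
    exact ⟨fun h => ⟨fun i => (h i).1, fun i => (h i).2⟩, fun h i => ⟨h.1 i, h.2 i⟩⟩
  rw [h, (PiLp.volume_preserving_ofLp (Fin n)).measure_preimage
    measurableSet_Icc.nullMeasurableSet, Real.volume_Icc_pi]
  simp [ENNReal.ofReal_pow (by linarith : (0 : ℝ) ≤ 2 * R), ← two_mul]

theorem abs_coord_le_norm (y : E n) (i : Fin n) : |y i| ≤ ‖y‖ := by
  have h := PiLp.norm_apply_le y i
  rwa [Real.norm_eq_abs] at h

theorem upperDensity_lattice_le (L : Submodule ℤ (E n)) [DiscreteTopology L] [IsZLattice ℝ L] :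
    LocFinite (L : Set (E n)) ∧
      upperDensity (L : Set (E n)) ≤ (ENNReal.ofReal (ZLattice.covolume L))⁻¹ := by
  classical
  set b := Free.chooseBasis ℤ L
  set F := fundamentalDomain (b.ofZLatticeBasis ℝ) with hF
  have hfd : IsAddFundamentalDomain L F volume := ZLattice.isAddFundamentalDomain b volume
  have hcov : ENNReal.ofReal (ZLattice.covolume L) = volume F := by
    rw [ZLattice.covolume_eq_measure_fundamentalDomain L volume hfd, measureReal_def,
      ENNReal.ofReal_toReal (fundamentalDomain_isBounded _).measure_lt_top.ne]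
  have hLf : LocFinite (L : Set (E n)) := by
    intro S hS
    haveI : DiscreteTopology L.toAddSubgroup := (inferInstance : DiscreteTopology L)
    rw [Set.inter_comm]
    exact Metric.finite_isBounded_inter_isClosed
      (isDiscrete_iff_discreteTopology.2 inferInstance) hS
      (AddSubgroup.isClosed_of_discrete (H := L.toAddSubgroup))
  refine ⟨hLf, ?_⟩
  haveI : MeasurableVAdd L (E n) := (inferInstance : MeasurableVAdd L.toAddSubgroup (E n))
  haveI : VAddInvariantMeasure L (E n) (volume : Measure (E n)) :=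
    (inferInstance : VAddInvariantMeasure L.toAddSubgroup (E n) (volume : Measure (E n)))
  obtain ⟨ρ, hρ⟩ := (fundamentalDomain_isBounded (b.ofZLatticeBasis ℝ)).exists_pos_norm_le
  set c := ENNReal.ofReal (ZLattice.covolume L) with hc
  have hc0 : c ≠ 0 := by simpa [hc] using ZLattice.covolume_pos L volume
  have hct : c ≠ ⊤ := ENNReal.ofReal_ne_top
  have hbd : ∀ᶠ R : ℝ in atTop,
      (((L : Set (E n)) ∩ cube n R).encard : ℝ≥0∞) / ENNReal.ofReal ((2 * R) ^ n) ≤
        ENNReal.ofReal ((1 + ρ / R) ^ n) * c⁻¹ := by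
    filter_upwards [eventually_gt_atTop 0] with R hR
    have hbdd : Bornology.IsBounded (cube n R) := by
      rw [Metric.isBounded_iff_subset_closedBall 0]
      refine ⟨Real.sqrt n * R, fun y hy => ?_⟩
      rw [Metric.mem_closedBall, dist_zero_right, EuclideanSpace.norm_eq,
        Real.sqrt_le_left (by positivity), mul_pow, Real.sq_sqrt (Nat.cast_nonneg n)]
      calc ∑ i, ‖y i‖ ^ 2 ≤ ∑ _i : Fin n, R ^ 2 := Finset.sum_le_sum fun i _ =>
            pow_le_pow_left₀ (norm_nonneg _) (by simpa using hy i) 2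
        _ = n * R ^ 2 := by simp
    have hfin := hLf _ hbdd
    rw [hfin.encard_eq_coe_toFinset_card, ENat.toENNReal_coe]
    set T := hfin.toFinset with hT
    have hmem : ∀ x ∈ T, x ∈ L ∧ x ∈ cube n R := fun x hx => hfin.mem_toFinset.1 hx
    set T' : Finset L := T.attach.image fun x => ⟨x.1, (hmem x.1 x.2).1⟩ with hT'
    have hcard : T'.card = T.card := by
      rw [hT', Finset.card_image_of_injective, Finset.card_attach]
      intro x y hxy
      exact Subtype.ext (congrArg (fun z : L => (z : E n)) hxy)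
    have hsub : (⋃ g ∈ T', g +ᵥ F) ⊆ cube n (R + ρ) := by
      simp only [Set.iUnion_subset_iff]
      rintro g hg _ ⟨f, hf, rfl⟩ i
      obtain ⟨x, -, rfl⟩ := Finset.mem_image.1 hg
      show |x.1 i + f i| ≤ R + ρ
      exact (abs_add_le _ _).trans
        (add_le_add ((hmem x.1 x.2).2 i) ((abs_coord_le_norm f i).trans (hρ.2 f hf)))
    have hsum : (T.card : ℝ≥0∞) * c ≤ ENNReal.ofReal ((2 * (R + ρ)) ^ n) := by
      rw [← volume_cube_eq (n := n) (R + ρ) (by linarith [hρ.1]), hcov, ← hcard]
      refine le_trans (le_of_eq ?_) (measure_mono hsub)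
      rw [measure_biUnion_finset₀ (fun g _ g' _ hne => hfd.aedisjoint hne)
        (fun g _ => hfd.nullMeasurableSet_vadd g),
        Finset.sum_congr rfl fun g _ => ?_, Finset.sum_const, nsmul_eq_mul]
      exact measure_vadd _ _ _
    have h2 : (0 : ℝ) < (2 * R) ^ n := by positivity
    rw [ENNReal.div_le_iff (by simpa using h2) ENNReal.ofReal_ne_top, mul_right_comm,
      ← ENNReal.ofReal_mul (by have := hρ.1; positivity), ← mul_pow,
      show (1 + ρ / R) * (2 * R) = 2 * (R + ρ) by field_simp, ← div_eq_mul_inv,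
      ENNReal.le_div_iff_mul_le (Or.inl hc0) (Or.inl hct)]
    exact hsum
  refine (limsup_le_limsup hbd).trans (le_of_eq ?_)
  refine Tendsto.limsup_eq ?_
  have h : Tendsto (fun R : ℝ => ENNReal.ofReal ((1 + ρ / R) ^ n)) atTop (𝓝 1) := by
    rw [← ENNReal.ofReal_one]
    refine ENNReal.tendsto_ofReal ?_
    simpa using ((tendsto_const_nhds (x := ρ)).div_atTop tendsto_id).const_add 1 |>.pow n
  simpa using ENNReal.Tendsto.mul_const (b := c⁻¹) h (Or.inl one_ne_zero)

theorem thetaT_le_thetaL (K : Set (E n)) : thetaT K ≤ thetaL K := by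
  refine le_iInf fun L => le_iInf fun hd => le_iInf fun hz => le_iInf fun hcov => ?_
  haveI := hd
  haveI := hz
  obtain ⟨h1, h2⟩ := upperDensity_lattice_le L
  refine (iInf_le_of_le (L : Set (E n)) (iInf_le_of_le h1 (iInf_le_of_le hcov ?_)))
  rw [div_eq_mul_inv]
  exact mul_le_mul_right h2 _

end Vale.Agent.P230
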