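import Vale.Agent.P230.Fail

/-!
Choice of the body and the lower bound on its translative covering density, given the reduction
of coverings to configurations and the Gaussian estimates.
-/

namespace Vale.Agent.P230

open MeasureTheory ProbabilityTheory Filter
open scoped ENNReal RealInnerProductSpace

variable {n : ℕ}

theorem thr_pos (hn : 1 ≤ n) : 0 < thr n := by
  have : (0 : ℝ) < n := by exact_mod_cast hn
  unfold thr cc; positivity

theorem isBody_body (hn : 1 ≤ n) (s : Finset (Cell n)) : IsBody (body s) := by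
  have e : body s = Metric.closedBall (0 : E n) 1 ∩ ⋂ k ∈ s, {y | ⟪nv k, y⟫ ≤ thr n} := by
    ext y; simp [body]
  refine ⟨?_, ?_, ?_⟩
  · rw [e]
    refine (convex_closedBall _ _).inter (convex_iInter₂ fun k _ => ?_)
    exact convex_halfSpace_le (innerSL ℝ (nv k)).toLinearMap.isLinear _
  · rw [e]
    exact (isCompact_closedBall _ _).inter_right
      (isClosed_biInter fun k _ => isClosed_le (by fun_prop) continuous_const)
  · set T := ∑ k ∈ s, ‖nv k‖ + 1 with hT
    have hT0 : 0 < T := by positivity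
    set r := min 1 (thr n / T) with hr
    have hr0 : 0 < r := lt_min one_pos (div_pos (thr_pos hn) hT0)
    refine ⟨0, mem_interior.2 ⟨Metric.ball 0 r, fun y hy => ?_, Metric.isOpen_ball,
      Metric.mem_ball_self hr0⟩⟩
    rw [Metric.mem_ball, dist_zero_right] at hy
    refine ⟨hy.le.trans (min_le_left _ _), fun k hk => ?_⟩
    calc ⟪nv k, y⟫ ≤ ‖nv k‖ * ‖y‖ := real_inner_le_norm _ _
      _ ≤ T * (thr n / T) := by
          refine mul_le_mul ?_ (hy.le.trans (min_le_right _ _)) (norm_nonneg y) hT0.le
          have := Finset.single_le_sum (fun i _ => norm_nonneg (nv i)) hk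
          linarith
      _ = thr n := by field_simp

theorem expect_volume_body {A : ℝ} (hG : GaussFacts A n) :
    Real.exp (-A) * ballVol n ≤
      expect qk Finset.univ (fun s : Finset (Cell n) => volume.real (body s)) := by
  classical
  set B := Metric.closedBall (0 : E n) 1 with hB
  haveI : IsFiniteMeasure (volume.restrict B) :=
    ⟨by rw [Measure.restrict_apply_univ]; exact measure_closedBall_lt_top⟩
  set S : Finset (Cell n) → Set (E n) := fun s => {y | ∀ k ∈ s, ⟪nv k, y⟫ ≤ thr n} with hS
  have hSm : ∀ s, MeasurableSet (S s) := fun s => by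
    have : S s = ⋂ k ∈ s, {y | ⟪nv k, y⟫ ≤ thr n} := by ext y; simp [hS]
    rw [this]
    exact Finset.measurableSet_biInter _ fun k _ =>
      measurableSet_le (by fun_prop) measurable_const
  have hvol : ∀ s, volume.real (body s) =
      ∫ y, (S s).indicator (fun _ => (1 : ℝ)) y ∂(volume.restrict B) := by
    intro s
    rw [integral_indicator_const _ (hSm s), smul_eq_mul, mul_one,
      measureReal_restrict_apply (hSm s)]
    congr 1
    ext y
    simp [body, hS, hB, and_comm]
  have hint : ∀ s, Integrable ((S s).indicator fun _ => (1 : ℝ)) (volume.restrict B) := fun s =>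
    (integrable_const (1 : ℝ)).indicator (hSm s)
  have e : expect qk Finset.univ (fun s : Finset (Cell n) => volume.real (body s)) =
      ∫ y, expect qk Finset.univ (fun s => (S s).indicator (fun _ => (1 : ℝ)) y)
        ∂(volume.restrict B) := by
    unfold expect
    rw [integral_finsetSum _ fun s _ => (hint s).const_mul _]
    exact Finset.sum_congr rfl fun s _ => by beta_reduce; rw [integral_const_mul, hvol]
  have hpt : ∀ y ∈ B, Real.exp (-A) ≤
      expect qk Finset.univ (fun s => (S s).indicator (fun _ => (1 : ℝ)) y) := by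
    intro y hy
    set R := Finset.univ.filter fun k : Cell n => thr n < ⟪nv k, y⟫ with hR
    have hind : (fun s : Finset (Cell n) => (S s).indicator (fun _ => (1 : ℝ)) y) =
        fun s => 1 - hit R s := by
      funext s
      by_cases hys : y ∈ S s
      · rw [Set.indicator_of_mem hys, hit, if_pos]
        · simp
        · exact Finset.disjoint_left.2 fun k hk hks =>
            absurd (hys k hks) (not_le.2 (Finset.mem_filter.1 hk).2)
      · rw [Set.indicator_of_notMem hys, hit, if_neg]
        · simp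
        · intro hd
          refine hys fun k hk => ?_
          by_contra hlt
          exact Finset.disjoint_left.1 hd
            (Finset.mem_filter.2 ⟨Finset.mem_univ k, not_le.1 hlt⟩) hk
    rw [hind, expect_one_sub, expect_hit, Finset.univ_inter, sub_sub_cancel]
    exact hG.vol y (by simpa [hB] using hy)
  have hI : Integrable (fun y => expect qk Finset.univ
      (fun s => (S s).indicator (fun _ => (1 : ℝ)) y)) (volume.restrict B) := by
    unfold expect
    exact integrable_finsetSum _ fun s _ => (hint s).const_mul _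
  rw [e]
  refine le_trans (le_of_eq ?_) (integral_mono_ae (integrable_const (Real.exp (-A))) hI
    ((ae_restrict_mem measurableSet_closedBall).mono hpt))
  rw [integral_const, measureReal_restrict_apply_univ, smul_eq_mul, mul_comm, ballVol]

theorem card_ygrid_le (hn : 2 ≤ n) :
    ((ygrid n).card : ℝ) + 1 ≤ Real.exp (6 * (n : ℝ) ^ 2) := by
  classical
  have h1 : (ygrid n).card ≤ (6 * n ^ 3 + 1) ^ n := by
    unfold ygrid
    refine Finset.card_image_le.trans (le_of_eq ?_)
    rw [Fintype.card_piFinset, Finset.prod_const, Finset.card_univ, Fintype.card_fin, Int.card_Icc]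
    congr 1
    have : ((3 * (n : ℤ) ^ 3 + 1 - -(3 * (n : ℤ) ^ 3))) = ((6 * n ^ 3 + 1 : ℕ) : ℤ) := by
      push_cast; ring
    rw [this, Int.toNat_natCast]
  have h2 : (6 * n ^ 3 + 1) ^ n + 1 ≤ (n ^ 6) ^ n := by
    refine Nat.succ_le_of_lt (Nat.pow_lt_pow_left ?_ (by omega))
    have h8 : 8 ≤ n ^ 3 := le_trans (by norm_num) (Nat.pow_le_pow_left hn 3)
    calc 6 * n ^ 3 + 1 < 8 * n ^ 3 := by omega
      _ ≤ n ^ 3 * n ^ 3 := Nat.mul_le_mul_right _ h8
      _ = n ^ 6 := by ring
  have h3 : ((ygrid n).card : ℝ) + 1 ≤ ((n : ℝ) ^ 6) ^ n := by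
    exact_mod_cast le_trans (Nat.add_le_add_right h1 1) h2
  have hn0 : (0 : ℝ) < n := by exact_mod_cast (by omega : 0 < n)
  refine h3.trans ?_
  rw [← pow_mul, ← Real.exp_log hn0, ← Real.exp_nat_mul, Real.exp_log hn0]
  refine Real.exp_le_exp.2 ?_
  push_cast
  nlinarith [Real.log_le_sub_one_of_pos hn0]

/-- some choice of cells gives a large body that no admissible configuration covers -/
theorem exists_body {A : ℝ} (hG : GaussFacts A n) (hM : MainNum A n) :
    ∃ s : Finset (Cell n), Real.exp (-A) / 2 * ballVol n ≤ volume.real (body s) ∧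
      ∀ Y : Finset (E n), Admissible A Y → success Y (Metric.closedBall 0 1) s = 1 := by
  classical
  set N := maxCentres n with hN
  have hn2 := hM.n_two
  have hn : (2 : ℝ) ≤ n := by exact_mod_cast hn2
  have hN1 : 1 ≤ N := by
    rw [hN, maxCentres]
    exact one_le_mul_of_one_le_of_one_le (by nlinarith) (one_le_pow₀ (by norm_num))
  set Ys := (ygrid n).powerset.filter fun Y => Admissible A Y with hYs
  have hcardYs : (Ys.card : ℝ) ≤ Real.exp (12 * (n : ℝ) ^ 2 * N) := by
    set m := ⌊N⌋₊
    have hsub : Ys ⊆ (Finset.range (m + 1)).biUnion fun k => (ygrid n).powersetCard k := by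
      intro Y hY
      obtain ⟨h1, h2⟩ := Finset.mem_filter.1 hY
      exact Finset.mem_biUnion.2 ⟨Y.card, Finset.mem_range.2 (Nat.lt_succ_of_le
        (Nat.le_floor h2.1)), Finset.mem_powersetCard.2 ⟨Finset.mem_powerset.1 h1, rfl⟩⟩
    have h1 : Ys.card ≤ (m + 1) * ((ygrid n).card + 1) ^ m := by
      refine (Finset.card_le_card hsub).trans (Finset.card_biUnion_le.trans ?_)
      refine (Finset.sum_le_card_nsmul _ _ _ fun k hk => ?_).trans_eq
        (by rw [Finset.card_range, smul_eq_mul])
      rw [Finset.card_powersetCard]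
      exact (Nat.choose_le_pow _ _).trans ((Nat.pow_le_pow_left (Nat.le_succ _) k).trans
        (Nat.pow_le_pow_right (Nat.succ_pos _) (Nat.le_of_lt_succ (Finset.mem_range.1 hk))))
    have h2 : (Ys.card : ℝ) ≤ ((m : ℝ) + 1) * ((ygrid n).card + 1 : ℝ) ^ m := by
      exact_mod_cast h1
    refine h2.trans ((mul_le_mul (Real.add_one_le_exp (m : ℝ))
      (pow_le_pow_left₀ (by positivity) (card_ygrid_le hn2) m) (by positivity)
      (Real.exp_pos _).le).trans ?_)
    rw [← Real.exp_nat_mul, ← Real.exp_add]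
    refine Real.exp_le_exp.2 ?_
    have hm : (m : ℝ) ≤ N := Nat.floor_le (by linarith)
    have hn1 : (1 : ℝ) ≤ (n : ℝ) ^ 2 := one_le_pow₀ (by linarith)
    nlinarith [mul_le_mul_of_nonneg_right hm (sq_nonneg (n : ℝ)),
      mul_le_mul_of_nonneg_left hn1 (show (0 : ℝ) ≤ N by linarith)]
  set κ := Real.exp (-A) / 2 with hκ
  set ω := ballVol n with hω
  have hω0 : 0 < ω := ballVol_pos n
  set F : Finset (Cell n) → ℝ := fun s =>
    ∑ Y ∈ Ys, (1 - success Y (Metric.closedBall 0 1) s) with hF
  have hEF : expect qk Finset.univ F ≤ Real.exp (-(n : ℝ)) := by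
    rw [hF, expect_sum]
    refine (Finset.sum_le_card_nsmul _ _ _ fun Y hY =>
      fail_le hG hM (Finset.mem_filter.1 hY).2).trans ?_
    rw [nsmul_eq_mul]
    refine (mul_le_mul_of_nonneg_right hcardYs (Real.exp_pos _).le).trans ?_
    rw [← Real.exp_add]
    refine Real.exp_le_exp.2 ?_
    nlinarith [mul_le_mul_of_nonneg_left hN1 (sq_nonneg (n : ℝ))]
  set v : Finset (Cell n) → ℝ := fun s => volume.real (body s) with hv
  have hv1 : ∀ s, v s ≤ ω := fun s => measureReal_mono
    (fun y hy => by rw [Metric.mem_closedBall, dist_zero_right]; exact hy.1)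
    measure_closedBall_lt_top.ne
  obtain ⟨s, hs⟩ : ∃ s, 0 < v s - κ * ω - ω * F s := by
    by_contra hno
    push Not at hno
    have h := expect_mono hG.qk_mem (A := (Finset.univ : Finset (Cell n)))
      (f := fun s => v s + (-1) * (κ * ω + ω * F s)) (g := fun _ => (0 : ℝ))
      (fun s _ => by have := hno s; linarith)
    rw [expect_const, expect_add, expect_mul_const, expect_add, expect_const,
      expect_mul_const] at h
    have hEv : Real.exp (-A) * ω ≤ expect qk Finset.univ v := expect_volume_body hG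
    have h2 : ω * expect qk Finset.univ F < ω * (Real.exp (-A) / 2) :=
      mul_lt_mul_of_pos_left (lt_of_le_of_lt hEF hM.tiny) hω0
    rw [hκ] at h
    linarith
  have hterm : ∀ Y ∈ Ys, 0 ≤ 1 - success Y (Metric.closedBall 0 1) s := fun Y _ =>
    sub_nonneg.2 (success_le_one _ _ _)
  have hF0 : 0 ≤ F s := Finset.sum_nonneg hterm
  refine ⟨s, by nlinarith, fun Y hY => ?_⟩
  by_contra hne
  have hzero : success Y (Metric.closedBall 0 1) s = 0 := by
    unfold success at hne ⊢
    split_ifs at hne ⊢ with h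
    · exact absurd rfl hne
    · rfl
  have hYmem : Y ∈ Ys := Finset.mem_filter.2 ⟨Finset.mem_powerset.2 hY.2.1, hY⟩
  have h1 : 1 ≤ F s := by
    refine le_trans (le_of_eq ?_) (Finset.single_le_sum hterm hYmem)
    rw [hzero, sub_zero]
  have hκ0 : 0 ≤ κ * ω := by positivity
  nlinarith [hv1 s]

theorem thetaT_lower {A : ℝ} (hG : GaussFacts A n) (hM : MainNum A n) (hR : ReduceStmt) :
    ∃ K : Set (E n), IsBody K ∧
      ENNReal.ofReal (Real.exp (-A) / 2 * zeta A * (n * Real.log n)) ≤ thetaT K := by
  obtain ⟨s, hvol, hsucc⟩ := exists_body hG hM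
  refine ⟨body s, isBody_body hM.group.n_pos s, ?_⟩
  refine le_iInf fun X => le_iInf fun hX => le_iInf fun hcov => ?_
  by_contra hlt
  rw [not_le] at hlt
  set κ := Real.exp (-A) / 2 with hκ
  set ω := volume (Metric.closedBall (0 : E n) 1) with hω
  have hωr : ω = ENNReal.ofReal (ballVol n) := by
    rw [ballVol, measureReal_def, ENNReal.ofReal_toReal measure_closedBall_lt_top.ne]
  have hκ0 : 0 < κ := by positivity
  have h1 : ENNReal.ofReal κ * (upperDensity X * ω) <
      ENNReal.ofReal κ * ENNReal.ofReal (zeta A * (n * Real.log n)) := by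
    rw [← ENNReal.ofReal_mul hκ0.le, ← mul_assoc κ]
    refine lt_of_le_of_lt ?_ hlt
    rw [mul_left_comm, hωr, ← ENNReal.ofReal_mul hκ0.le, mul_comm]
    refine mul_le_mul_left ?_ _
    calc ENNReal.ofReal (κ * ballVol n) ≤ ENNReal.ofReal (volume.real (body s)) :=
          ENNReal.ofReal_le_ofReal hvol
      _ ≤ volume (body s) := ENNReal.ofReal_toReal_le
  obtain ⟨Y, hY, hcovY⟩ := hR A n hM hG s X hX hcov (lt_of_mul_lt_mul_left' h1)
  have h := hsucc Y hY
  unfold success at h
  split_ifs at h with hex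
  · obtain ⟨z, hz, hz'⟩ := hex
    obtain ⟨x, hx, hd⟩ := hcovY z hz
    exact hz' x hx hd
  · exact zero_ne_one h

/-- the final statement, from the three pieces -/
theorem main_of (hg : ∃ A : ℝ, ∀ᶠ n : ℕ in atTop, GaussFacts A n) (hR : ReduceStmt) :
    (∃ c : ℝ, 0 < c ∧ ∀ᶠ n : ℕ in atTop, ∃ K : Set (E n), IsBody K ∧
      ENNReal.ofReal (c * (n * Real.log n)) ≤ thetaT K) ∧
    ¬ ∃ C : ℝ, ∀ (n : ℕ), 1 ≤ n → ∀ K : Set (E n), IsBody K →
      thetaT K ≤ ENNReal.ofReal (C * n) := by
  obtain ⟨A, hA⟩ := hg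
  obtain ⟨m, hm⟩ := hA.exists
  have hA1 : 1 ≤ A := hm.one_le
  set c := Real.exp (-A) / 2 * zeta A with hc
  have hz : 0 < zeta A := by unfold zeta cc; positivity
  have hc0 : 0 < c := by positivity
  have hmain : ∀ᶠ n : ℕ in atTop, ∃ K : Set (E n), IsBody K ∧
      ENNReal.ofReal (c * (n * Real.log n)) ≤ thetaT K := by
    filter_upwards [hA, mainNum_eventually A hA1] with n hn hn'
    exact thetaT_lower hn hn' hR
  refine ⟨⟨c, hc0, hmain⟩, ?_⟩
  rintro ⟨C, hC⟩
  obtain ⟨n, ⟨K, hK, hKθ⟩, hn1, hlog⟩ :=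
    (hmain.and ((eventually_ge_atTop 1).and (ev_const_le_log ((|C| + 1) / c)))).exists
  have h := hKθ.trans (hC n hn1 K hK)
  have hn0 : (0 : ℝ) < n := by exact_mod_cast hn1
  rw [div_le_iff₀ hc0] at hlog
  have hgt : C * n < c * (n * Real.log n) := by
    nlinarith [mul_le_mul_of_nonneg_left hlog hn0.le,
      mul_le_mul_of_nonneg_right (le_abs_self C) hn0.le]
  have hpos : 0 < c * (n * Real.log n) := by
    have : 0 < Real.log n := by nlinarith [abs_nonneg C]
    positivity
  exact absurd h (not_le.2 ((ENNReal.ofReal_lt_ofReal_iff hpos).2 hgt))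

end Vale.Agent.P230
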