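import Vale.Agent.P230.Config
import Vale.Agent.P230.Group
import Vale.Agent.P230.Geom

/-!
A thin covering yields one rounded configuration that is admissible and covers the unit ball.
-/

namespace Vale.Agent.P230

open MeasureTheory ProbabilityTheory Filter
open scoped ENNReal NNReal RealInnerProductSpace

variable {n : ℕ}

theorem norm_rnd_sub_le (hn : 1 ≤ n) (y : E n) : ‖rnd y - y‖ ≤ 1 / (n : ℝ) ^ 2 := by
  have hn0 : (0 : ℝ) < n := by exact_mod_cast hn
  have hn1 : (1 : ℝ) ≤ n := by exact_mod_cast hn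
  rw [EuclideanSpace.norm_eq, Real.sqrt_le_left (by positivity)]
  have hi : ∀ i, ‖(rnd y - y) i‖ ^ 2 ≤ (1 / (n : ℝ) ^ 3) ^ 2 := by
    intro i
    refine pow_le_pow_left₀ (norm_nonneg _) ?_ 2
    have h1 := Int.floor_le (y i * (n : ℝ) ^ 3)
    have h2 := Int.lt_floor_add_one (y i * (n : ℝ) ^ 3)
    have h3 : (rnd y - y) i = ((⌊y i * (n : ℝ) ^ 3⌋ : ℝ) - y i * (n : ℝ) ^ 3) / (n : ℝ) ^ 3 := by
      simp only [rnd, PiLp.sub_apply, sub_div]
      rw [mul_div_cancel_right₀ _ (by positivity)]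
    rw [h3, norm_div, Real.norm_eq_abs, Real.norm_eq_abs,
      abs_of_pos (show (0 : ℝ) < (n : ℝ) ^ 3 by positivity)]
    exact div_le_div_of_nonneg_right (abs_le.2 ⟨by linarith, by linarith⟩) (by positivity)
  refine (Finset.sum_le_sum fun i _ => hi i).trans ?_
  rw [Finset.sum_const, Finset.card_univ, Fintype.card_fin, nsmul_eq_mul, div_pow, div_pow,
    one_pow, ← pow_mul, ← pow_mul, mul_one_div, div_le_div_iff₀ (by positivity) (by positivity),
    one_mul]
  calc (n : ℝ) * (n : ℝ) ^ (2 * 2) = (n : ℝ) ^ 5 := by ring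
    _ ≤ (n : ℝ) ^ (3 * 2) := pow_le_pow_right₀ hn1 (by norm_num)

theorem rnd_mem_ygrid (hn : 1 ≤ n) {y : E n} (hy : ‖y‖ ≤ 5 / 2) : rnd y ∈ ygrid n := by
  classical
  have hn0 : (1 : ℝ) ≤ (n : ℝ) ^ 3 := one_le_pow₀ (by exact_mod_cast hn)
  unfold ygrid
  refine Finset.mem_image.2 ⟨fun i => ⌊y i * (n : ℝ) ^ 3⌋, Fintype.mem_piFinset.2 fun i => ?_, rfl⟩
  have h := (PiLp.norm_apply_le y i).trans hy
  rw [Real.norm_eq_abs, abs_le] at h
  refine Finset.mem_Icc.2 ⟨Int.le_floor.2 ?_, Int.floor_le_iff.2 ?_⟩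
  · push_cast
    linarith [mul_le_mul_of_nonneg_right h.1 (show (0 : ℝ) ≤ (n : ℝ) ^ 3 by positivity)]
  · push_cast
    linarith [mul_le_mul_of_nonneg_right h.2 (show (0 : ℝ) ≤ (n : ℝ) ^ 3 by positivity)]

theorem witMeasure_facts (n : ℕ) :
    IsProbabilityMeasure (witMeasure n) ∧
      witMeasure n (Metric.closedBall 0 4)ᶜ = 0 := by
  have hg : (0 : ℝ) < grad := by unfold grad; norm_num
  have hb : ∀ r : ℝ, 0 < r →
      IsProbabilityMeasure (volume[|Metric.closedBall (0 : E n) r]) := fun r hr =>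
    cond_isProbabilityMeasure_of_finite (Metric.measure_closedBall_pos volume _ hr).ne'
      measure_closedBall_lt_top.ne
  have := hb (1 / 2) (by norm_num)
  have := hb grad hg
  have hadd : Measurable fun p : E n × E n => p.1 + p.2 := measurable_fst.add measurable_snd
  refine ⟨Measure.isProbabilityMeasure_map hadd.aemeasurable, ?_⟩
  rw [witMeasure, Measure.map_apply hadd measurableSet_closedBall.compl]
  have hz : ∀ r : ℝ, (volume[|Metric.closedBall (0 : E n) r]) (Metric.closedBall 0 r)ᶜ = 0 :=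
    fun r => mem_ae_iff.1 (ae_cond_mem measurableSet_closedBall)
  refine measure_mono_null (t := (Metric.closedBall (0 : E n) (1 / 2))ᶜ ×ˢ (Set.univ : Set (E n)) ∪
    (Set.univ : Set (E n)) ×ˢ (Metric.closedBall (0 : E n) grad)ᶜ) ?_ ?_
  · rintro ⟨a, b⟩ hab
    by_contra hc
    simp only [Set.mem_union, Set.mem_prod, Set.mem_compl_iff, Set.mem_univ, and_true, true_and,
      Metric.mem_closedBall, dist_zero_right, not_or, not_not] at hc
    refine hab ?_
    rw [Metric.mem_closedBall, dist_zero_right]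
    have : grad ≤ 1 := by unfold grad; norm_num
    exact (norm_add_le a b).trans (by linarith [hc.1, hc.2])
  · refine measure_union_null ?_ ?_ <;> rw [Measure.prod_prod, hz] <;> simp

theorem sum_le_window {X : Set (E n)} (T : Finset (E n)) (hT : ↑T ⊆ X) (f : E n → ℝ≥0∞) :
    ∑ x ∈ T, f x ≤ ∑' x : X, f x := by
  classical
  refine le_trans (le_of_eq ?_) (ENNReal.sum_le_tsum (T.subtype (· ∈ X)))
  rw [Finset.sum_subtype_eq_sum_filter (f := f), Finset.filter_true_of_mem fun x hx => hT hx]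

theorem reduceStmt : ReduceStmt := by
  intro A n hM hG s X hX hcov hd
  classical
  have hn2 : (2 : ℝ) ≤ n := by exact_mod_cast hM.n_two
  have hn1 : 1 ≤ n := by have := hM.n_two; omega
  have hn0 : (0 : ℝ) < n := by linarith
  have hA := hG.one_le
  have hlog : 0 < Real.log n := Real.log_pos (by linarith)
  have hbud : 0 < budget n := by unfold budget; positivity
  set ω := volume (Metric.closedBall (0 : E n) 1) with hω
  have hω0 : ω ≠ 0 := (Metric.measure_closedBall_pos volume _ one_pos).ne'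
  have hωt : ω ≠ ⊤ := measure_closedBall_lt_top.ne
  set Z := zeta A * (n * Real.log n) with hZ
  have hden : 0 < 6 * A + 6 * cc ^ 2 := by positivity
  have hz0 : 0 < zeta A := by unfold zeta; positivity
  have hz1 : zeta A ≤ 1 := by
    unfold zeta; rw [div_le_one (by positivity)]; nlinarith [sq_nonneg cc]
  have hzc : zeta A * (6 * A + 3 * cc ^ 2) ≤ 1 / 1000000 := by
    unfold zeta
    rw [div_mul_eq_mul_div, one_mul, div_le_div_iff₀ (by positivity) (by norm_num)]
    nlinarith [sq_nonneg cc]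
  set δ : ℝ≥0 := (ENNReal.ofReal Z / ω).toNNReal with hδ
  have hδc : (δ : ℝ≥0∞) = ENNReal.ofReal Z / ω :=
    ENNReal.coe_toNNReal (ENNReal.div_ne_top ENNReal.ofReal_ne_top hω0)
  have hδω : (δ : ℝ≥0∞) * ω = ENNReal.ofReal Z := by
    rw [hδc, ENNReal.div_mul_cancel hω0 hωt]
  have hev : ∀ᶠ R : ℝ in atTop,
      ((X ∩ cube n R).encard : ℝ≥0∞) ≤ δ * ENNReal.ofReal ((2 * R) ^ n) := by
    have hlt : upperDensity X < δ := by
      rw [hδc, ENNReal.lt_div_iff_mul_lt (Or.inl hω0) (Or.inl hωt)]; exact hd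
    filter_upwards [eventually_lt_of_limsup_lt hlt, eventually_gt_atTop (0 : ℝ)] with R hR hR0
    refine (ENNReal.div_le_iff ?_ ENNReal.ofReal_ne_top).1 hR.le
    rw [Ne, ENNReal.ofReal_eq_zero, not_le]; positivity
  set r₁ : ℝ := 1 + 3 / (n : ℝ) ^ 2 with hr₁
  have hr₁1 : 1 ≤ r₁ := by rw [hr₁]; linarith [show 0 ≤ 3 / (n : ℝ) ^ 2 by positivity]
  have hr₁4 : r₁ ≤ 4 := by
    rw [hr₁]
    have : 3 / (n : ℝ) ^ 2 ≤ 3 :=
      div_le_self (by norm_num) (one_le_pow₀ (by linarith))
    linarith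
  set r₂ : ℝ := rlo n + 1 / (n : ℝ) ^ 2 with hr₂
  have hr₂0 : 0 ≤ r₂ := by
    rw [hr₂]; linarith [hM.rlo_ge, show 0 ≤ 1 / (n : ℝ) ^ 2 by positivity]
  have hr₂4 : r₂ ≤ 4 := by
    have h1 : rlo n ≤ 1 := by unfold rlo; linarith [show 0 ≤ 3 * Real.log n / n by positivity]
    have h2 : 1 / (n : ℝ) ^ 2 ≤ 1 :=
      div_le_self zero_le_one (one_le_pow₀ (by linarith))
    linarith
  set f₁ : E n → ℝ≥0∞ := (Metric.closedBall (0 : E n) r₁).indicator
    (fun y => ENNReal.ofReal (2 * A + 3 * cc ^ 2 * n * max 0 (1 - ‖y‖))) with hf₁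
  set f₂ : E n → ℝ≥0∞ := (Metric.closedBall (0 : E n) r₂).indicator (fun _ => 1) with hf₂
  set f₃ : E n → ℝ≥0∞ := (Metric.closedBall (0 : E n) (5 / 2)).indicator (fun _ => 1) with hf₃
  have hm₁ : Measurable f₁ := Measurable.indicator (by fun_prop) measurableSet_closedBall
  have hm₂ : Measurable f₂ := measurable_const.indicator measurableSet_closedBall
  have hm₃ : Measurable f₃ := measurable_const.indicator measurableSet_closedBall
  have hout : ∀ r : ℝ, r ≤ 4 → ∀ y : E n, 4 < ‖y‖ → y ∉ Metric.closedBall (0 : E n) r := by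
    intro r hr y hy h
    rw [Metric.mem_closedBall, dist_zero_right] at h
    linarith
  have hball : ∀ r : ℝ, 0 ≤ r →
      ∫⁻ y, (Metric.closedBall (0 : E n) r).indicator (fun _ => (1 : ℝ≥0∞)) y =
        ENNReal.ofReal (r ^ n) * ω := by
    intro r hr
    rw [lintegral_indicator_const measurableSet_closedBall, one_mul,
      Measure.addHaar_closedBall' volume (0 : E n) hr, finrank_euclideanSpace_fin]
  obtain ⟨hprob, hsuppμ⟩ := witMeasure_facts n
  obtain ⟨u₀, hu⟩ := windowStmt n 3 X δ hX hev ![f₁, f₂, f₃]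
    ![witMeasure n, witMeasure n, Measure.dirac 0]
    ![ENNReal.ofReal (6 * A + 3 * cc ^ 2) * ω, ENNReal.ofReal (3 / (n : ℝ) ^ 3) * ω,
      ENNReal.ofReal ((5 / 2) ^ n) * ω]
    (by intro i; fin_cases i <;> assumption)
    (by
      intro i y hy
      fin_cases i
      · show f₁ y = 0
        exact Set.indicator_of_notMem (hout r₁ hr₁4 y hy) _
      · show f₂ y = 0
        exact Set.indicator_of_notMem (hout r₂ hr₂4 y hy) _
      · show f₃ y = 0
        exact Set.indicator_of_notMem (hout (5 / 2) (by norm_num) y hy) _)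
    (by intro i; fin_cases i <;> first | exact hprob | exact Measure.dirac.isProbabilityMeasure)
    (by
      intro i
      fin_cases i
      · exact hsuppμ
      · exact hsuppμ
      · show Measure.dirac (0 : E n) (Metric.closedBall (0 : E n) 4)ᶜ = 0
        rw [Measure.dirac_apply' _ measurableSet_closedBall.compl, Set.indicator_of_notMem]
        simp)
    (by
      intro i
      fin_cases i
      · show ∫⁻ y, f₁ y ≤ ENNReal.ofReal (6 * A + 3 * cc ^ 2) * ω
        rw [hf₁, lintegral_indicator measurableSet_closedBall]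
        refine (profileStmt n (2 * A) (3 * cc ^ 2) r₁ (by linarith) (by positivity) hr₁1).trans ?_
        refine mul_le_mul_left (ENNReal.ofReal_le_ofReal ?_) _
        nlinarith [hM.outer]
      · show ∫⁻ y, f₂ y ≤ ENNReal.ofReal (3 / (n : ℝ) ^ 3) * ω
        rw [hf₂, hball r₂ hr₂0]
        exact mul_le_mul_left (ENNReal.ofReal_le_ofReal hM.core) _
      · show ∫⁻ y, f₃ y ≤ ENNReal.ofReal ((5 / 2) ^ n) * ω
        rw [hf₃, hball (5 / 2) (by norm_num)])
  have hZ0 : 0 ≤ Z := by rw [hZ]; positivity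
  have hscale : ∀ c : ℝ, 0 ≤ c →
      2 * ((3 : ℕ) + 1) * (δ : ℝ≥0∞) * (ENNReal.ofReal c * ω) = ENNReal.ofReal (8 * Z * c) := by
    intro c hc
    calc 2 * ((3 : ℕ) + 1) * (δ : ℝ≥0∞) * (ENNReal.ofReal c * ω)
        = 8 * (δ * ω) * ENNReal.ofReal c := by push_cast; ring
      _ = _ := by
          rw [hδω, mul_assoc (8 : ℝ), ENNReal.ofReal_mul (by norm_num : (0 : ℝ) ≤ 8),
            ENNReal.ofReal_mul hZ0, ENNReal.ofReal_ofNat, mul_assoc]
  set Φ : (E n → ℝ≥0∞) → E n → ℝ≥0∞ := fun f v => ∑' x : X, f (u₀ + v - x) with hΦ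
  have : Countable X := (countable_of_locFinite hX).to_subtype
  have hΦm : ∀ f : E n → ℝ≥0∞, Measurable f → Measurable (Φ f) := fun f hf =>
    Measurable.tsum fun x => hf.comp (by fun_prop)
  have hI₁ : ∫⁻ v, Φ f₁ v ∂witMeasure n ≤ ENNReal.ofReal (budget n / 6) := by
    refine ((hu 0).trans (le_of_eq (hscale _ (by positivity)))).trans
      (ENNReal.ofReal_le_ofReal ?_)
    rw [hZ, budget]
    nlinarith [mul_le_mul_of_nonneg_left hzc (show (0 : ℝ) ≤ n * Real.log n by positivity)]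
  have hI₂ : ∫⁻ v, Φ f₂ v ∂witMeasure n ≤ ENNReal.ofReal (1 / 12) := by
    refine ((hu 1).trans (le_of_eq (hscale _ (by positivity)))).trans
      (ENNReal.ofReal_le_ofReal ?_)
    refine le_trans ?_ hM.logn.2
    rw [hZ, mul_div_assoc', div_le_div_iff_of_pos_right (by positivity)]
    nlinarith [mul_le_mul_of_nonneg_right hz1 (show (0 : ℝ) ≤ n * Real.log n by positivity)]
  have hI₃ : Φ f₃ 0 ≤ ENNReal.ofReal (maxCentres n) := by
    have h : ∫⁻ v, Φ f₃ v ∂Measure.dirac (0 : E n) ≤ ENNReal.ofReal (8 * Z * (5 / 2) ^ n) :=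
      (hu 2).trans (le_of_eq (hscale _ (by positivity)))
    rw [lintegral_dirac' _ (hΦm f₃ hm₃)] at h
    refine h.trans (ENNReal.ofReal_le_ofReal ?_)
    rw [hZ, maxCentres]
    refine mul_le_mul_of_nonneg_right ?_ (by positivity)
    nlinarith [hM.logn.1,
      mul_le_mul_of_nonneg_right hz1 (show (0 : ℝ) ≤ n * Real.log n by positivity)]
  -- the configuration
  set S := (hX (Metric.closedBall u₀ (5 / 2)) Metric.isBounded_closedBall).toFinset with hS
  set Y := S.image (fun x => rnd (x - u₀)) with hY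
  have hSX : ∀ x ∈ S, x ∈ X ∧ ‖x - u₀‖ ≤ 5 / 2 := fun x hx => by
    rw [hS, Set.Finite.mem_toFinset, Set.mem_inter_iff, Metric.mem_closedBall, dist_eq_norm] at hx
    exact hx
  have hSsub : ↑S ⊆ X := fun x hx => (hSX x hx).1
  have hcard : (Y.card : ℝ) ≤ maxCentres n := by
    have h1 : (S.card : ℝ≥0∞) ≤ Φ f₃ 0 := by
      refine le_trans (le_of_eq ?_) (sum_le_window S hSsub fun x => f₃ (u₀ + 0 - x))
      rw [Finset.card_eq_sum_ones, Nat.cast_sum]
      refine Finset.sum_congr rfl fun x hx => ?_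
      rw [hf₃, Set.indicator_of_mem, Nat.cast_one]
      rw [Metric.mem_closedBall, dist_zero_right, add_zero, norm_sub_rev]
      exact (hSX x hx).2
    have h2 : (S.card : ℝ) ≤ maxCentres n := by
      rw [← ENNReal.ofReal_le_ofReal_iff (by unfold maxCentres; positivity),
        ENNReal.ofReal_natCast]
      exact h1.trans hI₃
    exact le_trans (by exact_mod_cast Finset.card_image_le) h2
  have hgrid : Y ⊆ ygrid n := Finset.image_subset_iff.2 fun x hx => rnd_mem_ygrid hn1 (hSX x hx).2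
  have hclose : ∀ x : E n, ∀ z : E n,
      ‖u₀ + z - x‖ ≤ ‖z - rnd (x - u₀)‖ + 1 / (n : ℝ) ^ 2 ∧
        ‖z - rnd (x - u₀)‖ ≤ ‖u₀ + z - x‖ + 1 / (n : ℝ) ^ 2 := by
    intro x z
    have h := norm_rnd_sub_le hn1 (x - u₀)
    have e : (z - rnd (x - u₀)) = (u₀ + z - x) - (rnd (x - u₀) - (x - u₀)) := by abel
    have e' : (u₀ + z - x) = (z - rnd (x - u₀)) + (rnd (x - u₀) - (x - u₀)) := by abel
    constructor
    · rw [e']; exact (norm_add_le _ _).trans (by linarith)
    · rw [e]; exact (norm_sub_le _ _).trans (by linarith)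
  have hbad : (goodSet A (budget n) Y)ᶜ ⊆
      {v | 1 ≤ Φ f₂ v} ∪ {v | ENNReal.ofReal (budget n) ≤ Φ f₁ v} := by
    intro z hz
    simp only [goodSet, Set.mem_compl_iff, Set.mem_ofPred_eq, not_and_or] at hz
    rcases hz with h | h
    · push Not at h
      obtain ⟨y, hy, hlt⟩ := h
      obtain ⟨x, hx, rfl⟩ := Finset.mem_image.1 hy
      refine Or.inl (le_trans ?_ (ENNReal.le_tsum (⟨x, hSsub hx⟩ : X)))
      show 1 ≤ f₂ (u₀ + z - x)
      rw [hf₂, Set.indicator_of_mem]
      rw [Metric.mem_closedBall, dist_zero_right]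
      linarith [(hclose x z).1]
    · refine Or.inr ((ENNReal.ofReal_le_ofReal (not_le.1 h).le).trans ?_)
      have hpre : ∀ y ∈ members Y z, ∃ x ∈ S, rnd (x - u₀) = y := fun y hy =>
        Finset.mem_image.1 (Finset.mem_filter.1 hy).1
      choose! g hg1 hg2 using hpre
      have hinj : Set.InjOn g (members Y z : Set (E n)) := fun a ha b hb hab => by
        rw [← hg2 a ha, ← hg2 b hb, hab]
      have hw : ∀ y ∈ members Y z,
          ENNReal.ofReal (wcost A n ‖z - y‖) ≤ f₁ (u₀ + z - g y) := by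
        intro y hy
        have hm : ‖z - y‖ ≤ rhi n := (Finset.mem_filter.1 hy).2
        have hc := hclose (g y) z
        rw [hg2 y hy] at hc
        rw [hf₁, Set.indicator_of_mem (by
          rw [Metric.mem_closedBall, dist_zero_right, hr₁]
          unfold rhi at hm
          linarith [hc.1, show 3 / (n : ℝ) ^ 2 = 2 / (n : ℝ) ^ 2 + 1 / (n : ℝ) ^ 2 by ring])]
        refine ENNReal.ofReal_le_ofReal ?_
        unfold wcost
        have h1 : max 0 (1 - ‖z - y‖) ≤ max 0 (1 - ‖u₀ + z - g y‖) + 1 / (n : ℝ) ^ 2 :=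
          max_le (by positivity) (by linarith [le_max_right 0 (1 - ‖u₀ + z - g y‖), hc.1])
        have h2 := mul_le_mul_of_nonneg_left h1 (show 0 ≤ 3 * cc ^ 2 * (n : ℝ) by positivity)
        have h3 : 3 * cc ^ 2 * (n : ℝ) * (1 / (n : ℝ) ^ 2) = 3 * cc ^ 2 / n := by field_simp
        rw [mul_add, h3] at h2
        linarith [hM.slope]
      rw [cost, ENNReal.ofReal_sum_of_nonneg fun y _ => by unfold wcost; positivity]
      refine (Finset.sum_le_sum hw).trans ?_
      rw [← Finset.sum_image (f := fun x => f₁ (u₀ + z - x)) hinj]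
      exact sum_le_window _ (by
        intro x hx
        obtain ⟨y, hy, rfl⟩ := Finset.mem_image.1 (Finset.mem_coe.1 hx)
        exact hSsub (hg1 y hy)) _
  have hgood : witMeasure n (goodSet A (budget n) Y)ᶜ ≤ 1 / 4 := by
    have h2 : witMeasure n {v | 1 ≤ Φ f₂ v} ≤ ENNReal.ofReal (1 / 12) := by
      have := mul_meas_ge_le_lintegral (μ := witMeasure n) (hΦm f₂ hm₂) 1
      rw [one_mul] at this
      exact this.trans hI₂
    have h1 : witMeasure n {v | ENNReal.ofReal (budget n) ≤ Φ f₁ v} ≤ ENNReal.ofReal (1 / 6) := by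
      have h := (mul_meas_ge_le_lintegral (μ := witMeasure n) (hΦm f₁ hm₁)
        (ENNReal.ofReal (budget n))).trans hI₁
      rw [show budget n / 6 = budget n * (1 / 6) by ring, ENNReal.ofReal_mul hbud.le] at h
      exact (ENNReal.mul_le_mul_iff_right
        (by rw [Ne, ENNReal.ofReal_eq_zero, not_le]; exact hbud) ENNReal.ofReal_ne_top).1 h
    refine (measure_mono hbad).trans ((measure_union_le _ _).trans ((add_le_add h2 h1).trans ?_))
    rw [← ENNReal.ofReal_add (by norm_num) (by norm_num)]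
    refine le_of_eq ?_
    norm_num [ENNReal.ofReal_div_of_pos]
  refine ⟨Y, ⟨hcard, hgrid, hgood⟩, fun z hz => ?_⟩
  rw [Metric.mem_closedBall, dist_zero_right] at hz
  obtain ⟨x, hxX, hx1, hx2⟩ := hcov (u₀ + z)
  have hxS : x ∈ S := by
    rw [hS, Set.Finite.mem_toFinset]
    refine ⟨hxX, ?_⟩
    rw [Metric.mem_closedBall, dist_eq_norm, show x - u₀ = z - (u₀ + z - x) by abel]
    exact (norm_sub_le _ _).trans (by linarith)
  refine ⟨rnd (x - u₀), Finset.mem_filter.2 ⟨Finset.mem_image.2 ⟨x, hxS, rfl⟩, ?_⟩,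
    Finset.disjoint_left.2 fun k hk hks => ?_⟩
  · unfold rhi
    linarith [(hclose x z).2, show 0 ≤ 1 / (n : ℝ) ^ 2 by positivity,
      show 2 / (n : ℝ) ^ 2 = 1 / (n : ℝ) ^ 2 + 1 / (n : ℝ) ^ 2 by ring]
  · simp only [cutters, Finset.mem_filter, Finset.mem_univ, true_and] at hk
    obtain ⟨hk1, hk2⟩ := hk
    have h3 := hx2 k hks
    have e : z - rnd (x - u₀) = (u₀ + z - x) - (rnd (x - u₀) - (x - u₀)) := by abel
    rw [e, inner_sub_right] at hk1
    have h4 := (abs_le.1 (abs_real_inner_le_norm (nv k) (rnd (x - u₀) - (x - u₀)))).1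
    have h5 : ‖nv k‖ * ‖rnd (x - u₀) - (x - u₀)‖ ≤ 1 / (n : ℝ) := by
      refine (mul_le_mul (hk2.trans hM.gnorm_le) (norm_rnd_sub_le hn1 _) (norm_nonneg _)
        hn0.le).trans (le_of_eq ?_)
      field_simp
    linarith

end Vale.Agent.P230
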