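import Vale.Agent.P230.Defs

/-!
The random body: the unit ball cut by random halfspaces, one candidate halfspace per cell of a fine
grid of normal vectors, each kept independently.
-/

namespace Vale.Agent.P230

open MeasureTheory ProbabilityTheory
open scoped RealInnerProductSpace

variable {n : ℕ}

/-- the fixed large constant -/
def cc : ℝ := 1000000

/-- the threshold `c √n` of the halfspaces -/
noncomputable def thr (n : ℕ) : ℝ := cc * Real.sqrt n

/-- the largest norm of a normal vector in use -/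
noncomputable def gnorm (n : ℕ) : ℝ := Real.sqrt ((cc ^ 2 + 70) * n)

/-- the side of a grid cell; a cell has diameter at most `1 / n` -/
noncomputable def mesh (n : ℕ) : ℝ := 1 / ((n : ℝ) * Real.sqrt n)

/-- the half width of the grid, in cells -/
noncomputable def gridW (n : ℕ) : ℕ := ⌈(gnorm n + 1) / mesh n⌉₊ + 1

/-- the cells of the grid -/
abbrev Cell (n : ℕ) : Type :=
  ↥(Fintype.piFinset fun _ : Fin n => Finset.Icc (-(gridW n : ℤ)) (gridW n : ℤ))

/-- the normal vector attached to a cell -/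
noncomputable def nv (k : Cell n) : E n := WithLp.toLp 2 fun i => (k.1 i : ℝ) * mesh n

/-- the cell as a set -/
noncomputable def cellSet (k : Cell n) : Set (E n) :=
  {g | ∀ i, (k.1 i : ℝ) * mesh n ≤ g i ∧ g i < ((k.1 i : ℝ) + 1) * mesh n}

/-- the upper tail of the standard normal law -/
noncomputable def tail (x : ℝ) : ℝ := (gaussianReal 0 1).real (Set.Ioi x)

/-- the intensity -/
noncomputable def lam (n : ℕ) : ℝ := (tail (thr n))⁻¹

/-- the probability that a cell is kept -/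
noncomputable def qk (k : Cell n) : ℝ :=
  1 - Real.exp (-(lam n * (stdGaussian (E n)).real (cellSet k)))

/-- the body cut out by the kept cells `s` -/
def body (s : Finset (Cell n)) : Set (E n) := {y | ‖y‖ ≤ 1 ∧ ∀ k ∈ s, ⟪nv k, y⟫ ≤ thr n}

/-- the cells that cut the point `y`, with margin and of bounded norm -/
noncomputable def cutters (y : E n) : Finset (Cell n) :=
  Finset.univ.filter fun k => thr n + 1 / (n : ℝ) < ⟪nv k, y⟫ ∧ ‖nv k‖ ≤ gnorm n

/-- the direction of a vector -/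
noncomputable def dir (y : E n) : E n := ‖y‖⁻¹ • y

/-- below this radius a translate counts as a core translate -/
noncomputable def rlo (n : ℕ) : ℝ := 1 - 3 * Real.log n / n

/-- above this radius a translate is irrelevant -/
noncomputable def rhi (n : ℕ) : ℝ := 1 + 2 / (n : ℝ) ^ 2

/-- the cost of a point at radius `r` -/
noncomputable def wcost (A : ℝ) (n : ℕ) (r : ℝ) : ℝ := A + 3 * cc ^ 2 * n * max 0 (1 - r)

/-- probability that some cell of `R` is kept -/
noncomputable def hitP (R : Finset (Cell n)) : ℝ := 1 - ∏ k ∈ R, (1 - qk k)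

/-- What the Gaussian estimates deliver. `A` is a universal constant. -/
structure GaussFacts (A : ℝ) (n : ℕ) : Prop where
  one_le : 1 ≤ A
  qk_mem : ∀ k : Cell n, qk k ∈ Set.Icc (0 : ℝ) 1
  vol : ∀ y : E n, ‖y‖ ≤ 1 →
    Real.exp (-A) ≤ ∏ k ∈ Finset.univ.filter (fun k : Cell n => thr n < ⟪nv k, y⟫), (1 - qk k)
  hit : ∀ y : E n, rlo n ≤ ‖y‖ → ‖y‖ ≤ rhi n →
    Real.exp (-wcost A n ‖y‖) ≤ hitP (cutters y)
  cap : ∀ (y : E n) (k : Cell n), rlo n ≤ ‖y‖ → ‖y‖ ≤ rhi n → k ∈ cutters y →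
    ‖dir (nv k) - dir y‖ ≤ 1 / 100000
  cross : ∀ y y' : E n, rlo n ≤ ‖y‖ → ‖y‖ ≤ rhi n → rlo n ≤ ‖y'‖ → ‖y'‖ ≤ rhi n →
    (∑ k ∈ cutters y ∩ cutters y', qk k) ≤
      A * Real.exp (-(cc ^ 2 * n * ‖dir y - dir y'‖ ^ 2 / 8))
  tube : ∀ (M : Finset (E n)) (e : E n) (ρ : ℝ), M.card ≤ n ^ 3 → ‖e‖ = 1 →
    (∀ y ∈ M, rlo n ≤ ‖y‖ ∧ ‖y‖ ≤ rhi n) →
    (n : ℝ) ^ (-(2 / 5) : ℝ) ≤ ρ → ρ ≤ (n : ℝ) ^ (-(19 / 50) : ℝ) →
    ∃ R : Finset (Cell n), Real.exp (-(A * n * ρ ^ 2)) ≤ hitP R ∧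
      (∀ k ∈ R, ∀ y ∈ M, ‖dir y - e‖ ≤ ρ → k ∈ cutters y) ∧
      (∀ k ∈ R, ∀ y ∈ M, k ∈ cutters y → ‖dir y - e‖ ≤ 2 * ρ)

end Vale.Agent.P230
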