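import Vale.Agent.P230.Defs

/-!
Every convex body has a translative covering of density at most a constant times `n log n`: cover a
fine packing net of a large cube greedily by slightly shrunken translates, then repeat periodically.
-/

namespace Vale.Agent.P230

open MeasureTheory Filter Module
open scoped ENNReal Topology Pointwise

variable {n : ℕ}

namespace Upper

/-- a cube with equal sides -/
def box (n : ℕ) (a b : ℝ) : Set (E n) := {y | ∀ i, y i ∈ Set.Icc a b}

theorem volume_box {a b : ℝ} (h : a ≤ b) :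
    volume (box n a b) = ENNReal.ofReal ((b - a) ^ n) := by
  have e : box n a b = WithLp.ofLp ⁻¹' (Set.Icc (fun _ : Fin n => a) (fun _ => b)) := by
    ext y
    simp only [box, Set.mem_ofPred_eq, Set.mem_preimage, Set.mem_Icc, Pi.le_def]
    exact ⟨fun h => ⟨fun i => (h i).1, fun i => (h i).2⟩, fun h i => ⟨h.1 i, h.2 i⟩⟩
  rw [e, (PiLp.volume_preserving_ofLp (Fin n)).measure_preimage
    measurableSet_Icc.nullMeasurableSet, Real.volume_Icc_pi]
  simp [ENNReal.ofReal_pow (sub_nonneg.2 h)]

theorem isClosed_box (a b : ℝ) : IsClosed (box n a b) := by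
  have : box n a b = ⋂ i, (fun y : E n => y i) ⁻¹' Set.Icc a b := by
    ext y; simp [box]
  rw [this]
  exact isClosed_iInter fun i => isClosed_Icc.preimage (PiLp.continuous_apply 2 _ i)

theorem coord_le_norm (y : E n) (i : Fin n) : |y i| ≤ ‖y‖ := by
  simpa [Real.norm_eq_abs] using PiLp.norm_apply_le y i

theorem volume_smul_set {c : ℝ} (hc : 0 ≤ c) (A : Set (E n)) :
    volume (c • A) = ENNReal.ofReal (c ^ n) * volume A := by
  rw [Measure.addHaar_smul, finrank_euclideanSpace_fin, abs_of_nonneg (pow_nonneg hc n)]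

theorem volume_flip (A : Set (E n)) (hA : MeasurableSet A) (y : E n) :
    volume {c | y - c ∈ A} = volume A :=
  (Measure.measurePreserving_sub_left (volume : Measure (E n)) y).measure_preimage hA.nullMeasurableSet

/-- some point of `K` is a centre of symmetry of a large part of `K` -/
theorem exists_center {K : Set (E n)} (hK : IsBody K) :
    ∃ x ∈ K, ENNReal.ofReal ((2⁻¹ : ℝ) ^ (n + 1)) * volume K ≤
      volume (K ∩ {y | x + x - y ∈ K}) := by
  obtain ⟨hconv, hcomp, hint⟩ := hK
  have hKm := hcomp.measurableSet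
  set V := volume K with hV
  have hV0 : V ≠ 0 := ((isOpen_interior.measure_pos volume hint).trans_le
    (measure_mono interior_subset)).ne'
  have hVt : V ≠ ⊤ := hcomp.measure_lt_top.ne
  by_contra hno
  push Not at hno
  set Q : Set (E n × E n) := {q | q.2 ∈ K ∧ q.1 + q.1 - q.2 ∈ K} with hQ
  have hQc : IsClosed Q := by
    refine (hcomp.isClosed.preimage continuous_snd).inter
      (hcomp.isClosed.preimage ?_)
    fun_prop
  have h1 : (volume : Measure (E n)).prod (volume : Measure (E n)) Q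
      = ENNReal.ofReal ((2⁻¹ : ℝ) ^ n) * V * V := by
    rw [Measure.prod_apply_symm hQc.measurableSet]
    have : ∀ y, volume ((fun x => (x, y)) ⁻¹' Q) =
        K.indicator (fun _ => ENNReal.ofReal ((2⁻¹ : ℝ) ^ n) * V) y := by
      intro y
      by_cases hy : y ∈ K
      · rw [Set.indicator_of_mem hy]
        have e : (fun x => (x, y)) ⁻¹' Q = (2⁻¹ : ℝ) • ((fun z => y + z) '' K) := by
          ext x
          simp only [hQ, Set.mem_preimage, Set.mem_ofPred_eq, hy, true_and,
            Set.mem_smul_set, Set.mem_image, exists_exists_and_eq_and]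
          constructor
          · intro h
            exact ⟨x + x - y, h, by rw [add_sub_cancel, ← two_smul ℝ x, smul_smul]; norm_num⟩
          · rintro ⟨z, hz, rfl⟩
            rw [← add_smul]
            norm_num
            exact hz
        rw [e, volume_smul_set (by norm_num), Set.image_add_left, measure_preimage_add, hV]
      · rw [Set.indicator_of_notMem hy]
        simp [hQ, hy]
    rw [lintegral_congr this, lintegral_indicator hKm, setLIntegral_const]
  have h2 : (volume : Measure (E n)).prod (volume : Measure (E n)) Q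
      ≤ ENNReal.ofReal ((2⁻¹ : ℝ) ^ (n + 1)) * V * V := by
    rw [Measure.prod_apply hQc.measurableSet]
    calc ∫⁻ x, volume (Prod.mk x ⁻¹' Q)
        ≤ ∫⁻ x, K.indicator (fun _ => ENNReal.ofReal ((2⁻¹ : ℝ) ^ (n + 1)) * V) x := by
          refine lintegral_mono fun x => ?_
          by_cases hx : x ∈ K
          · rw [Set.indicator_of_mem hx]
            exact (hno x hx).le
          · rw [Set.indicator_of_notMem hx]
            refine le_of_eq ?_
            convert measure_empty (μ := (volume : Measure (E n)))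
            ext y
            simp only [hQ, Set.mem_preimage, Set.mem_ofPred_eq, Set.mem_empty_iff_false, iff_false,
              not_and]
            intro hy hy'
            refine hx ?_
            have := hconv hy hy' (show (0 : ℝ) ≤ 2⁻¹ by norm_num)
              (show (0 : ℝ) ≤ 2⁻¹ by norm_num) (by norm_num)
            rwa [← smul_add, add_sub_cancel, ← two_smul ℝ x, smul_smul,
              show (2⁻¹ : ℝ) * 2 = 1 by norm_num, one_smul] at this
      _ = _ := by rw [lintegral_indicator hKm, setLIntegral_const]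
  rw [h1, pow_succ, ENNReal.ofReal_mul (by positivity)] at h2
  have h3 := (ENNReal.mul_le_mul_iff_left hV0 hVt).1 ((ENNReal.mul_le_mul_iff_left hV0 hVt).1 h2)
  rw [← ENNReal.ofReal_mul (by positivity), ENNReal.ofReal_le_ofReal_iff (by positivity)] at h3
  have : (0 : ℝ) < (2⁻¹ : ℝ) ^ n := by positivity
  linarith

/-- a translate covers at least the average share of a finite set -/
theorem exists_good_translate {A B : Set (E n)} (hA : MeasurableSet A) (hB : MeasurableSet B)
    (hBt : volume B ≠ ⊤) (U : Finset (E n)) (hsub : ∀ y ∈ U, {c | y - c ∈ A} ⊆ B) :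
    ∃ c, ∀ (S : Finset (E n)), S ⊆ U → (∀ y ∈ U, y - c ∈ A → y ∈ S) →
      U.card * (volume A).toReal ≤ S.card * (volume B).toReal := by
  classical
  set cnt : E n → ℕ := fun c => (U.filter fun y => y - c ∈ A).card with hcnt
  have hne : (Set.range cnt).Nonempty := Set.range_nonempty _
  have hbdd : BddAbove (Set.range cnt) := ⟨U.card, by
    rintro _ ⟨c, rfl⟩; exact Finset.card_filter_le _ _⟩
  obtain ⟨c, hc⟩ := Nat.sSup_mem hne hbdd
  refine ⟨c, fun S _ hS => ?_⟩
  have hle : ∀ x, cnt x ≤ S.card := fun x => by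
    refine le_trans ((le_csSup hbdd ⟨x, rfl⟩).trans hc.ge) (Finset.card_le_card fun y hy => ?_)
    rw [Finset.mem_filter] at hy
    exact hS y hy.1 hy.2
  have hm : ∀ y : E n, MeasurableSet {x : E n | y - x ∈ A} := fun y =>
    hA.preimage (measurable_const.sub measurable_id)
  have key : (U.card : ℝ≥0∞) * volume A ≤ (S.card : ℝ≥0∞) * volume B := by
    calc (U.card : ℝ≥0∞) * volume A = ∑ y ∈ U, volume {x | y - x ∈ A} := by
          rw [Finset.sum_congr rfl fun y _ => volume_flip A hA y, Finset.sum_const, nsmul_eq_mul]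
      _ = ∫⁻ x, ∑ y ∈ U, ({x | y - x ∈ A}).indicator (fun _ => (1 : ℝ≥0∞)) x := by
          rw [lintegral_finsetSum U fun y _ => measurable_const.indicator (hm y)]
          exact Finset.sum_congr rfl fun y _ => (lintegral_indicator_one (hm y)).symm
      _ ≤ ∫⁻ x, B.indicator (fun _ => (S.card : ℝ≥0∞)) x := by
          refine lintegral_mono fun x => ?_
          simp only [Set.indicator_apply, Set.mem_ofPred_eq]
          rw [← Finset.sum_filter, Finset.sum_const, nsmul_eq_mul, mul_one]
          split_ifs with hx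
          · exact_mod_cast hle x
          · rw [Finset.filter_false_of_mem (p := fun y => y - x ∈ A)
              fun y hy h => hx (hsub y hy h)]
            simp
      _ = _ := by rw [lintegral_indicator hB, setLIntegral_const]
  have := ENNReal.toReal_mono (ENNReal.mul_ne_top (by simp) hBt) key
  simpa [ENNReal.toReal_mul] using this

/-- greedy cover of a finite set -/
theorem greedy_cover {A B : Set (E n)} (hA : MeasurableSet A) (hB : MeasurableSet B)
    (hBt : volume B ≠ ⊤) (hB0 : 0 < (volume B).toReal)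
    (hAB : (volume A).toReal ≤ (volume B).toReal) (Y : Finset (E n))
    (hsub : ∀ y ∈ Y, {c | y - c ∈ A} ⊆ B) (N : ℕ) :
    ∃ C U : Finset (E n), C.card ≤ N ∧ U ⊆ Y ∧ (∀ y ∈ Y, y ∉ U → ∃ c ∈ C, y - c ∈ A) ∧
      (U.card : ℝ) ≤ (1 - (volume A).toReal / (volume B).toReal) ^ N * Y.card := by
  classical
  induction N with
  | zero => exact ⟨∅, Y, by simp, subset_rfl, fun y hy h => absurd hy h, by simp⟩
  | succ N ih =>
    obtain ⟨C, U, hC, hU, hcov, hcard⟩ := ih
    obtain ⟨c, hc⟩ := exists_good_translate hA hB hBt U fun y hy => hsub y (hU hy)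
    set S := U.filter fun y => y - c ∈ A
    refine ⟨insert c C, U.filter fun y => ¬ y - c ∈ A,
      (Finset.card_insert_le _ _).trans (by omega),
      (Finset.filter_subset _ _).trans hU, fun y hy h => ?_, ?_⟩
    · by_cases hyU : y ∈ U
      · rw [Finset.mem_filter, not_and, not_not] at h
        exact ⟨c, Finset.mem_insert_self _ _, h hyU⟩
      · obtain ⟨c', hc', hc''⟩ := hcov y hy hyU
        exact ⟨c', Finset.mem_insert_of_mem hc', hc''⟩
    · have h1 := hc S (Finset.filter_subset _ _) fun y hy h => Finset.mem_filter.2 ⟨hy, h⟩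
      have h2 : (S.card : ℝ) + (U.filter fun y => ¬ y - c ∈ A).card = U.card := by
        exact_mod_cast Finset.card_filter_add_card_filter_not (s := U) fun y => y - c ∈ A
      set p := (volume A).toReal / (volume B).toReal with hp
      have h3 : p * U.card ≤ S.card := by
        rw [hp, div_mul_eq_mul_div, div_le_iff₀ hB0]
        linarith
      calc ((U.filter fun y => ¬ y - c ∈ A).card : ℝ) ≤ (1 - p) * U.card := by linarith
        _ ≤ (1 - p) * ((1 - p) ^ N * Y.card) :=
            mul_le_mul_of_nonneg_left hcard (sub_nonneg.2 ((div_le_one hB0).2 hAB))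
        _ = _ := by ring

/-- a periodic set and its upper density -/
theorem periodic_density {T : ℝ} (hT : 0 < T) (C : Finset (E n)) :
    LocFinite {x : E n | ∃ c ∈ C, ∃ k : Fin n → ℤ, ∀ i, x i = c i + T * k i} ∧
      upperDensity {x : E n | ∃ c ∈ C, ∃ k : Fin n → ℤ, ∀ i, x i = c i + T * k i} ≤
        ENNReal.ofReal (C.card / T ^ n) := by
  classical
  set X := {x : E n | ∃ c ∈ C, ∃ k : Fin n → ℤ, ∀ i, x i = c i + T * k i}
  have hcount : ∀ R : ℝ, 0 ≤ R → ((X ∩ cube n R).encard : ℝ≥0∞) ≤
      ENNReal.ofReal (C.card * (2 * R / T + 1) ^ n) := by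
    intro R hR
    set box' : E n → Finset (Fin n → ℤ) := fun c =>
      Fintype.piFinset fun i => Finset.Icc ⌈(-R - c i) / T⌉ ⌊(R - c i) / T⌋
    set P : Finset (E n) := C.biUnion fun c =>
      (box' c).image fun k => (WithLp.toLp 2 fun i => c i + T * k i : E n)
    have hsub : X ∩ cube n R ⊆ ↑P := by
      rintro x ⟨⟨c, hc, k, hk⟩, hx⟩
      simp only [P, Finset.coe_biUnion, Set.mem_iUnion, Finset.coe_image, Set.mem_image,
        Finset.mem_coe]
      refine ⟨c, hc, k, ?_, ?_⟩
      · rw [Fintype.mem_piFinset]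
        intro i
        have := abs_le.1 (hk i ▸ hx i)
        rw [Finset.mem_Icc, Int.ceil_le, Int.le_floor, div_le_iff₀ hT, le_div_iff₀ hT]
        constructor <;> linarith
      · ext i
        simp [hk i]
    have hP : (P.card : ℝ) ≤ C.card * (2 * R / T + 1) ^ n := by
      refine (Nat.cast_le.2 Finset.card_biUnion_le).trans ?_
      rw [Nat.cast_sum]
      refine (Finset.sum_le_card_nsmul _ _ ((2 * R / T + 1) ^ n) fun c _ => ?_).trans_eq
        (by rw [nsmul_eq_mul])
      refine (Nat.cast_le.2 Finset.card_image_le).trans ?_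
      rw [Fintype.card_piFinset, Nat.cast_prod]
      refine (Finset.prod_le_prod (g := fun _ => 2 * R / T + 1) (fun i _ => Nat.cast_nonneg _)
        fun i _ => ?_).trans_eq (by simp)
      rw [Int.card_Icc]
      have h1 := Int.le_ceil ((-R - c i) / T)
      have h2 := Int.floor_le ((R - c i) / T)
      have h3 : (R - c i) / T - (-R - c i) / T = 2 * R / T := by ring
      rcases le_total 0 (⌊(R - c i) / T⌋ + 1 - ⌈(-R - c i) / T⌉) with h | h
      · have e : ((⌊(R - c i) / T⌋ + 1 - ⌈(-R - c i) / T⌉).toNat : ℝ)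
            = (⌊(R - c i) / T⌋ : ℝ) + 1 - ⌈(-R - c i) / T⌉ := by
          have := Int.toNat_of_nonneg h
          exact_mod_cast this
        rw [e]
        linarith
      · rw [Int.toNat_of_nonpos h, Nat.cast_zero]
        positivity
    calc ((X ∩ cube n R).encard : ℝ≥0∞) ≤ ((P : Set (E n)).encard : ℝ≥0∞) := by
          exact_mod_cast Set.encard_le_encard hsub
      _ = ENNReal.ofReal P.card := by simp
      _ ≤ _ := ENNReal.ofReal_le_ofReal hP
  constructor
  · intro S hS
    obtain ⟨R, hR⟩ := hS.subset_closedBall (0 : E n)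
    have hsub : X ∩ S ⊆ X ∩ cube n (max R 0) := by
      rintro x ⟨hx, hxS⟩
      refine ⟨hx, fun i => ((coord_le_norm x i).trans ?_)⟩
      have := hR hxS
      rw [mem_closedBall_zero_iff] at this
      exact this.trans (le_max_left _ _)
    refine Set.Finite.subset ?_ hsub
    rw [← Set.encard_ne_top_iff]
    intro htop
    have := hcount (max R 0) (le_max_right _ _)
    rw [htop, ENat.toENNReal_top] at this
    exact ENNReal.ofReal_ne_top (top_le_iff.1 this)
  · have hbd : ∀ᶠ R : ℝ in atTop, ((X ∩ cube n R).encard : ℝ≥0∞) / ENNReal.ofReal ((2 * R) ^ n) ≤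
        ENNReal.ofReal (C.card * (1 / T + (2 * R)⁻¹) ^ n) := by
      filter_upwards [eventually_gt_atTop 0] with R hR
      refine (ENNReal.div_le_div_right (hcount R hR.le) _).trans_eq ?_
      rw [← ENNReal.ofReal_div_of_pos (by positivity)]
      congr 1
      rw [mul_div_assoc, ← div_pow]
      congr 2
      field_simp
    refine (limsup_le_limsup hbd).trans (le_of_eq (Tendsto.limsup_eq ?_))
    refine ENNReal.tendsto_ofReal ?_
    have h : Tendsto (fun R : ℝ => (1 / T + (2 * R)⁻¹)) atTop (𝓝 (1 / T)) := by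
      simpa using (tendsto_inv_atTop_zero.comp (tendsto_id.const_mul_atTop
        (show (0 : ℝ) < 2 by norm_num))).const_add (1 / T)
    have := (h.pow n).const_mul (C.card : ℝ)
    simpa only [one_div, inv_pow, ← div_eq_mul_inv] using this

theorem add_mem_box {T r : ℝ} {y v : E n} (hy : y ∈ box n 0 T) (hv : ‖v‖ ≤ r) :
    y + v ∈ box n (-r) (T + r) := fun i => by
  have h1 := abs_le.1 ((coord_le_norm v i).trans hv)
  have h2 := hy i
  simp only [Set.mem_Icc] at h2 ⊢
  have : (y + v) i = y i + v i := rfl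
  rw [this]
  constructor <;> linarith [h1.1, h1.2, h2.1, h2.2]

theorem norm_le_of_mem_smul {K0 : Set (E n)} {r c : ℝ} (hr : ∀ x ∈ K0, ‖x‖ ≤ r) (hc : 0 ≤ c)
    (hc1 : c ≤ 1) : ∀ v ∈ c • K0, ‖v‖ ≤ r := by
  rintro _ ⟨z, hz, rfl⟩
  simp only [norm_smul, Real.norm_eq_abs, abs_of_nonneg hc]
  exact (mul_le_of_le_one_left (norm_nonneg _) hc1).trans (hr z hz)

/-- a maximal packing of a cube by shrunken symmetric parts is a net -/
theorem exists_net {K0 : Set (E n)} (hc : IsCompact K0) (hv : Convex ℝ K0) (h00 : (0 : E n) ∈ K0)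
    {r e T : ℝ} (hr : ∀ x ∈ K0, ‖x‖ ≤ r) (he0 : 0 < e) (he1 : e ≤ 1) (hT0 : 0 ≤ T)
    (hpos : 0 < (volume {z : E n | z ∈ K0 ∧ -z ∈ K0}).toReal) :
    ∃ Y : Finset (E n), ↑Y ⊆ box n 0 T ∧
      (Y.card : ℝ) * ((e / 2) ^ n * (volume {z : E n | z ∈ K0 ∧ -z ∈ K0}).toReal) ≤
        (T + 2 * r) ^ n ∧
      ∀ z ∈ box n 0 T, ∃ y ∈ Y, z - y ∈ e • K0 := by
  classical
  set S0 : Set (E n) := {z | z ∈ K0 ∧ -z ∈ K0} with hS0
  have hS0c : IsCompact S0 := hc.inter_right (hc.isClosed.preimage continuous_neg)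
  set P : Set (E n) := (e / 2) • S0 with hP
  have hPc : IsCompact P := hS0c.smul _
  have hr0 : 0 ≤ r := (norm_nonneg _).trans (hr 0 h00)
  have hPv : (volume P).toReal = (e / 2) ^ n * (volume S0).toReal := by
    rw [hP, volume_smul_set (by positivity), ENNReal.toReal_mul,
      ENNReal.toReal_ofReal (by positivity)]
  have hnormP : ∀ v ∈ P, ‖v‖ ≤ r :=
    norm_le_of_mem_smul (fun x hx => hr x hx.1) (by positivity) (by linarith)
  set Good : Finset (E n) → Prop := fun Y => ↑Y ⊆ box n 0 T ∧
    ∀ y ∈ Y, ∀ y' ∈ Y, y ≠ y' → ∀ v ∈ P, ∀ v' ∈ P, y + v ≠ y' + v'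
  have hab : -r ≤ T + r := by linarith
  have hBt : volume (box n (-r) (T + r)) ≠ ⊤ := by
    rw [volume_box hab]; exact ENNReal.ofReal_ne_top
  have hpack : ∀ Y : Finset (E n), Good Y → (Y.card : ℝ) * (volume P).toReal ≤ (T + 2 * r) ^ n := by
    intro Y hY
    have h1 : (Y.card : ℝ≥0∞) * volume P ≤ volume (box n (-r) (T + r)) := by
      calc (Y.card : ℝ≥0∞) * volume P = ∑ y ∈ Y, volume ((fun z => -y + z) ⁻¹' P) := by
            simp [measure_preimage_add]
        _ = volume (⋃ y ∈ Y, (fun z => -y + z) ⁻¹' P) := by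
            refine (measure_biUnion_finset (fun y hy y' hy' hne => ?_) fun y _ =>
              hPc.measurableSet.preimage (measurable_const_add _)).symm
            rw [Function.onFun, Set.disjoint_left]
            intro z hz hz'
            exact hY.2 y hy y' hy' hne _ hz _ hz' (by simp)
        _ ≤ _ := measure_mono (Set.iUnion₂_subset fun y hy z hz => by
            simpa using add_mem_box (hY.1 hy) (hnormP _ hz))
    have := ENNReal.toReal_mono hBt h1
    rw [ENNReal.toReal_mul, volume_box hab, ENNReal.toReal_natCast,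
      ENNReal.toReal_ofReal (pow_nonneg (by linarith) n)] at this
    rwa [show T + 2 * r = T + r - -r by ring]
  have hP0 : 0 < (volume P).toReal := by rw [hPv]; positivity
  obtain ⟨Y, hY, hmax⟩ : ∃ Y, Good Y ∧ ∀ Y', Good Y' → Y'.card ≤ Y.card := by
    have hbdd : BddAbove (Finset.card '' {Y | Good Y}) := by
      refine ⟨⌈(T + 2 * r) ^ n / (volume P).toReal⌉₊, ?_⟩
      rintro _ ⟨Y, hY, rfl⟩
      have h1 : (Y.card : ℝ) ≤ (T + 2 * r) ^ n / (volume P).toReal := by
        rw [le_div_iff₀ hP0]; exact hpack Y hY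
      exact_mod_cast h1.trans (Nat.le_ceil _)
    obtain ⟨Y, hY, hYc⟩ := Nat.sSup_mem (s := Finset.card '' {Y | Good Y})
      ⟨0, ∅, ⟨by simp, by simp⟩, rfl⟩ hbdd
    exact ⟨Y, hY, fun Y' hY' => hYc ▸ le_csSup hbdd ⟨Y', hY', rfl⟩⟩
  refine ⟨Y, hY.1, hPv ▸ hpack Y hY, fun z hz => ?_⟩
  by_cases hzY : z ∈ Y
  · exact ⟨z, hzY, 0, h00, by simp⟩
  by_contra hno
  have hclash : ∀ y ∈ Y, ∀ v ∈ P, ∀ v' ∈ P, y + v ≠ z + v' := by
    rintro y hy _ ⟨s, hs, rfl⟩ _ ⟨t, ht, rfl⟩ heq
    refine hno ⟨y, hy, (2⁻¹ : ℝ) • s + (2⁻¹ : ℝ) • (-t), ?_, ?_⟩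
    · exact hv hs.1 ht.2 (by norm_num) (by norm_num) (by norm_num)
    · simp only at heq ⊢
      rw [smul_add, smul_smul, smul_smul, smul_neg, ← sub_eq_add_neg, ← div_eq_mul_inv,
        eq_sub_iff_add_eq, sub_add_eq_add_sub, sub_eq_iff_eq_add, add_comm, heq]
  have h := hmax (insert z Y) ⟨by
    rw [Finset.coe_insert]; exact Set.insert_subset hz hY.1, ?_⟩
  · rw [Finset.card_insert_of_notMem hzY] at h; omega
  intro y hy y' hy' hne v hv v' hv'
  rw [Finset.mem_insert] at hy hy'
  rcases hy with rfl | hy <;> rcases hy' with rfl | hy'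
  · exact absurd rfl hne
  · exact fun h => hclash y' hy' v' hv' v hv h.symm
  · exact hclash y hy v hv v' hv'
  · exact hY.2 y hy y' hy' hne v hv v' hv'

/-- the uncovered count after `N` greedy steps -/
theorem uncovered_bound {m W V e L : ℝ} {k : ℕ} {q : ℝ} (hm : 0 < m) (hW : 0 < W) (hV : 0 < V)
    (hq : q = (1 - e) ^ k * V / W) (hbern : 1 / 2 ≤ (1 - e) ^ k) (hq1 : q ≤ 1)
    {N : ℕ} (hN : 2 * (W / V) * L ≤ N) (hexp : m = Real.exp L) :
    (1 - q) ^ N * (2 * (W / V) * m) ≤ 2 * (W / V) := by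
  have h2 : V / (2 * W) ≤ q := by
    rw [hq, div_le_div_iff₀ (by positivity) hW]
    have := mul_le_mul_of_nonneg_right hbern (mul_nonneg hV.le hW.le)
    linarith
  have h3 : L = 2 * (W / V) * L * (V / (2 * W)) := by field_simp
  have h4 : 2 * (W / V) * L * (V / (2 * W)) ≤ N * q :=
    mul_le_mul hN h2 (by positivity) (Nat.cast_nonneg _)
  refine (mul_le_mul_of_nonneg_right (pow_le_pow_left₀ (by linarith)
    (Real.one_sub_le_exp_neg q) N) (by positivity)).trans ?_
  rw [← Real.exp_nat_mul, hexp, mul_left_comm, ← Real.exp_add]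
  exact mul_le_of_le_one_right (by positivity) (Real.exp_le_one_iff.2 (by linarith))

/-- the arithmetic of the density -/
theorem density_bound (hn : 2 ≤ n) {V W r c : ℝ} (hV : 0 < V) (hr : 0 < r)
    (hW : W = (2 * r * n + 2 * r) ^ n) (hVW : V ≤ 2 * W)
    (hc : c ≤ 2 * (W / V) * ((n : ℝ) * Real.log (8 * n)) + 1 + 2 * (W / V)) :
    V * (c / (2 * r * n) ^ n) ≤ 60 * (n * Real.log n) := by
  have h2 : (2 : ℝ) ≤ n := by exact_mod_cast hn
  have hn0 : (0 : ℝ) < n := by linarith
  set T : ℝ := 2 * r * n with hT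
  set L : ℝ := Real.log (8 * n) with hL
  have hW0 : 0 ≤ W := by linarith
  have hL0 : 0 ≤ L := Real.log_nonneg (by linarith)
  have hWT : W ≤ 3 * T ^ n := by
    have h1 : W = T ^ n * (1 + 1 / n) ^ n := by
      rw [hW, ← mul_pow]; congr 1; rw [hT]; field_simp
    have h3 : (1 + 1 / (n : ℝ)) ^ n ≤ Real.exp 1 := by
      calc (1 + 1 / (n : ℝ)) ^ n ≤ Real.exp (1 / n) ^ n :=
            pow_le_pow_left₀ (by positivity) (by
              linarith [Real.add_one_le_exp (1 / (n : ℝ))]) n
        _ = _ := by rw [← Real.exp_nat_mul]; field_simp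
    rw [h1, mul_comm 3]
    exact mul_le_mul_of_nonneg_left (by linarith [Real.exp_one_lt_d9]) (by positivity)
  have hLn : L ≤ 4 * Real.log n := by
    rw [show (4 : ℝ) * Real.log n = Real.log ((n : ℝ) ^ 4) by rw [Real.log_pow]; norm_num, hL]
    refine Real.log_le_log (by positivity) ?_
    nlinarith [pow_le_pow_left₀ two_pos.le h2 3]
  have hnl : 1 ≤ (n : ℝ) * Real.log n := by
    nlinarith [Real.log_le_log two_pos h2, Real.log_two_gt_d9]
  have hnL : 2 * ((n : ℝ) * L) + 4 ≤ 12 * (n * Real.log n) := by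
    have := mul_le_mul_of_nonneg_left hLn hn0.le
    linarith
  have hc1 : c ≤ W / V * (2 * (n * L) + 4) := by
    have h1 : 1 ≤ 2 * (W / V) := by rw [mul_div_assoc', le_div_iff₀ hV]; linarith
    linarith [show W / V * (2 * (n * L) + 4) = 2 * (W / V) * (n * L) + 4 * (W / V) by ring]
  have h5 : V * (c / T ^ n) ≤ V * (W / V * (2 * (n * L) + 4) / T ^ n) := by gcongr
  refine h5.trans ?_
  rw [show V * (W / V * (2 * (n * L) + 4) / T ^ n) = W / T ^ n * (2 * (n * L) + 4) by
    field_simp]
  refine (mul_le_mul ((div_le_iff₀ (by positivity)).2 hWT) hnL (by positivity)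
    (by norm_num)).trans ?_
  linarith

end Upper

open Upper in
/-- Rogers: every convex body has covering density at most a constant times `n log n`. -/
theorem thetaT_le_rogers : ∃ C : ℝ, 0 < C ∧ ∀ n : ℕ, 2 ≤ n → ∀ K : Set (E n), IsBody K →
    thetaT K ≤ ENNReal.ofReal (C * (n * Real.log n)) := by
  classical
  refine ⟨60, by norm_num, fun n hn K hK => ?_⟩
  obtain ⟨x₀, hx₀, hcen⟩ := exists_center hK
  obtain ⟨hconv, hcomp, hint⟩ := hK
  have hn2 : (2 : ℝ) ≤ n := by exact_mod_cast hn
  have hn0 : (0 : ℝ) < n := by linarith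
  set V := (volume K).toReal with hV
  have hVt : volume K ≠ ⊤ := hcomp.measure_lt_top.ne
  have hV0 : 0 < V := ENNReal.toReal_pos ((isOpen_interior.measure_pos volume hint).trans_le
    (measure_mono interior_subset)).ne' hVt
  -- the centred body and its symmetric part
  set K0 : Set (E n) := (fun z => x₀ + z) ⁻¹' K with hK0
  have hK0c : IsCompact K0 := (Homeomorph.addLeft x₀).isCompact_preimage.2 hcomp
  have hK0v : Convex ℝ K0 := by
    simpa [hK0, add_comm] using hconv.translate_preimage_left x₀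
  have h00 : (0 : E n) ∈ K0 := by simpa [hK0] using hx₀
  have hK0V : volume K0 = volume K := by rw [hK0, measure_preimage_add]
  have hS0V : (2⁻¹ : ℝ) ^ (n + 1) * V ≤ (volume {z : E n | z ∈ K0 ∧ -z ∈ K0}).toReal := by
    have e : volume {z : E n | z ∈ K0 ∧ -z ∈ K0} = volume (K ∩ {y | x₀ + x₀ - y ∈ K}) := by
      rw [← measure_preimage_add (volume : Measure (E n)) x₀ (K ∩ {y | x₀ + x₀ - y ∈ K})]
      congr 1
      ext z
      simp only [hK0, Set.mem_ofPred_eq, Set.mem_preimage, Set.mem_inter_iff]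
      rw [show x₀ + x₀ - (x₀ + z) = x₀ + -z by abel]
    have := ENNReal.toReal_mono (hK0c.inter_right
      (hK0c.isClosed.preimage continuous_neg)).measure_lt_top.ne (e ▸ hcen :
        ENNReal.ofReal ((2⁻¹ : ℝ) ^ (n + 1)) * volume K ≤ volume {z : E n | z ∈ K0 ∧ -z ∈ K0})
    rwa [ENNReal.toReal_mul, ENNReal.toReal_ofReal (by positivity)] at this
  -- the scales
  obtain ⟨r, hr0, hr⟩ := hK0c.isBounded.exists_pos_norm_le
  set e : ℝ := 1 / (2 * n) with he
  have he0 : 0 < e := by rw [he]; positivity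
  have he1 : e ≤ 1 / 2 := by
    rw [he]
    exact one_div_le_one_div_of_le two_pos (by linarith)
  have hne : (n : ℝ) * e = 1 / 2 := by rw [he]; field_simp
  set T : ℝ := 2 * r * n with hT
  have hT0 : 0 < T := by positivity
  have hab : -r ≤ T + r := by linarith
  set B : Set (E n) := box n (-r) (T + r) with hB
  set A : Set (E n) := (1 - e) • K0 with hA
  set W : ℝ := (T + 2 * r) ^ n with hW
  have hW0 : 0 < W := by positivity
  have hBv : (volume B).toReal = W := by
    rw [hB, volume_box hab, ENNReal.toReal_ofReal (pow_nonneg (by linarith) n), hW]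
    ring_nf
  have hBt : volume B ≠ ⊤ := by rw [hB, volume_box hab]; exact ENNReal.ofReal_ne_top
  have hAc : IsCompact A := hK0c.smul _
  have hAv : (volume A).toReal = (1 - e) ^ n * V := by
    rw [hA, volume_smul_set (by linarith), hK0V, ENNReal.toReal_mul,
      ENNReal.toReal_ofReal (pow_nonneg (by linarith) n)]
  have hnormA : ∀ v ∈ A, ‖v‖ ≤ r := norm_le_of_mem_smul hr (by linarith) (by linarith)
  -- the net
  obtain ⟨Y, hY, hYc, hnet⟩ := exists_net hK0c hK0v h00 hr he0 (by linarith) hT0.le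
    (lt_of_lt_of_le (by positivity) hS0V)
  have hYc' : (Y.card : ℝ) ≤ 2 * (W / V) * (8 * n) ^ n := by
    have h1 := (mul_le_mul_of_nonneg_left (mul_le_mul_of_nonneg_left hS0V
      (pow_nonneg (by positivity : 0 ≤ e / 2) n)) (Nat.cast_nonneg Y.card)).trans hYc
    have h2 : (e / 2) ^ n * ((2⁻¹ : ℝ) ^ (n + 1) * V) = V / (2 * (8 * n) ^ n) := by
      rw [pow_succ, show (e / 2) ^ n * ((2⁻¹) ^ n * 2⁻¹ * V) = (e / 2 * 2⁻¹) ^ n * (2⁻¹ * V) by
        rw [mul_pow]; ring, show e / 2 * 2⁻¹ = (8 * (n : ℝ))⁻¹ by rw [he]; field_simp; ring,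
        inv_pow]
      field_simp
    rw [h2, mul_div_assoc', div_le_iff₀ (by positivity), ← hW] at h1
    rw [mul_comm 2 (W / V), mul_assoc, div_mul_eq_mul_div, le_div_iff₀ hV0]
    linarith
  -- the greedy cover
  have hsubA : ∀ y ∈ Y, {c | y - c ∈ A} ⊆ B := fun y hy c hc => by
    simpa using add_mem_box (r := r) (hY hy) (v := -(y - c)) (by rw [norm_neg]; exact hnormA _ hc)
  have hbern : 1 / 2 ≤ (1 - e) ^ n := by
    have h := one_add_mul_le_pow (show -2 ≤ -e by linarith) n
    rw [sub_eq_add_neg]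
    linarith
  have hAB : (volume A).toReal ≤ (volume B).toReal := by
    refine ENNReal.toReal_mono hBt (measure_mono fun v hv => ?_)
    simpa using add_mem_box (T := T) (y := (0 : E n)) (fun i => ⟨le_rfl, hT0.le⟩) (hnormA v hv)
  have hAleW : (1 - e) ^ n * V ≤ W := by rw [← hAv, ← hBv]; exact hAB
  have hL0 : 0 ≤ (n : ℝ) * Real.log (8 * n) :=
    mul_nonneg hn0.le (Real.log_nonneg (by linarith))
  set N : ℕ := ⌈2 * (W / V) * (n * Real.log (8 * n))⌉₊ with hNdef
  obtain ⟨C, U, hC, -, hcov, hU⟩ := greedy_cover hAc.measurableSet (isClosed_box _ _).measurableSet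
    hBt (hBv ▸ hW0) hAB Y hsubA N
  rw [hAv, hBv] at hU
  have hq1 : (1 - e) ^ n * V / W ≤ 1 := (div_le_one hW0).2 hAleW
  have hUc : (U.card : ℝ) ≤ 2 * (W / V) :=
    (hU.trans (mul_le_mul_of_nonneg_left hYc' (pow_nonneg (by linarith) N))).trans
      (uncovered_bound (by positivity) hW0 hV0 rfl hbern hq1 (Nat.le_ceil _)
        (by rw [Real.exp_nat_mul, Real.exp_log (by positivity)]))
  -- periodic repetition
  set C' : Finset (E n) := (C ∪ U).image fun c => c - x₀
  obtain ⟨hlf, hdens⟩ := periodic_density hT0 C'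
  refine iInf_le_of_le _ (iInf_le_of_le hlf (iInf_le_of_le (fun z => ?_) ?_))
  · set k : Fin n → ℤ := fun i => ⌊z i / T⌋
    set z' : E n := z - (WithLp.toLp 2 fun i => T * k i : E n) with hz'
    have hz'i : ∀ i, z' i = z i - T * k i := fun i => by simp [hz']
    have hbz : z' ∈ box n 0 T := fun i => by
      have h1 := Int.floor_le (z i / T)
      have h2 := Int.lt_floor_add_one (z i / T)
      rw [le_div_iff₀ hT0] at h1
      rw [div_lt_iff₀ hT0] at h2
      simp only [hz'i, Set.mem_Icc, k]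
      constructor <;> linarith
    obtain ⟨y, hy, w, hw, hzy⟩ := hnet z' hbz
    obtain ⟨c, hc, a, ha, hyc⟩ : ∃ c ∈ C ∪ U, y - c ∈ A := by
      by_cases hyU : y ∈ U
      · exact ⟨y, Finset.mem_union_right _ hyU, 0, h00, by simp⟩
      · obtain ⟨c, hc, h⟩ := hcov y hy hyU
        exact ⟨c, Finset.mem_union_left _ hc, h⟩
    refine ⟨(WithLp.toLp 2 fun i => (c - x₀) i + T * k i : E n),
      ⟨c - x₀, Finset.mem_image_of_mem _ hc, k, fun i => rfl⟩, ?_⟩
    have hmem : e • w + (1 - e) • a ∈ K0 := hK0v hw ha he0.le (by linarith) (by ring)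
    have key : z - (WithLp.toLp 2 fun i => (c - x₀) i + T * k i : E n)
        = x₀ + (e • w + (1 - e) • a) := by
      simp only at hzy hyc
      rw [hzy, hyc, hz']
      ext i
      simp
      ring
    rw [key]
    exact hmem
  calc volume K * upperDensity _ ≤ volume K * ENNReal.ofReal (C'.card / T ^ n) :=
        mul_le_mul' le_rfl hdens
    _ = ENNReal.ofReal (V * (C'.card / T ^ n)) := by
        rw [ENNReal.ofReal_mul hV0.le, hV, ENNReal.ofReal_toReal hVt]
    _ ≤ _ := by
        refine ENNReal.ofReal_le_ofReal (density_bound hn hV0 hr0 rfl ?_ ?_)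
        · have := mul_le_mul_of_nonneg_right hbern hV0.le
          linarith
        · have h1 : (C'.card : ℝ) ≤ C.card + U.card := by
            exact_mod_cast Finset.card_image_le.trans (Finset.card_union_le C U)
          have h2 := Nat.ceil_lt_add_one (show (0 : ℝ) ≤ 2 * (W / V) * (n * Real.log (8 * n)) by
            positivity)
          have h3 : (C.card : ℝ) ≤ N := by exact_mod_cast hC
          rw [← hNdef] at h2
          linarith

end Vale.Agent.P230
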